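import Vale.Agent.P167.H562.Q.CB3

/-!
# P167, general `q`, block Q-START: large segments near a zone, next to frozen rows

`macro_F`: version of `macro_B` in which property `OneC` is needed only for the small boxes which avoid
`m` given balls, and the factor may depend on the squares of these balls.
-/

namespace Vale.Agent.P167.H398.Q

open Finset Filter Topology MeasureTheory Vale.Agent.P167.FK
open Vale.Agent.P145.FB (PStep PConn)
open Vale.Agent.P167.FKA (Loc Ind mem_bxx_sh shi_sh sh_shi ArmDec)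
open Vale.Agent.P167.H519 (IsLim loc_cont Bq_mono exists_Bq)
open Vale.Agent.P167.H166 (bxx mem_bxx)
open Vale.Agent.P167.H45 (gp BL BL_fin zz zz_box small_box bs_le grid_fin nm_le nm_sub_le cl BL_measR
  nm_sub_comm gp_disj)
open Vale.Agent.P167.H562 (Em Em_mono Em_holder Em_eq)
open Vale.Agent.P167.H562.GL Vale.Agent.P167.H562.SML Vale.Agent.P167.H945
open Vale.Agent.P167.H562.QM
open Relation

variable {Q : ℝ} {D : Finset (ℤ × ℤ)} {η : Cfg} {x b : ℤ × ℤ} {r R R' : ℤ} {pl pr : Bool}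

/-- Deterministic part of the bound of the number of the macroscopic segments near a set `A`. -/
theorem macro_detF {k : ℤ} (hk : 2 ≤ k) {Z : ℤ × ℤ → ℤ → Cfg → ℕ}
    (hZ1 : ∀ x r, 1 ≤ r → ∀ ω ω' : Cfg, (∀ v, nm (v - x) ≤ k * r → ω v = ω' v) →
      Z x r ω = Z x r ω')
    (hZ2 : ∀ x r, 1 ≤ r → ∀ (ω : Cfg) (𝓕 : Finset (Finset Ed)), (∀ γ ∈ 𝓕, IsSeg ω γ) →
      (∀ γ ∈ 𝓕, ∀ γ' ∈ 𝓕, γ ≠ γ' → Disjoint γ γ') → (∀ γ ∈ 𝓕, Crs k r x γ) → 𝓕.card ≤ Z x r ω)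
    (κ R : ℝ) (m N : ℕ) (hN0 : 0 < N) (hκ : 0 < κ) (hR : 0 ≤ R) : ∃ ε D ρ0 : ℝ, 0 < ε ∧ 0 < ρ0 ∧
    ε = κ / (2 * (4 * (k + 4) * ((N + 2 * m : ℕ) : ℝ))) ∧
    ∀ ρ : ℝ, ρ0 ≤ ρ → ∀ (c : ℤ × ℤ) (A : Finset (ℤ × ℤ)), (∀ v ∈ A, (nm (v - c) : ℝ) ≤ R * ρ) →
    ∀ (x : Fin m → ℤ × ℤ), ∃ (r : ℤ) (I : Finset (ℕ × (ℤ × ℤ))),
      1 ≤ r ∧ (I.card : ℝ) ≤ D ∧ (∀ i ∈ I, i.1 = 0) ∧
      ((k : ℝ) * r ≤ κ * ρ / 4) ∧
      (∀ i ∈ I, ∀ v, nm (v - gp r i.2) ≤ k * r → (∃ u ∈ A, (nm (v - u) : ℝ) ≤ κ * ρ) ∧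
        ∀ j, ε * ρ < (nm (v - x j) : ℝ)) ∧
      (∀ ω ω' : Cfg, (∀ v, (∃ u ∈ A, (nm (v - u) : ℝ) ≤ κ * ρ) →
        (∀ i, ε * ρ < (nm (v - x i) : ℝ)) → ω v = ω' v) →
        (∑ i ∈ I, Z (gp r i.2) r ω) / N = (∑ i ∈ I, Z (gp r i.2) r ω') / N) ∧
      ∀ ω, MajA A (κ * ρ) ω ((∑ i ∈ I, Z (gp r i.2) r ω) / N) := by
  classical
  have hkR : (2 : ℝ) ≤ k := by exact_mod_cast hk
  have hNm : (1 : ℝ) ≤ ((N + 2 * m : ℕ) : ℝ) := by
    have : 1 ≤ N + 2 * m := by omega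
    exact_mod_cast this
  set a : ℝ := 4 * (k + 4) * ((N + 2 * m : ℕ) : ℝ) with ha
  have ha0 : 0 < a := by positivity
  set D : ℝ := (4 * (R + κ) * (a / κ) + 2) ^ 2 with hD
  refine ⟨κ / (2 * a), D, a / κ, by positivity, by positivity, rfl,
    fun ρ hρ c A hA x => ?_⟩
  have hρ0 : 0 < ρ := lt_of_lt_of_le (by positivity) hρ
  have hxa : 1 ≤ κ * ρ / a := by
    rw [div_le_iff₀ hκ] at hρ
    rw [one_le_div ha0]; linarith
  set r : ℤ := ⌊κ * ρ / a⌋ with hr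
  have hr1 : 1 ≤ r := by rw [hr, Int.le_floor]; exact_mod_cast hxa
  have hrle : (r : ℝ) ≤ κ * ρ / a := Int.floor_le _
  have hrge : κ * ρ / a ≤ 2 * r := by
    have := Int.lt_floor_add_one (κ * ρ / a)
    have h1 : (1 : ℝ) ≤ r := by exact_mod_cast hr1
    rw [← hr] at this
    linarith
  have hrle' : a * r ≤ κ * ρ := by
    rw [le_div_iff₀ ha0] at hrle; linarith
  have hr1' : (1 : ℝ) ≤ r := by exact_mod_cast hr1
  have hεr : κ / (2 * a) * ρ ≤ r := by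
    have : κ / (2 * a) * ρ = κ * ρ / a / 2 := by field_simp
    rw [this]; linarith
  set P1 : ℤ := ⌊(R + κ) * ρ⌋ with hP
  have hP0 : 0 ≤ P1 := by
    rw [hP]; exact Int.floor_nonneg.2 (by positivity)
  obtain ⟨J, hJ1, hJ2⟩ := grid_fin c hr1 hP0
  have hJcard : (J.card : ℝ) ≤ D := by
    have h1 : ((J.card : ℤ) : ℝ) ≤ ((2 * P1 / r + 2 : ℤ) : ℝ) ^ 2 := by exact_mod_cast hJ2
    have h3 : ((2 * P1 / r : ℤ) : ℝ) ≤ 4 * (R + κ) * (a / κ) := by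
      have h4 : ((2 * P1 / r : ℤ) : ℝ) * r ≤ 2 * P1 := by
        exact_mod_cast Int.ediv_mul_le (2 * P1) (by omega : r ≠ 0)
      have h5 : (P1 : ℝ) ≤ (R + κ) * ρ := Int.floor_le _
      have h6 : (2 * P1 : ℝ) ≤ 4 * (R + κ) * (a / κ) * r := by
        have h7 : κ * ρ ≤ 2 * r * a := by rw [div_le_iff₀ ha0] at hrge; linarith
        have h8 : ρ ≤ 2 * r * (a / κ) := by
          rw [mul_div_assoc', le_div_iff₀ hκ]; linarith
        nlinarith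
      have h9 : ((2 * P1 / r : ℤ) : ℝ) * r ≤ 4 * (R + κ) * (a / κ) * r := by linarith
      exact le_of_mul_le_mul_right h9 (by linarith)
    have h4 : (0 : ℝ) ≤ ((2 * P1 / r : ℤ) : ℝ) := by
      exact_mod_cast Int.ediv_nonneg (by omega : (0 : ℤ) ≤ 2 * P1) (by omega)
    have h5 : ((2 * P1 / r + 2 : ℤ) : ℝ) = ((2 * P1 / r : ℤ) : ℝ) + 2 := by push_cast; rfl
    rw [h5] at h1
    rw [hD]
    have h6 : ((J.card : ℤ) : ℝ) = (J.card : ℝ) := by norm_cast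
    rw [h6] at h1
    refine h1.trans ?_
    exact pow_le_pow_left₀ (by linarith) (by linarith) 2
  set J' : Finset (ℤ × ℤ) := J.filter (fun z => (∀ i, (k + 1) * r < nm (x i - gp r z)) ∧
    ∃ u ∈ A, (nm (gp r z - u) : ℝ) ≤ κ * ρ / 2) with hJ'
  set I : Finset (ℕ × (ℤ × ℤ)) := {0} ×ˢ J' with hI
  have hIcard : (I.card : ℝ) ≤ J.card := by
    rw [hI, Finset.card_product]
    simp only [Finset.card_singleton, one_mul, Nat.cast_le]
    exact Finset.card_le_card (Finset.filter_subset _ _)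
  have hkr : (k : ℝ) * r ≤ κ * ρ / 4 := by
    have : 4 * ((k : ℝ) * r) ≤ a * r := by
      rw [ha]
      calc 4 * ((k : ℝ) * r) = 4 * k * 1 * r := by ring
        _ ≤ 4 * (k + 4) * ((N + 2 * m : ℕ) : ℝ) * r := by gcongr; linarith
    linarith
  have hoff : ∀ i ∈ I, ∀ v, nm (v - gp r i.2) ≤ k * r → ∀ j, κ / (2 * a) * ρ < (nm (v - x j) : ℝ) := by
    intro i hi v hv j
    rw [hI, Finset.mem_product, hJ', Finset.mem_filter] at hi
    have h1 := hi.2.2.1 j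
    have h2 : nm (x j - gp r i.2) ≤ nm (x j - v) + nm (v - gp r i.2) := nm_sub_le _ _ _
    rw [nm_sub_comm (x j) v] at h2
    have h3 : r < nm (v - x j) := by linarith
    have h4 : (r : ℝ) < nm (v - x j) := by exact_mod_cast h3
    linarith
  have hball : ∀ i ∈ I, ∀ v, nm (v - gp r i.2) ≤ k * r → ∃ u ∈ A, (nm (v - u) : ℝ) ≤ κ * ρ := by
    intro i hi v hv'
    rw [hI, Finset.mem_product, hJ', Finset.mem_filter] at hi
    obtain ⟨u, hu, h3⟩ := hi.2.2.2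
    refine ⟨u, hu, ?_⟩
    have h1 : nm (v - u) ≤ nm (v - gp r i.2) + nm (gp r i.2 - u) := nm_sub_le _ _ _
    have h2 : (nm (v - u) : ℝ) ≤ k * r + nm (gp r i.2 - u) := by
      have : nm (v - u) ≤ k * r + nm (gp r i.2 - u) := by linarith
      exact_mod_cast this
    have h4 : (k : ℝ) * r ≤ κ * ρ / 4 := by
      have : 4 * ((k : ℝ) * r) ≤ a * r := by
        rw [ha]
        calc 4 * ((k : ℝ) * r) = 4 * k * 1 * r := by ring
          _ ≤ 4 * (k + 4) * ((N + 2 * m : ℕ) : ℝ) * r := by gcongr; linarith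
      linarith
    have h5 : 0 < κ * ρ := by positivity
    linarith
  refine ⟨r, I, hr1, hIcard.trans hJcard, fun i hi => ?_, hkr,
    fun i hi v hv => ⟨hball i hi v hv, hoff i hi v hv⟩, ?_, ?_⟩
  · rw [hI, Finset.mem_product, Finset.mem_singleton] at hi
    exact hi.1
  · intro ω ω' hω
    show (∑ i ∈ I, Z (gp r i.2) r ω) / N = (∑ i ∈ I, Z (gp r i.2) r ω') / N
    congr 1
    refine Finset.sum_congr rfl fun i hi => ?_
    exact hZ1 _ _ hr1 ω ω' fun v hv => hω v (hball i hi v hv) (hoff i hi v hv)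
  · intro ω 𝓕 hs hd hbig
    rw [Nat.le_div_iff_mul_le hN0, mul_comm]
    refine seg_count (k := k) I (fun i => gp r i.2) (fun _ => r) (fun i => Z (gp r i.2) r ω) hs hd
      (fun i _ 𝓖 h1 h2 h3 => hZ2 (gp r i.2) r hr1 ω 𝓖 h1 h2 h3) fun γ hγ => ?_
    obtain ⟨⟨e, he, hec⟩, e1, he1, e2, he2, h12⟩ := hbig γ hγ
    obtain ⟨q, hq, hqd⟩ : ∃ q ∈ γ, κ * ρ / 2 ≤ (nm (hdv q - hdv e) : ℝ) := by
      have h5 : (nm (hdv e1 - hdv e2) : ℝ) ≤ nm (hdv e1 - hdv e) + nm (hdv e - hdv e2) := by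
        exact_mod_cast nm_sub_le _ _ _
      rw [nm_sub_comm (hdv e) (hdv e2)] at h5
      by_cases h6 : κ * ρ / 2 ≤ (nm (hdv e1 - hdv e) : ℝ)
      · exact ⟨e1, he1, h6⟩
      · exact ⟨e2, he2, by linarith⟩
    have h11 : ((k : ℝ) + 4) * r * ((N + 2 * m : ℕ) : ℝ) ≤ κ * ρ / 4 := by
      have : a * r = 4 * (((k : ℝ) + 4) * r * ((N + 2 * m : ℕ) : ℝ)) := by rw [ha]; ring
      linarith
    have hκρ : 0 < κ * ρ := by positivity
    have h7 : (k + 4) * r * (N + 2 * m : ℕ) ≤ nm (hdv q - hdv e) := by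
      have h8 : ((k : ℝ) + 4) * r * ((N + 2 * m : ℕ) : ℝ) ≤ nm (hdv q - hdv e) := by linarith
      exact_mod_cast h8
    obtain ⟨T, hT1, hT2⟩ := seg_many (hs γ hγ) he hq (by omega) hr1 x h7
    refine ⟨T.map ⟨fun z => ((0 : ℕ), z), fun z z' hz => (Prod.ext_iff.1 hz).2⟩, ?_, ?_, ?_⟩
    · intro i hi
      rw [Finset.mem_map] at hi
      obtain ⟨z, hz, rfl⟩ := hi
      obtain ⟨-, h8, h9⟩ := hT2 z hz
      have h12 : (nm (gp r z - hdv e) : ℝ) ≤ ((k + 4) * r * ((N + 2 * m : ℕ) : ℝ) + r) := by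
        exact_mod_cast h8
      have h13 : (r : ℝ) ≤ ((k : ℝ) + 4) * r * ((N + 2 * m : ℕ) : ℝ) := by
        calc (r : ℝ) = 1 * r * 1 := by ring
          _ ≤ ((k : ℝ) + 4) * r * ((N + 2 * m : ℕ) : ℝ) := by gcongr; linarith
      have h14 : (nm (gp r z - hdv e) : ℝ) ≤ κ * ρ / 2 := by linarith
      have h15 : (nm (gp r z - c) : ℝ) ≤ nm (gp r z - hdv e) + nm (hdv e - c) := by
        exact_mod_cast nm_sub_le _ _ _
      have h16 := hA _ hec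
      rw [hI, Finset.mem_product, hJ', Finset.mem_filter]
      refine ⟨Finset.mem_singleton.2 rfl, hJ1 z ?_, h9, hdv e, hec, h14⟩
      rw [hP, Int.le_floor]
      nlinarith
    · rw [Finset.card_map]; exact hT1
    · intro i hi
      rw [Finset.mem_map] at hi
      obtain ⟨z, hz, rfl⟩ := hi
      exact (hT2 z hz).1


/-- **Large segments near a zone, next to frozen rows.** The number `N` of the pairwise disjoint
segments of diameter at least `κ ρ` which visit the zone `A`: exponential moments, for all domains such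
that the small boxes near the zone which avoid the balls have the property `OneC`, and all factors `G`
which depend only on the squares off the domain, off the zone or in the balls. -/
theorem macro_F (hQ : 1 ≤ Q) (h : RSW Q) (m : ℕ) : ∃ e1 : ℝ, 0 < e1 ∧
    ∀ κ R s : ℝ, 0 < κ → 0 ≤ R →
    ∃ C ρ0 : ℝ, 0 < C ∧ 0 < ρ0 ∧ ∀ ρ : ℝ, ρ0 ≤ ρ → ∀ (c : ℤ × ℤ) (A : Finset (ℤ × ℤ)),
      (∀ v ∈ A, (nm (v - c) : ℝ) ≤ R * ρ) → ∀ (x : Fin m → ℤ × ℤ), ∃ N : Cfg → ℕ,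
      (∀ ω ω' : Cfg, (∀ v, Nr A (κ * ρ) v →
        (∀ i, e1 * κ / (1 + |s|) * ρ < (nm (v - x i) : ℝ)) → ω v = ω' v) → N ω = N ω') ∧
      (∀ ω, MajA A (κ * ρ) ω (N ω)) ∧
      ∀ (D : Finset (ℤ × ℤ)) (η : Cfg), Good η →
        (∀ (y : ℤ × ℤ) (a : ℤ), 1 ≤ a → (a : ℝ) ≤ κ * ρ / 4 →
          (∀ v ∈ bxx y a, Nr A (κ * ρ) v ∧ ∀ i, e1 * κ / (1 + |s|) * ρ < (nm (v - x i) : ℝ)) →
          OneC y a D η) →
        ∀ G : Cfg → ℝ, (∀ ω, 0 ≤ G ω) →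
        (∀ ω ω' : Cfg, (∀ v, ¬ (v ∈ D ∧ Nr A (κ * ρ) v ∧
          ∀ i, e1 * κ / (1 + |s|) * ρ < (nm (v - x i) : ℝ)) → ω v = ω' v) → G ω = G ω') →
        Ex Q D η (fun ω => G ω * Real.exp (s * (N ω : ℝ))) ≤ C * Ex Q D η G := by
  classical
  have hQ0 : 0 < Q := by linarith
  obtain ⟨n0, hn4, hcr⟩ := crossB hQ h
  have hn4' : (4 : ℤ) ≤ n0 := by exact_mod_cast hn4
  have hlog : 0 < Real.log (3 / 2) := Real.log_pos (by norm_num)
  have hk : 2 ≤ (n0 : ℤ) + 2 := by omega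
  have hloc : ∀ (x : ℤ × ℤ) (r : ℤ), 1 ≤ r → ∀ ω ω' : Cfg,
      (∀ v, nm (v - x) ≤ ((n0 : ℤ) + 2) * r → ω v = ω' v) → ZC n0 x r ω = ZC n0 x r ω' :=
    fun x r hr ω ω' hω => ZC_loc n0 x (by omega) hω
  obtain ⟨θ, b, hθ, hb, hEm⟩ := Em_crossO hk (l := Real.log (3 / 2) / 4) (by linarith)
    (C := 3) (by norm_num) hloc
  set a1 : ℝ := 4 * (((n0 : ℤ) + 2 : ℤ) + 4) * (1 / θ + 2 + 2 * m) with ha1
  have hn0 : (4 : ℝ) ≤ n0 := by exact_mod_cast hn4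
  have ha1p : 0 < a1 := by rw [ha1]; push_cast; positivity
  refine ⟨1 / (2 * a1), by positivity, fun κ R s hκ hR => ?_⟩
  obtain ⟨n, hn, hn'⟩ : ∃ n : ℕ, |s| / θ ≤ n ∧ (n : ℝ) ≤ |s| / θ + 1 :=
    ⟨⌈|s| / θ⌉₊, Nat.le_ceil _, (Nat.ceil_lt_add_one (by positivity)).le⟩
  have hsn : |s| ≤ θ * (n + 1 : ℕ) := by
    rw [div_le_iff₀ hθ] at hn
    push_cast
    nlinarith
  set N : ℕ := n + 1 with hN
  have hN0 : 0 < N := by omega
  obtain ⟨ε, Dc, ρ0, hε, hρ0, hεd, hdet⟩ := macro_detF hk hloc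
    (fun x r hr ω 𝓕 h1 h2 h3 => ZC_seg n0 x hr ω 𝓕 h1 h2 h3) κ R m N hN0 hκ hR
  have hεe : 1 / (2 * a1) * κ / (1 + |s|) ≤ ε := by
    rw [hεd]
    have hs0 := abs_nonneg s
    have e1 : 1 / (2 * a1) * κ / (1 + |s|) = κ / (2 * (a1 * (1 + |s|))) := by
      field_simp
    rw [e1]
    refine div_le_div_of_nonneg_left hκ.le ?_ ?_
    · push_cast; positivity
    · have h5 : ((N + 2 * m : ℕ) : ℝ) ≤ (1 / θ + 2 + 2 * m) * (1 + |s|) := by
        rw [hN]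
        push_cast
        have h1 : |s| / θ = |s| * (1 / θ) := by ring
        have h2 : 0 < 1 / θ := by positivity
        have h3 : (0 : ℝ) ≤ m := Nat.cast_nonneg m
        have h4 : 0 ≤ |s| * (m : ℝ) := by positivity
        nlinarith
      have h6 : (0 : ℝ) ≤ 4 * (((n0 : ℤ) + 2 : ℤ) + 4) := by push_cast; positivity
      have h7 := mul_le_mul_of_nonneg_left h5 h6
      rw [ha1]
      linarith
  refine ⟨Real.exp (Dc * b), ρ0, Real.exp_pos _, hρ0, fun ρ hρ c A hA x => ?_⟩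
  have hρp : 0 < ρ := lt_of_lt_of_le hρ0 hρ
  have hεr : 1 / (2 * a1) * κ / (1 + |s|) * ρ ≤ ε * ρ := mul_le_mul_of_nonneg_right hεe hρp.le
  obtain ⟨r, I, hr1, hI, hI0, hkr, hIU', h1', h2⟩ := hdet ρ hρ c A hA x
  have hIU : ∀ i ∈ I, ∀ v, nm (v - gp r i.2) ≤ ((n0 : ℤ) + 2) * r →
      (∃ u ∈ A, (nm (v - u) : ℝ) ≤ κ * ρ) ∧
        ∀ j, 1 / (2 * a1) * κ / (1 + |s|) * ρ < (nm (v - x j) : ℝ) := fun i hi v hv =>
    ⟨(hIU' i hi v hv).1, fun j => lt_of_le_of_lt hεr ((hIU' i hi v hv).2 j)⟩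
  have h1 : ∀ ω ω' : Cfg, (∀ v, Nr A (κ * ρ) v →
      (∀ i, 1 / (2 * a1) * κ / (1 + |s|) * ρ < (nm (v - x i) : ℝ)) → ω v = ω' v) →
      (∑ i ∈ I, ZC n0 (gp r i.2) r ω) / N = (∑ i ∈ I, ZC n0 (gp r i.2) r ω') / N :=
    fun ω ω' hw => h1' ω ω' fun v hv hv' => hw v hv fun i => lt_of_le_of_lt hεr (hv' i)
  refine ⟨fun ω => (∑ i ∈ I, ZC n0 (gp r i.2) r ω) / N, h1, h2, fun D η hη hone G hG0 hG => ?_⟩
  have hnear : ∀ i ∈ I, ∀ v ∈ bxx (gp r i.2) (((n0 : ℤ) + 2) * r), Nr A (κ * ρ) v ∧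
      ∀ j, 1 / (2 * a1) * κ / (1 + |s|) * ρ < (nm (v - x j) : ℝ) :=
    fun i hi v hv => hIU i hi v (mem_bxx.1 hv)
  have hsm : (((((n0 : ℤ) + 1) * r : ℤ)) : ℝ) ≤ κ * ρ / 4 := by
    refine le_trans ?_ hkr
    have h9 : (1 : ℝ) ≤ (r : ℝ) := by exact_mod_cast hr1
    push_cast
    nlinarith
  rcases (FKA.Ex_nonneg (D := D) (η := η) hQ0 fun S _ => hG0 _).eq_or_lt with h0 | hpos
  · -- `G` vanishes
    have hz : ∀ S ⊆ D, G (cf D η S) = 0 := by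
      intro S hS
      have hZ := FKA.Zq_pos hQ0 D η
      have hs : ∑ S ∈ D.powerset, Q ^ LD D (cf D η S) * G (cf D η S) = 0 := by
        unfold Ex at h0
        rw [eq_comm, div_eq_zero_iff] at h0
        rcases h0 with h0 | h0
        · exact h0
        · exact absurd h0 hZ.ne'
      rw [Finset.sum_eq_zero_iff_of_nonneg fun S _ => mul_nonneg (pow_pos hQ0 _).le (hG0 _)] at hs
      have := hs S (Finset.mem_powerset.2 hS)
      rcases mul_eq_zero.1 this with h3 | h3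
      · exact absurd h3 (pow_pos hQ0 _).ne'
      · exact h3
    rw [← h0, mul_zero]
    refine le_of_eq ?_
    have : Ex Q D η (fun ω => G ω * Real.exp (s * (((∑ i ∈ I, ZC n0 (gp r i.2) r ω) / N : ℕ) : ℝ)))
        = Ex Q D η (fun _ => 0) := FKA.Ex_congr fun S hS => by rw [hz S hS, zero_mul]
    rw [this, FKA.Ex_const hQ0]
  obtain ⟨ν, hνp, hν⟩ := exists_law hQ0 hG0 hpos
  set W : Finset (ℤ × ℤ) := I.biUnion fun i => bxx (gp r i.2) (((n0 : ℤ) + 2) * r) with hW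
  have hEmI := hEm ν W hνp r hr1 (I.image Prod.snd) (fun i hi v hv => by
      obtain ⟨j, hj, rfl⟩ := Finset.mem_image.1 hi
      exact Finset.mem_biUnion.2 ⟨j, hj, hv⟩) (fun i hi G2 hG20 _ hG2 => by
      obtain ⟨j, hj, rfl⟩ := Finset.mem_image.1 hi
      rw [hν, hν, ← mul_div_assoc]
      refine div_le_div_of_nonneg_right ?_ hpos.le
      have h5 := hcr (gp r j.2) r hr1 D η (fun ω => G ω * G2 ω) hη
        (hone _ _ (by nlinarith) hsm fun v hv => hnear j hj v (by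
          rw [mem_bxx] at hv ⊢
          nlinarith)) (fun ω => mul_nonneg (hG0 ω) (hG20 ω))
        (FKA.Ind.mul (fun ω ω' h' => hG ω ω' fun v hv => h' v fun hv' => hv
          ⟨(Finset.mem_inter.1 hv').1, (hnear j hj v (Finset.mem_inter.1 hv').2).1,
            (hnear j hj v (Finset.mem_inter.1 hv').2).2⟩)
          (FKA.Ind.mono Finset.inter_subset_right hG2))
      refine le_trans (le_of_eq ?_) h5
      refine FKA.Ex_congr fun S _ => ?_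
      ring)
  have hsum : ∀ ω, ∑ i ∈ I, (ZC n0 (gp r i.2) r ω : ℝ) =
      ∑ i ∈ I.image Prod.snd, (ZC n0 (gp r i) r ω : ℝ) := by
    intro ω
    rw [Finset.sum_image]
    intro i hi j hj hij
    exact Prod.ext ((hI0 i hi).trans (hI0 j hj).symm) hij
  have hcard : (((I.image Prod.snd).card : ℕ) : ℝ) ≤ Dc :=
    le_trans (by exact_mod_cast Finset.card_image_le) hI
  have hfin : Em ν (fun ω => s * (((∑ i ∈ I, ZC n0 (gp r i.2) r ω) / N : ℕ) : ℝ)) ≤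
      ENNReal.ofReal (Real.exp (Dc * b)) := by
    refine le_trans ?_ (hEmI.trans (ENNReal.ofReal_le_ofReal (Real.exp_le_exp.2
      (mul_le_mul_of_nonneg_right hcard hb))))
    refine Em_mono (μ := ν) fun ω => ?_
    have hN1 : (0 : ℝ) < N := by exact_mod_cast hN0
    have h5 : (((∑ i ∈ I, ZC n0 (gp r i.2) r ω) / N : ℕ) : ℝ) ≤
        (∑ i ∈ I, (ZC n0 (gp r i.2) r ω : ℝ)) / N := by
      refine Nat.cast_div_le.trans ?_
      rw [Nat.cast_sum]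
    have h6 : (0 : ℝ) ≤ (((∑ i ∈ I, ZC n0 (gp r i.2) r ω) / N : ℕ) : ℝ) := by positivity
    rw [← hsum ω]
    calc s * (((∑ i ∈ I, ZC n0 (gp r i.2) r ω) / N : ℕ) : ℝ)
        ≤ |s| * (((∑ i ∈ I, ZC n0 (gp r i.2) r ω) / N : ℕ) : ℝ) :=
          mul_le_mul_of_nonneg_right (le_abs_self s) h6
      _ ≤ (θ * N) * ((∑ i ∈ I, (ZC n0 (gp r i.2) r ω : ℝ)) / N) :=
          mul_le_mul hsn h5 h6 (by positivity)
      _ = _ := by field_simp
  -- back to the expectation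
  have hL : Loc W (fun ω => Real.exp (s * (((∑ i ∈ I, ZC n0 (gp r i.2) r ω) / N : ℕ) : ℝ))) := by
    intro ω ω' hw
    have : ∀ i ∈ I, ZC n0 (gp r i.2) r ω = ZC n0 (gp r i.2) r ω' := fun i hi =>
      hloc _ _ hr1 ω ω' fun v hv => hw v (Finset.mem_biUnion.2 ⟨i, hi, mem_bxx.2 hv⟩)
    simp only
    rw [Finset.sum_congr rfl this]
  rw [Em_eq (loc_integrable hL), ENNReal.ofReal_le_ofReal_iff (Real.exp_pos _).le, hν,
    div_le_iff₀ hpos] at hfin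
  exact hfin


end Vale.Agent.P167.H398.Q
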