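import Vale.Agent.P167.H398.Q.Arm
import Vale.Agent.P167.H718.E2c
import Vale.Agent.P167.H825.Q.FinQ2

/-!
# P167, general `q`, block Q-START: literal statements for the closed frame

`ClsS`: comparison of the functional of a Dobrushin domain with and without the event that there are no
arms at the holes. `M2F`: second moments of `XB` for flows.
-/

namespace Vale.Agent.P167.H398.Q

open Finset MeasureTheory Filter
open Vale.Agent.P167.BR
open Vale.Agent.P167.FK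
open Vale.Agent.P167.FKA (Loc ArmDec)
open Vale.Agent.P167.E6 (IsPolygon Encloses)
open Vale.Agent.P167.H718 (Dob)
open Vale.Agent.P167.H825 (dv enl Marks FlowIn)
open Vale.Agent.P167.H825.Q (Bc)
open Vale.Agent.P167.Enl (tB)


/-- The squares `v` and `w` have a corner in common. -/
def Tch (v w : ℤ × ℤ) : Prop := |v.1 - w.1| ≤ 1 ∧ |v.2 - w.2| ≤ 1

/-- There are no arms (which are rare next to frozen squares of the colours `b i`) at the holes. -/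
def NA {ι : Type} (I : Finset ι) (b : ι → Bool) (c : ι → ℤ × ℤ) (r R : ℤ) : Set Cfg :=
  {ω | ∀ i ∈ I, ¬ Arm (b i) (c i) r R ω}

/-- **(ClsS) The closed frame.** `K` contains every square outside of `D` which touches `D`. -/
def ClsS : Prop :=
  ∀ (Q α C : ℝ), 1 ≤ Q → 0 ≤ C → ArmDec Q α C → ∀ (N : ℕ) (D K : Finset (ℤ × ℤ)) (σ : Cfg)
    (q : ZMod N → ℤ × ℤ) (k : ℕ), IsPolygon q → Encloses q D → k ≤ N →
    (∀ η : Cfg, Good η → (∀ v ∈ K, η v = σ v) → Dob η D q k) →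
    (∀ v ∉ D, ∀ w ∈ D, Tch v w → v ∈ K) →
    ∀ (ι : Type) (I : Finset ι) (c : ι → ℤ × ℤ) (b : ι → Bool) (r R : ℤ), 1 ≤ r → r < R →
    (∀ i ∈ I, ∀ v ∈ K, v ∈ Bq (c i) R → σ v = b i) →
    ∀ e : ℝ, I.card * (C * ((r : ℝ) / R) ^ α) ≤ e → e ≤ 1 / 2 →
    ∀ η : Cfg, Good η → (∀ v ∈ K, η v = σ v) → ∀ (X : Cfg → ℝ), Loc D X → ∀ M : ℝ,
    Ex Q D η (fun ω => X ω ^ 2) ≤ M →
    |Ex Q D η (fun ω => X ω * (NA I b c r R).indicator 1 ω) -
        Ex Q D η X * Ex Q D η ((NA I b c r R).indicator 1)| ≤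
      4 * (Real.sqrt (M * e) + |Ex Q D η X| * e) * Ex Q D η ((NA I b c r R).indicator 1)

/-- **(M2F) Second moments for flows.** -/
def M2F (θ β : ℝ) : Prop :=
  ∀ (l : ℕ) [NeZero l] (p : ZMod l → ℤ × ℤ) (S₀ : Finset (ℤ × ℤ)), IsPolygon p → Encloses p S₀ →
  ∀ Q : Marks, Q.Ok → ∀ bc : Bc, bc.Ok l Q → ∀ (κ B : ℝ), 0 < κ → ∃ M : ℝ, ∀ᶠ n : ℕ in atTop,
  ∀ η : Cfg, Dob η (enl S₀ n) (Enl.qN p n (tB n Q)) (bc.ka l n (tB n Q)) →
  ∀ c : Ed → ℝ, (Function.support c).Finite → FlowIn (enl S₀ n) κ B n c →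
  Ex (2 * Real.cos θ) (enl S₀ n) η (fun ω =>
    QX.XB θ β (Enl.qN p n (tB n Q)) (enl S₀ n) (bc.ka l n (tB n Q)) (dv c) ω ^ 2) ≤ M

end Vale.Agent.P167.H398.Q
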