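import Vale.Agent.P167.H398.Q.Abs
import Vale.Agent.P167.H506.Q.Tr

/-!
# P167, general `q`, block Q-START: the expectations given the frozen squares as a positive functional
-/

namespace Vale.Agent.P167.H398.Q

open Finset MeasureTheory Vale.Agent.P167.FK Vale.Agent.P167.FKA
open Vale.Agent.P167.H519 (IsLim)
open Vale.Agent.P167.QX (QL)
open Vale.Agent.P167.H506.Q (EF EF_mono EF_mul_left fz fz_nonneg fz_int fz_zero LF)

variable {Q : ℝ} {K : Finset (ℤ × ℤ)} {κ : Cfg} {P : Measure Cfg}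

/-- Bounded quasi-local functions. -/
def CB (F : Cfg → ℝ) : Prop := QL F ∧ ∃ M : ℝ, ∀ ω, Good ω → |F ω| ≤ M

theorem CB.const (c : ℝ) : CB fun _ => c := ⟨QL.const c, |c|, fun _ _ => le_rfl⟩

theorem CB.of_loc {B : Finset (ℤ × ℤ)} {F : Cfg → ℝ} (h : Loc B F) : CB F := by
  obtain ⟨M, hM⟩ := H506.Q.loc_bdd h
  exact ⟨QL.of_loc h, M, fun ω _ => hM ω⟩

theorem CB.mul {F G : Cfg → ℝ} (hF : CB F) (hG : CB G) : CB fun ω => F ω * G ω := by
  obtain ⟨h1, M, hM⟩ := hF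
  obtain ⟨h2, M', hM'⟩ := hG
  refine ⟨h1.mul h2, M * M', fun ω hω => ?_⟩
  rw [abs_mul]
  exact mul_le_mul (hM ω hω) (hM' ω hω) (abs_nonneg _) ((abs_nonneg _).trans (hM ω hω))

theorem CB.lin {F G : Cfg → ℝ} (hF : CB F) (hG : CB G) (a b : ℝ) :
    CB fun ω => a * F ω + b * G ω := by
  obtain ⟨h1, M, hM⟩ := hF
  obtain ⟨h2, M', hM'⟩ := hG
  refine ⟨h1.comp2 h2 fun x y => a * x + b * y, |a| * M + |b| * M', fun ω hω => ?_⟩
  refine (abs_add_le _ _).trans ?_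
  rw [abs_mul, abs_mul]
  exact add_le_add (mul_le_mul_of_nonneg_left (hM ω hω) (abs_nonneg _))
    (mul_le_mul_of_nonneg_left (hM' ω hω) (abs_nonneg _))

theorem CB.comp {F : Cfg → ℝ} (hF : CB F) {g : ℝ → ℝ} (hg : Continuous g) :
    CB fun ω => g (F ω) := by
  obtain ⟨h1, M, hM⟩ := hF
  obtain ⟨M', hM'⟩ := (isCompact_Icc (a := -M) (b := M)).exists_bound_of_continuousOn
    hg.continuousOn
  exact ⟨h1.comp g, M', fun ω hω => by
    have := abs_le.1 (hM ω hω)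
    exact hM' _ ⟨this.1, this.2⟩⟩

theorem CB.abs {F : Cfg → ℝ} (hF : CB F) : CB fun ω => |F ω| := hF.comp continuous_abs

theorem CB.congr {F G : Cfg → ℝ} (hF : CB F) (h : ∀ ω, Good ω → F ω = G ω) : CB G := by
  obtain ⟨h1, M, hM⟩ := hF
  exact ⟨h1.congr h, M, fun ω hω => by rw [← h ω hω]; exact hM ω hω⟩

theorem EF_lin [IsFiniteMeasure P] (hg : ∀ᵐ ω ∂P, Good ω) {F G : Cfg → ℝ} (hF : CB F) (hG : CB G)
    (a b : ℝ) : EF P K κ (fun ω => a * F ω + b * G ω) = a * EF P K κ F + b * EF P K κ G := by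
  obtain ⟨h1, M, hM⟩ := hF
  obtain ⟨h2, M', hM'⟩ := hG
  have i1 := fz_int (K := K) (κ := κ) hg h1 hM
  have i2 := fz_int (K := K) (κ := κ) hg h2 hM'
  unfold EF
  have e : ∫ ω, fz K κ ω * (a * F ω + b * G ω) ∂P =
      a * ∫ ω, fz K κ ω * F ω ∂P + b * ∫ ω, fz K κ ω * G ω ∂P := by
    rw [← integral_const_mul, ← integral_const_mul, ← integral_add (i1.const_mul a)
      (i2.const_mul b)]
    refine integral_congr_ae (Filter.Eventually.of_forall fun ω => ?_)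
    show fz K κ ω * (a * F ω + b * G ω) = a * (fz K κ ω * F ω) + b * (fz K κ ω * G ω)
    ring
  rw [e, add_div, mul_div_assoc, mul_div_assoc]

/-- **The expectation given the frozen squares is a positive functional.** -/
theorem fn_EF [IsFiniteMeasure P] (hg : ∀ᵐ ω ∂P, Good ω) :
    Fn (EF P K κ) CB fun ω => Good ω ∧ ∀ v ∈ K, ω v = κ v where
  mono := by
    rintro F G ⟨h1, M, hM⟩ ⟨h2, M', hM'⟩ h
    exact EF_mono hg h1 h2 hM hM' fun ω h3 h4 => h ω ⟨h3, h4⟩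
  lin := fun hF hG a b => EF_lin hg hF hG a b
  clin := fun hF hG a b => hF.lin hG a b
  cmul := fun hF hG => hF.mul hG

end Vale.Agent.P167.H398.Q
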