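import Vale.Agent.P167.H398.Q.SDefs
import Vale.Agent.P167.H398.Q.CDefs
import Vale.Agent.P167.H398.Q.Inst

/-!
# P167, general `q`, block Q-START: literal statements of the parts of `STARTR`

`bcol`: the colour of a mark. `NAh`: no arms at the holes. `T2f`: the product over the loops at the
holes. `Gf`: the product over the loops off the holes times the functional of the domain. `H2S`: moments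
of the numbers of large segments. `H6S`: the closed frame. `H7S`: the lower bound. `P1c`: comparison of
the radii in the other direction.
-/

namespace Vale.Agent.P167.H398.Q

open Finset MeasureTheory Filter
open Vale.Agent.P167.BR
open Vale.Agent.P167.FK
open Vale.Agent.P167.FKA (Loc)
open Vale.Agent.P167.E6 (IsPolygon Encloses)
open Vale.Agent.P167.XDL (bS)
open Vale.Agent.P167.H825 (dv enl Marks FlowIn)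
open Vale.Agent.P167.H825.Q (Row Bc VT)
open Vale.Agent.P167.H680.T (rowC uI frows)
open Vale.Agent.P167.QX (RT TB TO fLp VisL XBoff)
open Vale.Agent.P167.H685 (LE)
open Vale.Agent.P167.H562.QM (MajA)
open Vale.Agent.P167.H562.MAJ (Sm)
open Vale.Agent.P167.H662 (hsite)
open Vale.Agent.P167.H945.Q (Tc Plain ctr)
open Vale.Agent.P167.H506.Q (EF)
open Vale.Agent.P167.Enl (R0 tB kOf qN)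

variable {l : ℕ}

/-- The colour of the frozen squares next to a mark. -/
noncomputable def bcol (_p : ZMod l → ℤ × ℤ) (Q : Marks) (bc : Bc) (n : ℕ) (x : Fin l × Fin (Q.m + 1)) : Bool :=
  decide (¬ kOf l n (tB n Q) x.1 ⌊Q.θ x.1 x.2 * n⌋₊ < bc.ka l n (tB n Q))

/-- No arms at the holes. -/
noncomputable def NAh (p : ZMod l → ℤ × ℤ) (Q : Marks) (bc : Bc) (n : ℕ) (r R : ℤ) : Set Cfg :=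
  NA univ (bcol p Q bc n) (hsite p Q n) r R

/-- The product over the loops at the holes, off the arms `(R₁, R₂)`. -/
noncomputable def T2f (θ β : ℝ) (p : ZMod l → ℤ × ℤ) (Q : Marks) (bc : Bc) (n d : ℕ) (R₁ R₂ : ℤ)
    (ω : Cfg) : ℝ :=
  |TB θ (uI (frows θ β p Q n d bc)) (rowC θ (frows θ β p Q n d bc) 0).ph (hB p Q n R₁) ω| *
    (NAh p Q bc n (R₁ + 1) (R₂ - 1)).indicator 1 ω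

/-- The product over the loops off the holes and the functional of the domain, off the arms
`(R₃, R₄)`. -/
noncomputable def Gf (θ β : ℝ) (p : ZMod l → ℤ × ℤ) (S₀ : Finset (ℤ × ℤ)) (Q : Marks) (bc : Bc)
    (n d : ℕ) (c : Ed → ℝ) (R₃ R₄ : ℤ) (ω : Cfg) : ℝ :=
  TO θ (uI (frows θ β p Q n d bc)) (rowC θ (frows θ β p Q n d bc) 0).ph (hB p Q n R₃) ω *
    XBoff θ β (qN p n (tB n Q)) (enl S₀ n) (bc.ka l n (tB n Q)) (dv c) (hB p Q n R₃) ω *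
    (NAh p Q bc n (R₃ + 1) (R₄ - 1)).indicator 1 ω

/-- **(P1c)** Comparison of the radii in the other direction. -/
def P1c (θ : ℝ) : Prop :=
  ∀ Λ : ℝ, 1 ≤ Λ → ∃ C ρ₀ : ℝ, 0 < C ∧ ∀ (r : Row) (m : ℕ) (i : Fin 3) (ρ ρ' : ℤ),
    r.Ok θ 1 m → (i = 2 → ¬ Plain r) → ρ₀ ≤ ρ → ρ ≤ ρ' → (ρ' : ℝ) ≤ Λ * ρ → 8 * ρ' ≤ m →
    ∀ η : Cfg, Good η → (∀ v ∈ r.I, η v = r.fr v) →
      Ex (2 * Real.cos θ) (Bq (ctr r i) (4 * ρ') \ r.I) η (Tc θ r.I r i ρ') ≤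
        C * Ex (2 * Real.cos θ) (Bq (ctr r i) (4 * ρ') \ r.I) η (Tc θ r.I r i ρ)

/-- **(H2S) Moments of the numbers of the large segments.** -/
def H2S (θ β : ℝ) (P : Measure Cfg) : Prop :=
  ∀ (l : ℕ) [NeZero l] (p : ZMod l → ℤ × ℤ) (S₀ : Finset (ℤ × ℤ)), IsPolygon p → Encloses p S₀ →
  ∀ Q : Marks, Q.Ok → ∀ bc : Bc, bc.Ok l Q → ∀ (κ B : ℝ), 0 < κ →
  ∃ κ₁ : ℝ, 0 < κ₁ ∧ ∀ κ' : ℝ, 0 < κ' → κ' < κ₁ → ∀ A : ℝ, 1 ≤ A → ∃ M δ₀ : ℝ, 0 < M ∧ 0 < δ₀ ∧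
  ∀ δ : ℝ, 0 < δ → δ < δ₀ → ∀ᶠ n : ℕ in atTop, ∀ σ : Cfg,
  Frz (frows θ β p Q n ⌊δ * (n : ℝ)⌋₊ bc) σ →
  ∃ (Z B₁ B₂ : Finset (ℤ × ℤ)) (N₁ N₂ : Cfg → ℕ),
    (∀ v : ℤ × ℤ, (nm v : ℝ) ≤ (R0 p S₀ + 4) * n → v ∈ Z) ∧
    (∀ ω ω' : Cfg, (∀ v ∈ B₁, ω v = ω' v) → N₁ ω = N₁ ω') ∧
    (∀ ω ω' : Cfg, (∀ v ∈ B₂, ω v = ω' v) → N₂ ω = N₂ ω') ∧
    (∀ ω, Good ω → MajA (hB p Q n ⌊4 * δ * n⌋) (δ * n / 64) ω (N₁ ω)) ∧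
    (∀ ω, Good ω → MajA Z (κ' * n) ω (N₂ ω)) ∧
    (∀ c : Ed → ℝ, (Function.support c).Finite → FlowIn (enl S₀ n) κ B n c →
      EF P (uI (frows θ β p Q n ⌊δ * (n : ℝ)⌋₊ bc)) σ (fun ω =>
        Ttip θ (frows θ β p Q n ⌊δ * (n : ℝ)⌋₊ bc) ⌊δ * n / 16⌋ ω *
          Tjun θ (frows θ β p Q n ⌊δ * (n : ℝ)⌋₊ bc) ⌊4 * κ' * n⌋ ω *
          (A ^ (N₁ ω + N₂ ω + 1) * Real.exp (-(Real.tan θ * Sm (dv c) (κ' * n) ω))) ^ 2) ≤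
      M * EF P (uI (frows θ β p Q n ⌊δ * (n : ℝ)⌋₊ bc)) σ (fun ω =>
        Ttip θ (frows θ β p Q n ⌊δ * (n : ℝ)⌋₊ bc) ⌊δ * n / 16⌋ ω *
          Tjun θ (frows θ β p Q n ⌊δ * (n : ℝ)⌋₊ bc) ⌊4 * κ' * n⌋ ω)) ∧
    EF P (uI (frows θ β p Q n ⌊δ * (n : ℝ)⌋₊ bc)) σ (fun ω =>
        Ttip θ (frows θ β p Q n ⌊δ * (n : ℝ)⌋₊ bc) ⌊δ * n / 16⌋ ω * (A ^ (N₁ ω + 1)) ^ 2) ≤
      M * EF P (uI (frows θ β p Q n ⌊δ * (n : ℝ)⌋₊ bc)) σ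
        (Ttip θ (frows θ β p Q n ⌊δ * (n : ℝ)⌋₊ bc) ⌊δ * n / 16⌋) ∧
    EF P (uI (frows θ β p Q n ⌊δ * (n : ℝ)⌋₊ bc)) σ (fun ω =>
        Tjun θ (frows θ β p Q n ⌊δ * (n : ℝ)⌋₊ bc) ⌊4 * κ' * n⌋ ω * (A ^ (N₂ ω + 1)) ^ 2) ≤
      M * EF P (uI (frows θ β p Q n ⌊δ * (n : ℝ)⌋₊ bc)) σ
        (Tjun θ (frows θ β p Q n ⌊δ * (n : ℝ)⌋₊ bc) ⌊4 * κ' * n⌋)

/-- **(H6S) The closed frame.** `R₃ ≤ t R₄`, `R₄ ≤ κ₁ n`; `t` depends on `ε`. -/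
def H6S (θ β : ℝ) (P : Measure Cfg) : Prop :=
  ∀ (l : ℕ) [NeZero l] (p : ZMod l → ℤ × ℤ) (S₀ : Finset (ℤ × ℤ)), IsPolygon p → Encloses p S₀ →
  ∀ Q : Marks, Q.Ok → ∀ bc : Bc, bc.Ok l Q → ∀ (κ B : ℝ), 0 < κ →
  ∃ κ₁ M : ℝ, 0 < κ₁ ∧ 0 < M ∧ ∀ ε : ℝ, 0 < ε → ∃ t : ℝ, 0 < t ∧ t < 1 ∧
  ∀ κ₃ κ₄ : ℝ, 0 < κ₃ → κ₃ ≤ t * κ₄ → κ₄ ≤ κ₁ → ∃ δ₀ : ℝ, 0 < δ₀ ∧
  ∀ δ : ℝ, 0 < δ → δ < δ₀ → ∀ᶠ n : ℕ in atTop, ∀ σ : Cfg,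
  Frz (frows θ β p Q n ⌊δ * (n : ℝ)⌋₊ bc) σ →
  0 ≤ EF P (uI (frows θ β p Q n ⌊δ * (n : ℝ)⌋₊ bc)) σ
    (Gf θ β p S₀ Q bc n ⌊δ * (n : ℝ)⌋₊ 0 ⌊κ₃ * n⌋ ⌊κ₄ * n⌋) ∧
  ∀ c : Ed → ℝ, (Function.support c).Finite → FlowIn (enl S₀ n) κ B n c →
    |EF P (uI (frows θ β p Q n ⌊δ * (n : ℝ)⌋₊ bc)) σ
        (Gf θ β p S₀ Q bc n ⌊δ * (n : ℝ)⌋₊ c ⌊κ₃ * n⌋ ⌊κ₄ * n⌋) -
      VT θ β p S₀ n (tB n Q) (bc.ka l n (tB n Q)) (dv c) *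
        EF P (uI (frows θ β p Q n ⌊δ * (n : ℝ)⌋₊ bc)) σ
          (Gf θ β p S₀ Q bc n ⌊δ * (n : ℝ)⌋₊ 0 ⌊κ₃ * n⌋ ⌊κ₄ * n⌋)| ≤
      ε * EF P (uI (frows θ β p Q n ⌊δ * (n : ℝ)⌋₊ bc)) σ
        (Gf θ β p S₀ Q bc n ⌊δ * (n : ℝ)⌋₊ 0 ⌊κ₃ * n⌋ ⌊κ₄ * n⌋) ∧
    EF P (uI (frows θ β p Q n ⌊δ * (n : ℝ)⌋₊ bc)) σ
        (fun ω => |Gf θ β p S₀ Q bc n ⌊δ * (n : ℝ)⌋₊ c ⌊κ₃ * n⌋ ⌊κ₄ * n⌋ ω|) ≤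
      M * EF P (uI (frows θ β p Q n ⌊δ * (n : ℝ)⌋₊ bc)) σ
        (Gf θ β p S₀ Q bc n ⌊δ * (n : ℝ)⌋₊ 0 ⌊κ₃ * n⌋ ⌊κ₄ * n⌋) ∧
    |VT θ β p S₀ n (tB n Q) (bc.ka l n (tB n Q)) (dv c)| ≤ M

/-- **(H7S) The lower bound.** `R₁ = s₁ δ n`, `R₂ = s₂ δ n`, `4 ≤ s₁`, `s₁ ≤ t s₂`; `R₃ ≤ t R₄`; the
constants `C`, `t` do not depend on `δ`, `s₁`, `s₂`, `κ₃`, `κ₄`. -/
def H7S (θ β : ℝ) (P : Measure Cfg) : Prop :=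
  ∀ (l : ℕ) [NeZero l] (p : ZMod l → ℤ × ℤ) (S₀ : Finset (ℤ × ℤ)), IsPolygon p → Encloses p S₀ →
  ∀ Q : Marks, Q.Ok → ∀ bc : Bc, bc.Ok l Q →
  ∃ κ₁ : ℝ, 0 < κ₁ ∧ ∀ κ' : ℝ, 0 < κ' → κ' < κ₁ → ∃ C t : ℝ, 0 < C ∧ 0 < t ∧ t < 1 ∧
  ∀ s₁ s₂ κ₃ κ₄ : ℝ, 4 ≤ s₁ → s₁ ≤ t * s₂ → 0 < κ₃ → κ₃ ≤ t * κ₄ → κ₃ ≤ t → κ₄ ≤ κ₁ →
  ∃ δ₀ : ℝ, 0 < δ₀ ∧ ∀ δ : ℝ, 0 < δ → δ < δ₀ → ∀ᶠ n : ℕ in atTop, ∀ σ : Cfg,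
  Frz (frows θ β p Q n ⌊δ * (n : ℝ)⌋₊ bc) σ →
  EF P (uI (frows θ β p Q n ⌊δ * (n : ℝ)⌋₊ bc)) σ (fun ω =>
      Ttip θ (frows θ β p Q n ⌊δ * (n : ℝ)⌋₊ bc) ⌊δ * n / 16⌋ ω *
        Tjun θ (frows θ β p Q n ⌊δ * (n : ℝ)⌋₊ bc) ⌊4 * κ' * n⌋ ω) ≤
    C * EF P (uI (frows θ β p Q n ⌊δ * (n : ℝ)⌋₊ bc)) σ (fun ω =>
      Gf θ β p S₀ Q bc n ⌊δ * (n : ℝ)⌋₊ 0 ⌊κ₃ * n⌋ ⌊κ₄ * n⌋ ω *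
        T2f θ β p Q bc n ⌊δ * (n : ℝ)⌋₊ ⌊s₁ * δ * n⌋ ⌊s₂ * δ * n⌋ ω)

end Vale.Agent.P167.H398.Q
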