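import Vale.Agent.P167.H398.Q.Inst
import Vale.Agent.P167.QX.Loops
import Vale.Agent.P167.QX.QlX

/-!
# P167, general `q`, block Q-START: the functionals are bounded and quasi-local
-/

namespace Vale.Agent.P167.H398.Q

open Finset MeasureTheory
open Vale.Agent.P167.A (plane plane_nx)
open Vale.Agent.P167.BR
open Vale.Agent.P167.XDL (bS mem_bS)
open Vale.Agent.P167.FK
open Vale.Agent.P167.FKA (Loc)
open Vale.Agent.P167.H199 (cang strand)
open Vale.Agent.P167.H685 (LE mem_LE)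
open Vale.Agent.P167.QX (QL RT TB TO fLp VisL wS XBoff wB ql_strand loops_iff ql_LD ql_XoT
  abs_XoT_le prod_by_loops)

variable {D I : Finset (ℤ × ℤ)} {ω ω' : Cfg} {θ β : ℝ} {a : Ed → Bool → ℝ} {E : Finset Ed}
  {B : Set (ℤ × ℤ)}

/-- The functional is bounded and quasi-local. -/
theorem cb_RT (ha : ∀ e ∉ E, ∀ b, a e b = 0) (hθ : 1 ≤ 2 * Real.cos θ) : CB (RT θ D a) := by
  have h0 : (0 : ℝ) < 2 * Real.cos θ := by linarith
  have hc : Real.cos θ ≠ 0 := by intro h; rw [h] at h0; norm_num at h0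
  refine ⟨(ql_XoT ha hc).div ((ql_LD D).comp fun k => (2 * Real.cos θ) ^ k),
    2 ^ E.card * 2 ^ ((bS D).filter fun e => hdv e ∉ D).card, fun ω _ => ?_⟩
  unfold RT
  rw [abs_div, abs_of_pos (pow_pos h0 _)]
  exact (div_le_self (abs_nonneg _) (one_le_pow₀ hθ)).trans (abs_XoT_le ω ha hθ)

/-! ### products over the loops -/

theorem LE_congr (hω : Good ω) (h : ∀ ℓ, IsLoop ω ℓ → (∃ e ∈ E, e ∈ ℓ) → ∀ v ∈ vs ℓ, ω' v = ω v) :
    LE ω' E = LE ω E := by
  ext ℓ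
  rw [mem_LE, mem_LE]
  constructor
  · rintro ⟨h1, h2⟩
    exact ⟨(loops_iff hω h h2).1 h1, h2⟩
  · rintro ⟨h1, h2⟩
    exact ⟨(loops_iff hω h h2).2 h1, h2⟩

open Classical in
/-- A product over the loops which meet `bS I` and satisfy `p`. -/
theorem ql_prod_loops (θ : ℝ) (I : Finset (ℤ × ℤ)) (a : Ed → Bool → ℝ) (p : Finset Ed → Prop) :
    QL (fun ω => ∏ ℓ ∈ (LE ω (bS I)).filter p, fLp θ I a ω ℓ) := by
  refine QL.of_loops (bS I) fun ω ω' hω hω' h => ?_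
  rw [LE_congr hω h]
  refine prod_congr rfl fun ℓ hℓ => ?_
  obtain ⟨h1, h2⟩ := mem_LE.1 (mem_filter.1 hℓ).1
  exact (QX.fLp_congr h1 fun v hv => (h ℓ h1 h2 v hv).symm).symm

open Classical in
theorem abs_prod_loops (hs : 0 < Real.sin θ) (hθ : 1 ≤ 2 * Real.cos θ) (hω : Good ω)
    (p : Finset Ed → Prop) :
    |∏ ℓ ∈ (LE ω (bS I)).filter p, fLp θ I a ω ℓ| ≤
      (1 / Real.sin θ) ^ ((bS I).filter fun e => hdv e ∉ I).card := by
  have h0 : (0 : ℝ) < 2 * Real.cos θ := by linarith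
  have h1 : 1 ≤ 1 / Real.sin θ := by
    rw [one_le_div hs]
    exact Real.sin_le_one θ
  have hf : ∀ ℓ, |fLp θ I a ω ℓ| ≤
      ∏ _e ∈ (bS I).filter (fun e => hdv e ∉ I ∧ e ∈ ℓ), (1 / Real.sin θ) := by
    intro ℓ
    unfold fLp
    rw [abs_div, abs_of_pos h0, abs_prod]
    refine (div_le_self (prod_nonneg fun _ _ => abs_nonneg _) hθ).trans ?_
    refine prod_le_prod (fun _ _ => abs_nonneg _) fun e _ => ?_
    unfold wS
    rw [abs_div, abs_of_pos hs]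
    exact div_le_div_of_nonneg_right (Real.abs_cos_le_one _) hs.le
  have h2 : ∀ ℓ : Finset Ed, (1 : ℝ) ≤ ∏ _e ∈ (bS I).filter (fun e => hdv e ∉ I ∧ e ∈ ℓ), (1 / Real.sin θ) := by
    intro ℓ
    rw [prod_const]
    exact one_le_pow₀ h1
  calc |∏ ℓ ∈ (LE ω (bS I)).filter p, fLp θ I a ω ℓ|
      ≤ ∏ ℓ ∈ (LE ω (bS I)).filter p,
          ∏ _e ∈ (bS I).filter (fun e => hdv e ∉ I ∧ e ∈ ℓ), (1 / Real.sin θ) := by
        rw [abs_prod]
        exact prod_le_prod (fun _ _ => abs_nonneg _) fun ℓ _ => hf ℓ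
    _ ≤ ∏ ℓ ∈ LE ω (bS I),
          ∏ _e ∈ (bS I).filter (fun e => hdv e ∉ I ∧ e ∈ ℓ), (1 / Real.sin θ) := by
        rw [← prod_filter_mul_prod_filter_not (LE ω (bS I)) p (fun ℓ =>
          ∏ _e ∈ (bS I).filter (fun e => hdv e ∉ I ∧ e ∈ ℓ), (1 / Real.sin θ))]
        refine le_mul_of_one_le_right (prod_nonneg fun ℓ _ => zero_le_one.trans (h2 ℓ)) ?_
        have h3 := prod_le_prod (s := (LE ω (bS I)).filter fun ℓ => ¬ p ℓ) (f := fun _ => (1 : ℝ))
          (fun _ _ => zero_le_one) fun ℓ _ => h2 ℓ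
        rwa [prod_const_one] at h3
    _ = ∏ _e ∈ (bS I).filter (fun e => hdv e ∉ I), (1 / Real.sin θ) :=
        (prod_by_loops hω (bS I) (fun e => hdv e ∉ I) fun _ => 1 / Real.sin θ).symm
    _ = _ := by rw [prod_const]

theorem cb_TO (hs : 0 < Real.sin θ) (hθ : 1 ≤ 2 * Real.cos θ) : CB (TO θ I a B) := by
  classical
  refine ⟨?_, (1 / Real.sin θ) ^ ((bS I).filter fun e => hdv e ∉ I).card, fun ω hω => ?_⟩
  · have h := ql_prod_loops θ I a (fun ℓ => ¬ VisL B ℓ)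
    unfold TO
    convert h
  · have h := abs_prod_loops (I := I) (a := a) hs hθ hω (fun ℓ => ¬ VisL B ℓ)
    unfold TO
    convert h

theorem cb_TB (hs : 0 < Real.sin θ) (hθ : 1 ≤ 2 * Real.cos θ) : CB (TB θ I a B) := by
  classical
  refine ⟨?_, (1 / Real.sin θ) ^ ((bS I).filter fun e => hdv e ∉ I).card, fun ω hω => ?_⟩
  · have h := ql_prod_loops θ I a (VisL B)
    unfold TB
    convert h
  · have h := abs_prod_loops (I := I) (a := a) hs hθ hω (VisL B)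
    unfold TB
    convert h

/-! ### the functional of the domain -/

theorem exists_hdv {v : ℤ × ℤ} (hv : v ∈ D) : ∃ e ∈ eds D, hdv e = v := by
  by_cases h : Even (v.1 + v.2)
  · refine ⟨Sum.inr v, mem_eds.2 (Or.inl ?_), ?_⟩
    · show (if Even (v.1 + v.2) then v else (v.1, v.2 + 1)) ∈ D
      rw [if_pos h]
      exact hv
    · show (if Even (v.1 + v.2) then v else (v.1, v.2 + 1)) = v
      rw [if_pos h]
  · refine ⟨Sum.inl v, mem_eds.2 (Or.inl ?_), ?_⟩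
    · show (if Even (v.1 + v.2) then (v.1 + 1, v.2) else v) ∈ D
      rw [if_neg h]
      exact hv
    · show (if Even (v.1 + v.2) then (v.1 + 1, v.2) else v) = v
      rw [if_neg h]

theorem vis_congr (hω : Good ω) (h : ∀ ℓ, IsLoop ω ℓ → (∃ e ∈ E, e ∈ ℓ) → ∀ v ∈ vs ℓ, ω' v = ω v)
    {e : Ed} (he : e ∈ E) : QX.Vis B ω' e ↔ QX.Vis B ω e := by
  obtain ⟨ℓ, h1, h2⟩ := hω e
  have key : ∀ k, (nx ω)^[k] e = (nx ω')^[k] e :=
    H199.iter_congr h1 (fun v hv => (h ℓ h1 ⟨e, he, h2⟩ v hv).symm) h2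
  unfold QX.Vis
  simp only [key]

theorem ql_XBoff {n : ℕ} (θ β : ℝ) (q : ZMod n → ℤ × ℤ) (D : Finset (ℤ × ℤ)) (k : ℕ)
    (f : ℤ × ℤ → ℝ) (B : Set (ℤ × ℤ)) : QL (XBoff θ β q D k f B) := by
  classical
  refine QL.of_loops (eds D) fun ω ω' hω hω' h => ?_
  have hD : ∀ v ∈ D, ω v = ω' v := by
    intro v hv
    obtain ⟨e, he, rfl⟩ := exists_hdv hv
    obtain ⟨ℓ, h1, h2⟩ := hω e
    exact (h ℓ h1 ⟨e, he, h2⟩ _ (mem_image_of_mem _ h2)).symm
  unfold XBoff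
  rw [pcs_congr hD]
  refine prod_congr ?_ fun _ _ => rfl
  refine filter_congr fun A hA => ?_
  refine forall₂_congr fun e he => not_congr ?_
  exact vis_congr hω h (subset_eds hA he)

theorem abs_wB_le {n : ℕ} (h0 : 0 < θ) (h1 : θ ≤ Real.pi / 3) (β : ℝ) (q : ZMod n → ℤ × ℤ)
    (D : Finset (ℤ × ℤ)) (k : ℕ) (A : Finset Ed) (t : ℝ) :
    |wB θ β q D k A t| ≤ 1 / Real.cos θ + 1 / Real.sin (2 * θ) + 1 / Real.sin θ := by
  have hs : 0 < Real.sin θ := Real.sin_pos_of_pos_of_lt_pi h0 (by linarith [Real.pi_pos])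
  have hc : 0 < Real.cos θ := Real.cos_pos_of_mem_Ioo
    ⟨by linarith [Real.pi_pos], by linarith [Real.pi_pos]⟩
  have hs2 : 0 < Real.sin (2 * θ) := by
    rw [Real.sin_two_mul]
    positivity
  have c1 : 0 < 1 / Real.cos θ := by positivity
  have c2 : 0 < 1 / Real.sin (2 * θ) := by positivity
  have c3 : 0 < 1 / Real.sin θ := by positivity
  unfold wB
  split_ifs
  · rw [abs_div, abs_of_pos hc]
    have := div_le_div_of_nonneg_right (Real.abs_cos_le_one (θ + t)) hc.le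
    linarith
  · rw [abs_div, abs_of_pos hs]
    have := div_le_div_of_nonneg_right (Real.abs_cos_le_one (θ / 2 + β + t)) hs.le
    linarith
  · rw [abs_div, abs_of_pos hs2]
    have := div_le_div_of_nonneg_right (Real.abs_sin_le_one (2 * θ + t)) hs2.le
    linarith
  · rw [abs_div, abs_of_pos hs]
    have := div_le_div_of_nonneg_right (Real.abs_sin_le_one (θ - t)) hs.le
    linarith

theorem one_le_wB (h0 : 0 < θ) (h1 : θ ≤ Real.pi / 3) :
    1 ≤ 1 / Real.cos θ + 1 / Real.sin (2 * θ) + 1 / Real.sin θ := by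
  have hs : 0 < Real.sin θ := Real.sin_pos_of_pos_of_lt_pi h0 (by linarith [Real.pi_pos])
  have hc : 0 < Real.cos θ := Real.cos_pos_of_mem_Ioo
    ⟨by linarith [Real.pi_pos], by linarith [Real.pi_pos]⟩
  have hs2 : 0 < Real.sin (2 * θ) := by
    rw [Real.sin_two_mul]
    positivity
  have c1 : 1 ≤ 1 / Real.cos θ := by
    rw [one_le_div hc]
    exact Real.cos_le_one θ
  have c2 : 0 < 1 / Real.sin (2 * θ) := by positivity
  have c3 : 0 < 1 / Real.sin θ := by positivity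
  linarith

theorem cb_XBoff {n : ℕ} (h0 : 0 < θ) (h1 : θ ≤ Real.pi / 3) (β : ℝ) (q : ZMod n → ℤ × ℤ)
    (D : Finset (ℤ × ℤ)) (k : ℕ) (f : ℤ × ℤ → ℝ) (B : Set (ℤ × ℤ)) :
    CB (XBoff θ β q D k f B) := by
  classical
  refine ⟨ql_XBoff θ β q D k f B, (1 / Real.cos θ + 1 / Real.sin (2 * θ) + 1 / Real.sin θ) ^
    (eds D).card, fun ω _ => ?_⟩
  set W : ℝ := 1 / Real.cos θ + 1 / Real.sin (2 * θ) + 1 / Real.sin θ with hW
  have hW1 : 1 ≤ W := one_le_wB h0 h1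
  unfold XBoff
  rw [abs_prod]
  calc _ ≤ ∏ _A ∈ (pcs ω D).filter (fun A => ∀ e ∈ A, ¬ QX.Vis B ω e), W :=
        prod_le_prod (fun _ _ => abs_nonneg _) fun A _ => abs_wB_le h0 h1 β q D k A _
    _ = W ^ ((pcs ω D).filter (fun A => ∀ e ∈ A, ¬ QX.Vis B ω e)).card := by rw [prod_const]
    _ ≤ W ^ (eds D).card := pow_le_pow_right₀ hW1 <| (card_filter_le _ _).trans card_image_le

end Vale.Agent.P167.H398.Q
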