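import Vale.Agent.P167.H398.Q.ODefs
import Vale.Agent.P167.H398.Q.Fac

/-!
# P167, general `q`, block Q-START: the factorisation on the good event
-/

namespace Vale.Agent.P167.H398.Q

open Finset MeasureTheory
open Vale.Agent.P167.BR
open Vale.Agent.P167.E6 (IsPolygon Encloses)
open Vale.Agent.P167.XDL (bS mem_bS)
open Vale.Agent.P167.FK
open Vale.Agent.P167.FKA (Loc Ind)
open Vale.Agent.P167.H871 (Bd)
open Vale.Agent.P167.H825 (dv)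
open Vale.Agent.P167.H685 (LE mem_LE)
open Vale.Agent.P167.QX (QL RT TB TO fLp VisL XBoff aF stag Frame)

variable {D I : Finset (ℤ × ℤ)} {ω ω' : Cfg} {θ β : ℝ} {a0 : Ed → Bool → ℝ}
  {B1 B3 : Set (ℤ × ℤ)}

/-- The products over the loops off `B1` and off `B3` agree if the loops which visit `B3` and not
`B1` have the factor `1`. -/
theorem TO_eq (hB : B1 ⊆ B3)
    (h : ∀ ℓ ∈ LE ω (bS I), VisL B3 ℓ → ¬ VisL B1 ℓ → fLp θ I a0 ω ℓ = 1) :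
    TO θ I a0 B1 ω = TO θ I a0 B3 ω := by
  classical
  unfold TO
  symm
  refine prod_subset (fun ℓ hℓ => ?_) fun ℓ hℓ hn => ?_
  · rw [mem_filter] at hℓ ⊢
    refine ⟨hℓ.1, fun hv => hℓ.2 ?_⟩
    obtain ⟨x, h1, h2⟩ := hv
    exact ⟨x, h1, hB h2⟩
  · rw [mem_filter] at hℓ hn
    exact h ℓ hℓ.1 (by tauto) hℓ.2

/-- **The factorisation.** -/
theorem RT_fact {N k : ℕ} {q : ZMod N → ℤ × ℤ} {u : ℕ → ℤ} {K : ℝ} {c : Ed → ℝ}
    (F : Frame θ q D I u (stag θ β q k) a0 c K B1 ω) (hq : IsPolygon q) (hD : Encloses q D)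
    (hu : Bd (D : Set (ℤ × ℤ)) N (fun k => q (k : ZMod N)) u 1)
    (hs : Real.sin θ ≠ 0) (hc : Real.cos θ ≠ 0) (hβ : Real.cos (θ / 2 + β) = Real.sin θ)
    (hB : B1 ⊆ B3) (hfar : ∀ e, QX.Vis B3 ω e → c e = 0)
    (h : ∀ ℓ ∈ LE ω (bS I), VisL B3 ℓ → ¬ VisL B1 ℓ → fLp θ I a0 ω ℓ = 1)
    (hin : ∀ A ∈ pcs ω I, ¬ IsLp I A) :
    RT θ I (aF a0 c) ω = (2 * Real.sin θ) ^ ((bS I).filter fun e => hdv e ∉ I).card *
      (TO θ I a0 B3 ω * XBoff θ β q D k (dv c) B3 ω * TB θ I a0 B1 ω) := by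
  classical
  rw [F.RT_eq hq hD hu rfl hs hc hβ, QX.XB_eq_off hq hD F.good F.sup hfar hs hc hβ,
    QX.RT_loops F.good F.off hs hc, QX.TB_mul_TO B1, TO_eq hB h]
  have e : (pcs ω I).filter (IsLp I) = ∅ := filter_eq_empty_iff.2 fun A hA => hin A hA
  rw [e, card_empty, pow_zero, inv_one, mul_one]
  ring

end Vale.Agent.P167.H398.Q
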