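import Vale.Agent.P167.QX.L1D
import Vale.Agent.P167.H398.Q.Fct

/-!
# P167, general `q`, block Q-START: exits of the rows, no inner loops
-/

namespace Vale.Agent.P167.H398.Q

open Finset MeasureTheory
open Vale.Agent.P167.BR hiding dv
open Vale.Agent.P167.XDL (bS mem_bS)
open Vale.Agent.P167.FK
open Vale.Agent.P167.H825.Q (Row)
open Vale.Agent.P167.H680.T (rowC uI mem_uI adm_sepd ax nm_ht trans_mem' ax_nx)
open Vale.Agent.P167.H945.Q (adm_sep)

variable {ι : Type} {ω : Cfg} {θ κ R B : ℝ} {n : ℕ} {r : ι → Row} {c : Ed → ℝ}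

/-- **The number of the exits of the rows.** -/
theorem exits_card [Fintype ι] (hA : (rowC θ r c).Adm κ R B n) (hn : 1 < κ * n)
    (hr : ∀ i, 1 ≤ (r i).L) :
    ((bS (uI r)).filter fun e => hdv e ∉ uI r).card = ∑ i, ((r i).L + 1) := by
  classical
  rw [QX.exits_uI hA hn, card_biUnion]
  · exact sum_congr rfl fun i _ => QX.card_exits (hr i)
  · intro i _ j _ hij
    rw [Function.onFun, Finset.disjoint_left]
    intro e he he'
    have tl : ∀ i, e ∈ (bS (r i).I).filter (fun e => hdv e ∉ (r i).I) → tlv e ∈ (r i).I := by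
      intro i he
      obtain ⟨g1, g2⟩ := mem_filter.1 he
      rw [mem_bS] at g1
      rcases g1 with ⟨g1, -⟩ | ⟨-, g1⟩
      · exact absurd g1 g2
      · exact g1
    exact Finset.disjoint_left.1 (adm_sepd hA hn (fun _ => rfl) (r := r) (z := fun _ => 0) hij).dis
      (tl i he) (tl j he')

/-- **There are no inner loops.** -/
theorem no_inner [Fintype ι] (hA : (rowC θ r c).Adm κ R B n) (hn : 1 < κ * n) (ω : Cfg) :
    ∀ A ∈ pcs ω (uI r), ¬ IsLp (uI r) A := by
  intro A hA' hl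
  obtain ⟨e, he⟩ := pcs_nonempty hA'
  have h1 : nx ω e ∈ A := (nx_mem_iff hA' (hl e he)).1 he
  have h2 : nx ω (nx ω e) ∈ A := (nx_mem_iff hA' (hl _ h1)).1 h1
  have key : ∀ e, hdv e ∈ uI r → tlv e ∈ uI r → ∃ i, ax (r i).o e = true ∧ hdv e ∈ (r i).I := by
    intro e g1 g2
    obtain ⟨i, hi⟩ := mem_uI.1 g1
    obtain ⟨j, hj⟩ := mem_uI.1 g2
    have hij : i = j := by
      by_contra hij
      have h3 := adm_sep hA hij hi hj
      have h4 : (nm (hdv e - tlv e) : ℝ) ≤ 1 := by exact_mod_cast nm_ht e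
      linarith
    subst hij
    refine ⟨i, ?_, hi⟩
    cases h : ax (r i).o e
    · exact absurd (trans_mem' h hi hj) id
    · rfl
  obtain ⟨i, a1, b1⟩ := key (nx ω e) (hl _ h1) (by rw [tlv_nx]; exact hl _ he)
  obtain ⟨j, a2, b2⟩ := key (nx ω (nx ω e)) (hl _ h2) (by rw [tlv_nx]; exact hl _ h1)
  have hij : i = j := by
    by_contra hij
    have h3 := adm_sep hA hij b1 b2
    have h4 := nm_ht (nx ω (nx ω e))
    rw [tlv_nx] at h4
    have h5 : nm (hdv (nx ω e) - hdv (nx ω (nx ω e))) =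
        nm (hdv (nx ω (nx ω e)) - hdv (nx ω e)) := H945.Q.nm_comm _ _
    have h6 : (nm (hdv (nx ω (nx ω e)) - hdv (nx ω e)) : ℝ) ≤ 1 := by exact_mod_cast h4
    rw [h5] at h3
    linarith
  subst hij
  rw [ax_nx, a1] at a2
  simp at a2

end Vale.Agent.P167.H398.Q
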