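import Vale.Agent.P167.H506.Q.Hz4
import Vale.Agent.P167.H135.Z.Two
import Vale.Agent.P167.H662.Z.Kinds

/-!
# P167, general `q`, block P2S: the bounds of the factor of a junction of zero type

`b` is the face with the weight zero, `e` the colour of the site of the junction. `TyII`: the weight zero
is the weight of the strands of outer colour `e`. The factor is bounded; if it is not zero there is an
arm of colour `e` from the junction, or (`TyII`) exactly one strand over the junction in a small box and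
an arm of the other colour from its outer site. Conversely both give a lower bound.
-/

namespace Vale.Agent.P167.H398.Zt

open Finset Relation Vale.Agent.P167.FK Vale.Agent.P167.FKA
open Vale.Agent.P167.H632 (pr)
open Vale.Agent.P167.H825.Q (Row)
open Vale.Agent.P167.H945.Q (face faces lrs SP jn Plain Tc ctr tj)
open Vale.Agent.P167.H135.Z (st pc Sd bxJ Db Rc AR sd E1 Gd mem_bxJ mem_Db arm_two ov_two ov_none
  ov_of_arm arm_of_ov ov_mono)
open Vale.Agent.P167.H506.Q (TB MZ MF one_le_MZ one_le_MF jn_bx jn_alt bf_J jn_K1 jn_K3 jn_bdd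
  TB_one TB_nn jn_nn Tc_J one_le_two_cos sin2_pos tj_cases bool_ne)
open Vale.Agent.P167.H135.Z renaming ov → ovz
open Vale.Agent.P167.H662.Z (K1 K3)

variable {θ : ℝ} {r : Row} {b e c : Bool} {ω : Cfg} {v z : ℤ × ℤ} {R s : ℤ} {x : Ed}
  {A : Finset (ℤ × ℤ)}

/-- The weight zero is the weight of the strands of outer colour `e`, the other weight is positive. -/
def TyII (θ : ℝ) (r : Row) (b e : Bool) : Prop := Real.sin (3 * θ) ≠ 0 ∧ K3 θ r ∧
  (((jn θ r b).w = 0 ∧ e = decide (r.o = b)) ∨ ((jn θ r b).w' = 0 ∧ e = !decide (r.o = b)))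

/-- The factor of the face `b`. -/
noncomputable def Tf (θ : ℝ) (r : Row) (b : Bool) (R : ℤ) (ω : Cfg) : ℝ :=
  TB r.I (faces r b 0 r.k0) (faces r b r.k0 r.L) (jn θ r b).w (jn θ r b).w' (jn θ r b).bx R ω

theorem Tf_nn (h0 : 0 < θ) (h1 : θ ≤ Real.pi / 3) : 0 ≤ Tf θ r b R ω :=
  TB_nn (jn_nn h0 h1).1 (jn_nn h0 h1).2

theorem Tf_ov : Tf θ r b R ω = (jn θ r b).w ^ (ovz r b (decide (r.o = b)) r.k0 R ω).card *
    (jn θ r b).w' ^ (ovz r b (!decide (r.o = b)) r.k0 R ω).card := H506.Q.TB_ov _ _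

theorem Tc_two (hP : ¬ Plain r) (b : Bool) : Tc θ r.I r 2 R ω = Tf θ r b R ω * Tf θ r (!b) R ω := by
  rw [Tc_J hP]
  cases b
  · exact mul_comm _ _
  · rfl

theorem not_plain (h0 : 0 < θ) (h1 : θ ≤ Real.pi / 3) (hK : K1 θ r ∨ K3 θ r) : ¬ Plain r := by
  rintro ⟨h2, -⟩
  have hp := Real.pi_pos
  rcases hK with ⟨h3, -⟩ | ⟨h3, -⟩ <;> rw [h2, abs_zero] at h3 <;> linarith

theorem alt_gd (h : Gd r R) (hg : Good ω) (c : Bool) :
    |((ovz r b c r.k0 R ω).card : ℤ) - (ovz r b (!c) r.k0 R ω).card| ≤ 3 := by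
  have g1 := h.h2
  have g2 := h.lo
  have g3 := h.hi
  have a1 := jn_alt (r := r) (b := b) (ω := ω) (R := R) (k0 := r.k0)
    (bf_J (θ := 0) (r := r) (b := b)) g1 (by omega) (by omega) hg
  rw [jn_bx] at a1
  unfold ovz
  by_cases hc : c = decide (r.o = b)
  · rw [if_pos hc, if_neg (by rw [hc]; simp)]
    exact a1
  · rw [if_neg hc, if_pos (show (!c) = decide (r.o = b) by rw [bool_ne hc, Bool.not_not]),
      abs_sub_comm]
    exact a1

/-- The other face. -/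
theorem bdd (h0 : 0 < θ) (h1 : θ ≤ Real.pi / 3) (hs : r.s = 1 ∨ r.s = -1) (hK : K1 θ r ∨ K3 θ r)
    (hb : tj r b * r.j < 0) (h : Gd r R) (hg : Good ω) :
    Tf θ r (!b) R ω ≤ MZ θ ^ 3 ∧ 1 ≤ MZ θ ^ 3 * Tf θ r (!b) R ω := by
  have hMZ := one_le_MZ (θ := θ)
  have hc1 := one_le_two_cos h0 h1
  have hM2 : 2 * Real.cos θ ≤ MZ θ := (le_max_left _ _).trans (le_max_right _ _)
  have hinv : (2 * Real.cos θ)⁻¹ ≤ MZ θ := (inv_le_one_of_one_le₀ hc1).trans hMZ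
  have hb' : 0 < tj r (!b) * r.j := by
    rcases tj_cases r b with ⟨h2, h3⟩ | ⟨h2, h3⟩ <;> rw [h2] at hb <;> rw [h3] <;> linarith
  have g1 := h.h2
  have g2 := h.lo
  have g3 := h.hi
  unfold Tf
  rcases hK with ⟨hj, hη⟩ | ⟨hj, hη⟩
  · rcases jn_K1 (b := !b) h0 h1 hs hj hη with ⟨-, g1, g2⟩ | ⟨g0, -⟩
    · rw [g1, g2, TB_one, mul_one]
      exact ⟨one_le_pow₀ hMZ, one_le_pow₀ hMZ⟩
    · exact absurd hb' (not_lt.2 g0.le)
  · rcases jn_K3 (b := !b) h0 h1 hs hj hη with ⟨-, ⟨g4, g5⟩ | ⟨g4, g5⟩⟩ | ⟨g0, -⟩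
    · rw [g4, g5]
      exact jn_bdd (by linarith) (by rw [mul_inv_cancel₀ (by linarith)]) hM2 hinv
        (bf_J (θ := θ) (r := r) (b := !b)) g1 (by omega) (by omega) hg
    · rw [g4, g5]
      exact jn_bdd (by positivity) (by rw [inv_mul_cancel₀ (by linarith)]) hinv hM2
        (bf_J (θ := θ) (r := r) (b := !b)) g1 (by omega) (by omega) hg
    · exact absurd hb' (not_lt.2 g0.le)

theorem v_nonneg (h0 : 0 < θ) (h1 : θ ≤ Real.pi / 3) :
    0 ≤ Real.sin (3 * θ) / Real.sin (2 * θ) := by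
  have hp := Real.pi_pos
  exact div_nonneg (Real.sin_nonneg_of_nonneg_of_le_pi (by linarith) (by linarith))
    (sin2_pos h0 h1).le

/-- The weights of the zero face. -/
theorem wts (h0 : 0 < θ) (h1 : θ ≤ Real.pi / 3) (hs : r.s = 1 ∨ r.s = -1) (hK : K1 θ r ∨ K3 θ r)
    (hb : tj r b * r.j < 0) : ∃ (c : Bool) (v : ℝ), 0 ≤ v ∧ v ≤ MZ θ ∧
      (∀ R ω, Tf θ r b R ω = 0 ^ (ovz r b c r.k0 R ω).card * v ^ (ovz r b (!c) r.k0 R ω).card) ∧
      ((v = 0 ∧ ∀ e, ¬ TyII θ r b e) ∨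
        (0 < v ∧ v = Real.sin (3 * θ) / Real.sin (2 * θ) ∧ ∀ e, TyII θ r b e ↔ e = c)) := by
  have hMZ := one_le_MZ (θ := θ)
  have hs2 := sin2_pos h0 h1
  have hvM : Real.sin (3 * θ) / Real.sin (2 * θ) ≤ MZ θ :=
    (le_max_right _ _).trans (le_max_right _ _)
  have hv := v_nonneg h0 h1
  rcases hK with ⟨hj, hη⟩ | ⟨hj, hη⟩
  · rcases jn_K1 (b := b) h0 h1 hs hj hη with ⟨g0, -⟩ | ⟨-, g1, g2⟩
    · exact absurd g0 (not_lt.2 hb.le)
    · refine ⟨decide (r.o = b), 0, le_rfl, by linarith, fun R ω => ?_, Or.inl ⟨rfl, ?_⟩⟩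
      · rw [Tf_ov, g1, g2]
      · rintro e ⟨-, ⟨-, h⟩, -⟩
        rw [hη] at h
        norm_num at h
  · by_cases h3 : Real.sin (3 * θ) = 0
    · refine ⟨decide (r.o = b), 0, le_rfl, by linarith, fun R ω => ?_,
        Or.inl ⟨rfl, fun e h => h.1 h3⟩⟩
      rcases jn_K3 (b := b) h0 h1 hs hj hη with ⟨g0, -⟩ | ⟨-, ⟨g1, g2⟩ | ⟨g1, g2⟩⟩
      · exact absurd g0 (not_lt.2 hb.le)
      · rw [Tf_ov, g1, g2, h3, zero_div]
      · rw [Tf_ov, g1, g2, h3, zero_div]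
    · have hvp : 0 < Real.sin (3 * θ) / Real.sin (2 * θ) :=
        lt_of_le_of_ne hv (Ne.symm (div_ne_zero h3 hs2.ne'))
      rcases jn_K3 (b := b) h0 h1 hs hj hη with ⟨g0, -⟩ | ⟨-, ⟨g1, g2⟩ | ⟨g1, g2⟩⟩
      · exact absurd g0 (not_lt.2 hb.le)
      · refine ⟨decide (r.o = b), _, hv, hvM, fun R ω => ?_, Or.inr ⟨hvp, rfl, fun e => ?_⟩⟩
        · rw [Tf_ov, g1, g2]
        · constructor
          · rintro ⟨-, -, ⟨-, h⟩ | ⟨h, -⟩⟩
            · exact h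
            · exact absurd (g2.symm.trans h) hvp.ne'
          · exact fun h => ⟨h3, ⟨hj, hη⟩, Or.inl ⟨g1, h⟩⟩
      · refine ⟨!decide (r.o = b), _, hv, hvM, fun R ω => ?_, Or.inr ⟨hvp, rfl, fun e => ?_⟩⟩
        · rw [Tf_ov, g1, g2, Bool.not_not, mul_comm]
        · constructor
          · rintro ⟨-, -, ⟨h, -⟩ | ⟨-, h⟩⟩
            · exact absurd (g1.symm.trans h) hvp.ne'
            · exact h
          · exact fun h => ⟨h3, ⟨hj, hη⟩, Or.inr ⟨g2, h⟩⟩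

/-- The zero face: the upper bound. -/
theorem Tf_le (h0 : 0 < θ) (h1 : θ ≤ Real.pi / 3) (hs : r.s = 1 ∨ r.s = -1)
    (hK : K1 θ r ∨ K3 θ r) (hb : tj r b * r.j < 0) (h : Gd r R) (hg : Good ω) :
    Tf θ r b R ω ≤ MF θ := by
  have hMZ := one_le_MZ (θ := θ)
  have hMF := one_le_MF (θ := θ)
  obtain ⟨c, v, hv0, hvM, hT, -⟩ := wts h0 h1 hs hK hb
  rw [hT]
  rcases Nat.eq_zero_or_pos (ovz r b c r.k0 R ω).card with h2 | h2
  · have h3 := alt_gd (b := b) h hg c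
    rw [h2] at h3 ⊢
    have h4 : (ovz r b (!c) r.k0 R ω).card ≤ 3 := by
      rw [abs_le] at h3
      omega
    rw [pow_zero, one_mul]
    exact ((pow_le_pow_left₀ hv0 hvM _).trans (pow_le_pow_right₀ hMZ h4)).trans (le_max_left _ _)
  · rw [zero_pow h2.ne', zero_mul]
    linarith

/-- **(T1)**, the bound. -/
theorem t1_le (h0 : 0 < θ) (h1 : θ ≤ Real.pi / 3) (hs : r.s = 1 ∨ r.s = -1)
    (hK : K1 θ r ∨ K3 θ r) (hb : tj r b * r.j < 0) (h : Gd r R) (hg : Good ω) :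
    Tc θ r.I r 2 R ω ≤ MF θ * MZ θ ^ 3 := by
  rw [Tc_two (not_plain h0 h1 hK) b]
  have hMF := one_le_MF (θ := θ)
  exact mul_le_mul (Tf_le h0 h1 hs hK hb h hg) (bdd h0 h1 hs hK hb h hg).1 (Tf_nn h0 h1)
    (by linarith)

/-- **(T1)**, the event. -/
theorem t1_ev (h0 : 0 < θ) (h1 : θ ≤ Real.pi / 3) (hs : r.s = 1 ∨ r.s = -1)
    (hK : K1 θ r ∨ K3 θ r) (hb : tj r b * r.j < 0)
    (hp : ((pc r b).1 + (pc r b).2) % 2 = pr e) (h : Gd r R) (h' : Gd r s) (hsR : s < R)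
    (hT : Tc θ r.I r 2 R ω ≠ 0) : ω ∈ AR r b e (Db r b s) (pc r b) (s - 1) ∨
      (TyII θ r b e ∧ ∃ x, ω ∈ E1 r b (!e) x s ∧
        ω ∈ AR r b (!e) (Db r b R) (sd (!e) x) (R - 1)) := by
  rw [Tc_two (not_plain h0 h1 hK) b] at hT
  have hT1 := left_ne_zero_of_mul hT
  obtain ⟨c, v, hv0, hvM, hTf, hty⟩ := wts h0 h1 hs hK hb
  rw [hTf] at hT1
  have g2 := h'.h2
  have g3 := h'.lo
  have g4 := h'.hi
  have hz : ∀ {c : Bool}, (0 : ℝ) ^ (ovz r b c r.k0 R ω).card ≠ 0 → ovz r b c r.k0 R ω = ∅ := by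
    intro c ha
    by_contra h2
    exact ha (zero_pow (fun h3 => h2 (card_eq_zero.1 h3)))
  have harm : ovz r b (!e) r.k0 R ω = ∅ → ω ∈ AR r b e (Db r b s) (pc r b) (s - 1) := by
    intro h2
    refine arm_of_ov (t := r.k0) h' (by omega) (by omega) hp ?_
    exact subset_empty.1 (h2 ▸ ov_mono (by omega) hsR.le)
  have hc0 := hz (left_ne_zero_of_mul hT1)
  rcases hty with ⟨hv, -⟩ | ⟨-, -, hiff⟩
  · left
    apply harm
    rw [hv] at hT1
    have hc1 := hz (right_ne_zero_of_mul hT1)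
    by_cases h2 : c = !e
    · rw [← h2]; exact hc0
    · rw [← show (!c) = !e by rw [bool_ne h2, Bool.not_not]]
      exact hc1
  · by_cases h2 : c = e
    · subst h2
      rcases arm_two h h' hsR hp hc0 with h3 | h3
      · exact Or.inl h3
      · exact Or.inr ⟨(hiff _).2 rfl, h3⟩
    · left
      apply harm
      rw [← bool_ne h2]
      exact hc0

/-- The zero face without strands. -/
theorem Tf_one (hov : ∀ c, ovz r b c r.k0 R ω = ∅) : Tf θ r b R ω = 1 := by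
  rw [Tf_ov, hov, hov, card_empty, pow_zero, pow_zero, one_mul]

/-- The constant of the lower bounds. -/
noncomputable def cZ (θ : ℝ) : ℝ := (MF θ * MZ θ ^ 3)⁻¹

theorem cZ_pos : 0 < cZ θ := by
  have hMZ := one_le_MZ (θ := θ)
  have hMF := one_le_MF (θ := θ)
  unfold cZ
  positivity

theorem low (h0 : 0 < θ) (h1 : θ ≤ Real.pi / 3) (hs : r.s = 1 ∨ r.s = -1)
    (hK : K1 θ r ∨ K3 θ r) (hb : tj r b * r.j < 0) (h : Gd r R) (hg : Good ω)
    (hf : 1 ≤ MF θ * Tf θ r b R ω) : cZ θ ≤ Tc θ r.I r 2 R ω := by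
  have hMZ := one_le_MZ (θ := θ)
  have hMF := one_le_MF (θ := θ)
  obtain ⟨-, h2⟩ := bdd h0 h1 hs hK hb h hg
  rw [Tc_two (not_plain h0 h1 hK) b]
  unfold cZ
  rw [inv_le_iff_one_le_mul₀ (by positivity)]
  calc (1 : ℝ) ≤ (MF θ * Tf θ r b R ω) * (MZ θ ^ 3 * Tf θ r (!b) R ω) := by
        nlinarith [Tf_nn (r := r) (b := b) (R := R) (ω := ω) h0 h1]
    _ = _ := by ring

/-- **(T2)** -/
theorem t2 (h0 : 0 < θ) (h1 : θ ≤ Real.pi / 3) (hs : r.s = 1 ∨ r.s = -1)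
    (hK : K1 θ r ∨ K3 θ r) (hb : tj r b * r.j < 0)
    (hp : ((pc r b).1 + (pc r b).2) % 2 = pr e) (h : Gd r R) (hg : Good ω)
    (hA : ∀ v ∈ A, v ∉ r.I) (hω : ω ∈ AR r b e A (pc r b) R) : cZ θ ≤ Tc θ r.I r 2 R ω := by
  have g1 := h.h2
  have g3 := h.hi
  refine low h0 h1 hs hK hb h hg ?_
  rw [Tf_one fun c => ov_of_arm (t := r.k0) h (by omega) hp hA hω c, mul_one]
  exact one_le_MF

/-- **(T3)** -/
theorem t3 (h0 : 0 < θ) (h1 : θ ≤ Real.pi / 3) (hs : r.s = 1 ∨ r.s = -1)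
    (hT : TyII θ r b e) (hb : tj r b * r.j < 0) (h : Gd r R) (h' : Gd r s) (hg : Good ω)
    (hA : ∀ v ∈ A, v ∉ r.I) (hE : ω ∈ E1 r b (!e) x s)
    (hω : ω ∈ AR r b (!e) A (sd (!e) x) R) : cZ θ ≤ Tc θ r.I r 2 R ω := by
  have hMF := one_le_MF (θ := θ)
  refine low h0 h1 hs (Or.inr hT.2.1) hb h hg ?_
  have hov := ov_two h h' hA hE hω
  obtain ⟨c, v, hv0, hvM, hTf, hty⟩ := wts (b := b) h0 h1 hs (Or.inr hT.2.1) hb
  rcases hty with ⟨-, hno⟩ | ⟨hvp, hv, hiff⟩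
  · exact absurd hT (hno e)
  · have hc := (hiff e).1 hT
    subst hc
    have h3 := alt_gd (b := b) h hg e
    rw [hov, card_empty] at h3
    have h4 : (ovz r b (!e) r.k0 R ω).card ≤ 3 := by
      rw [abs_le] at h3
      omega
    rw [hTf, hov, card_empty, pow_zero, one_mul]
    have hm0 : 0 < min 1 v := lt_min one_pos hvp
    have h5 : (min 1 v) ^ 3 ≤ v ^ (ovz r b (!e) r.k0 R ω).card :=
      (pow_le_pow_of_le_one hm0.le (min_le_left _ _) h4).trans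
        (pow_le_pow_left₀ hm0.le (min_le_right _ _) _)
    have h6 : ((min 1 v) ^ 3)⁻¹ ≤ MF θ := by
      unfold MF
      rw [← hv, if_neg hvp.ne']
      exact le_max_right _ _
    calc (1 : ℝ) = ((min 1 v) ^ 3)⁻¹ * (min 1 v) ^ 3 := by
          rw [inv_mul_cancel₀ (by positivity)]
      _ ≤ MF θ * v ^ (ovz r b (!e) r.k0 R ω).card :=
          mul_le_mul h6 h5 (by positivity) (by linarith)

end Vale.Agent.P167.H398.Zt
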