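import Mathlib

/-!
# P167, general `q`, block Q-START: the abstract comparison

`start_abs`: comparison of `E Rc` with `V * E R0` from the majorant, the moments, the small
probability of the bad event, the factorisation on the good event, the mixing and the closed frame.
-/

namespace Vale.Agent.P167.H398.Q

variable {Ω : Type*}

/-- A positive linear functional on a class `C` of functions; `Ok`: the points which matter. -/
structure Fn (E : (Ω → ℝ) → ℝ) (C : (Ω → ℝ) → Prop) (Ok : Ω → Prop) : Prop where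
  mono : ∀ {F G : Ω → ℝ}, C F → C G → (∀ ω, Ok ω → F ω ≤ G ω) → E F ≤ E G
  lin : ∀ {F G : Ω → ℝ}, C F → C G → ∀ a b : ℝ,
    E (fun ω => a * F ω + b * G ω) = a * E F + b * E G
  clin : ∀ {F G : Ω → ℝ}, C F → C G → ∀ a b : ℝ, C (fun ω => a * F ω + b * G ω)
  cmul : ∀ {F G : Ω → ℝ}, C F → C G → C (fun ω => F ω * G ω)

variable {E : (Ω → ℝ) → ℝ} {C : (Ω → ℝ) → Prop} {Ok : Ω → Prop}

theorem Fn.smul (h : Fn E C Ok) {F : Ω → ℝ} (hF : C F) (a : ℝ) :
    E (fun ω => a * F ω) = a * E F := by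
  have := h.lin hF hF a 0
  simp only [zero_mul, add_zero] at this
  exact this

theorem Fn.csmul (h : Fn E C Ok) {F : Ω → ℝ} (hF : C F) (a : ℝ) : C (fun ω => a * F ω) := by
  have := h.clin hF hF a 0
  simp only [zero_mul, add_zero] at this
  exact this

theorem Fn.abs_le (h : Fn E C Ok) {F G : Ω → ℝ} (hF : C F) (hG : C G)
    (hl : ∀ ω, Ok ω → |F ω| ≤ G ω) : |E F| ≤ E G := by
  rw [_root_.abs_le]
  constructor
  · have h1 := h.mono (h.csmul hG (-1)) hF fun ω hω => by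
      have := (_root_.abs_le.1 (hl ω hω)).1
      linarith
    rw [h.smul hG] at h1
    linarith
  · exact h.mono hF hG fun ω hω => (_root_.abs_le.1 (hl ω hω)).2

/-- The error off the good event. -/
theorem Fn.err (h : Fn E C Ok) {F T H χ : Ω → ℝ} (hF : C F) (hT : C T) (hH : C H) (hχ : C χ)
    {k M η l : ℝ} (hk : 0 ≤ k) (hl : 0 < l) (hT0 : ∀ ω, Ok ω → 0 ≤ T ω)
    (hχ01 : ∀ ω, Ok ω → 0 ≤ χ ω ∧ χ ω ≤ 1) (h1 : ∀ ω, Ok ω → |F ω| ≤ k * (T ω * H ω))
    (h2 : E (fun ω => T ω * H ω ^ 2) ≤ M * E T)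
    (h3 : E (fun ω => T ω * (1 - χ ω)) ≤ η * E T) :
    |E F - E (fun ω => χ ω * F ω)| ≤ k * ((l * M + η / l) / 2) * E T := by
  have hχF := h.cmul hχ hF
  have hTH : C fun ω => T ω * H ω ^ 2 := by
    have := h.cmul hT (h.cmul hH hH)
    simpa only [pow_two] using this
  have hTχ : C fun ω => T ω * (1 - χ ω) := by
    have := h.clin hT (h.cmul hT hχ) 1 (-1)
    convert this using 2 with ω
    ring
  have hD : E F - E (fun ω => χ ω * F ω) = E (fun ω => 1 * F ω + (-1) * (χ ω * F ω)) := by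
    rw [h.lin hF hχF]
    ring
  have hS := h.clin hTH hTχ (k * l / 2) (k / (2 * l))
  rw [hD]
  refine (h.abs_le (h.clin hF hχF 1 (-1)) hS fun ω hω => ?_).trans ?_
  · obtain ⟨c0, c1⟩ := hχ01 ω hω
    have e1 : |1 * F ω + (-1) * (χ ω * F ω)| = (1 - χ ω) * |F ω| := by
      rw [show 1 * F ω + (-1) * (χ ω * F ω) = (1 - χ ω) * F ω by ring, abs_mul,
        abs_of_nonneg (by linarith)]
    rw [e1]
    have e2 := mul_le_mul_of_nonneg_left (h1 ω hω) (show 0 ≤ 1 - χ ω by linarith)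
    refine e2.trans ?_
    have e3 : (1 - χ ω) * H ω ≤ (l * H ω ^ 2 + (1 - χ ω) / l) / 2 := by
      have e4 : 0 ≤ (l * H ω - (1 - χ ω)) ^ 2 / l := by positivity
      have e5 : (l * H ω - (1 - χ ω)) ^ 2 / l =
          l * H ω ^ 2 - 2 * ((1 - χ ω) * H ω) + (1 - χ ω) ^ 2 / l := by
        field_simp
        ring
      have e6 : (1 - χ ω) ^ 2 / l ≤ (1 - χ ω) / l := by
        refine div_le_div_of_nonneg_right ?_ hl.le
        nlinarith
      linarith
    have e7 := mul_le_mul_of_nonneg_left e3 (mul_nonneg hk (hT0 ω hω))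
    calc (1 - χ ω) * (k * (T ω * H ω)) = k * T ω * ((1 - χ ω) * H ω) := by ring
      _ ≤ k * T ω * ((l * H ω ^ 2 + (1 - χ ω) / l) / 2) := e7
      _ = k * l / 2 * (T ω * H ω ^ 2) + k / (2 * l) * (T ω * (1 - χ ω)) := by
        field_simp
  · rw [h.lin hTH hTχ]
    have e1 : k * l / 2 * E (fun ω => T ω * H ω ^ 2) ≤ k * l / 2 * (M * E T) :=
      mul_le_mul_of_nonneg_left h2 (by positivity)
    have e2 : k / (2 * l) * E (fun ω => T ω * (1 - χ ω)) ≤ k / (2 * l) * (η * E T) :=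
      mul_le_mul_of_nonneg_left h3 (by positivity)
    calc _ ≤ k * l / 2 * (M * E T) + k / (2 * l) * (η * E T) := add_le_add e1 e2
      _ = _ := by field_simp

/-- **The abstract comparison.** -/
theorem start_abs (h : Fn E C Ok) {Rc R0 T1 Hc H0 T2 Gc G0 χ : Ω → ℝ}
    (cRc : C Rc) (cR0 : C R0) (cT1 : C T1) (cHc : C Hc) (cH0 : C H0) (cT2 : C T2) (cGc : C Gc)
    (cG0 : C G0) (cχ : C χ) {k M M' η l ε1 ε2 C5 V a : ℝ} (hk : 0 ≤ k) (hl : 0 < l)
    (hT1 : ∀ ω, Ok ω → 0 ≤ T1 ω) (hχ : ∀ ω, Ok ω → 0 ≤ χ ω ∧ χ ω ≤ 1)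
    (h1c : ∀ ω, Ok ω → |Rc ω| ≤ k * (T1 ω * Hc ω))
    (h10 : ∀ ω, Ok ω → |R0 ω| ≤ k * (T1 ω * H0 ω))
    (h2c : E (fun ω => T1 ω * Hc ω ^ 2) ≤ M * E T1)
    (h20 : E (fun ω => T1 ω * H0 ω ^ 2) ≤ M * E T1)
    (h3 : E (fun ω => T1 ω * (1 - χ ω)) ≤ η * E T1)
    (h4c : ∀ ω, Ok ω → χ ω * Rc ω = Gc ω * T2 ω)
    (h40 : ∀ ω, Ok ω → χ ω * R0 ω = G0 ω * T2 ω)
    (h5c : |E (fun ω => Gc ω * T2 ω) - E Gc * E T2| ≤ ε1 * (a * E T2))
    (h50 : |E (fun ω => G0 ω * T2 ω) - E G0 * E T2| ≤ ε1 * (E G0 * E T2))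
    (ha : a ≤ M' * E G0) (hG0 : 0 ≤ E G0) (hT2 : 0 ≤ E T2)
    (h6 : |E Gc - V * E G0| ≤ ε2 * E G0) (hV : |V| ≤ M')
    (h7 : k * E T1 ≤ C5 * E (fun ω => G0 ω * T2 ω))
    (hε1 : 0 ≤ ε1) (hε1' : ε1 ≤ 1 / 2) (hε2 : 0 ≤ ε2) (hlM : 0 ≤ l * M + η / l)
    (he : (l * M + η / l) / 2 * C5 ≤ 1 / 2) (hC5 : 0 ≤ C5) :
    |E Rc - V * E R0| ≤
      2 * ((l * M + η / l) / 2 * C5 * (1 + M') + 2 * (2 * ε1 * M' + ε2)) * E R0 ∧
    E (fun ω => G0 ω * T2 ω) ≤ 2 * E R0 := by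
  set b : ℝ := E (fun ω => G0 ω * T2 ω) with hb
  set e : ℝ := (l * M + η / l) / 2 * C5 with hed
  have he0 : 0 ≤ e := mul_nonneg (by linarith) hC5
  have hM' : 0 ≤ M' := (abs_nonneg _).trans hV
  have cχRc := h.cmul cχ cRc
  have cχR0 := h.cmul cχ cR0
  have cGT := h.cmul cGc cT2
  have cGT0 := h.cmul cG0 cT2
  have eqc : E (fun ω => χ ω * Rc ω) = E (fun ω => Gc ω * T2 ω) :=
    le_antisymm (h.mono cχRc cGT fun ω hω => (h4c ω hω).le)
      (h.mono cGT cχRc fun ω hω => (h4c ω hω).ge)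
  have eq0 : E (fun ω => χ ω * R0 ω) = b :=
    le_antisymm (h.mono cχR0 cGT0 fun ω hω => (h40 ω hω).le)
      (h.mono cGT0 cχR0 fun ω hω => (h40 ω hω).ge)
  have r1 := h.err cRc cT1 cHc cχ hk hl hT1 hχ h1c h2c h3
  have r2 := h.err cR0 cT1 cH0 cχ hk hl hT1 hχ h10 h20 h3
  rw [eqc] at r1
  rw [eq0] at r2
  have r3 : k * ((l * M + η / l) / 2) * E T1 ≤ e * b := by
    calc k * ((l * M + η / l) / 2) * E T1 = (l * M + η / l) / 2 * (k * E T1) := by ring
      _ ≤ (l * M + η / l) / 2 * (C5 * b) := mul_le_mul_of_nonneg_left h7 (by linarith)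
      _ = e * b := by rw [hed]; ring
  have r1' := r1.trans r3
  have r2' := r2.trans r3
  -- the product of the means
  set g : ℝ := E G0 * E T2 with hg
  have hg0 : 0 ≤ g := mul_nonneg hG0 hT2
  have hb1 : (1 - ε1) * g ≤ b := by
    have := (_root_.abs_le.1 h50).1
    linarith
  have hg1 : g ≤ 2 * b := by nlinarith
  have hb0 : 0 ≤ b := by linarith [mul_nonneg (show (0 : ℝ) ≤ 1 - ε1 by linarith) hg0]
  have s1 : |E (fun ω => Gc ω * T2 ω) - V * b| ≤ (2 * ε1 * M' + ε2) * g := by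
    have t1 : ε1 * (a * E T2) ≤ ε1 * M' * g := by
      calc ε1 * (a * E T2) ≤ ε1 * (M' * E G0 * E T2) := by
            refine mul_le_mul_of_nonneg_left ?_ hε1
            exact mul_le_mul_of_nonneg_right ha hT2
        _ = ε1 * M' * g := by rw [hg]; ring
    have t2 : |E Gc * E T2 - V * g| ≤ ε2 * g := by
      have : E Gc * E T2 - V * g = (E Gc - V * E G0) * E T2 := by rw [hg]; ring
      rw [this, abs_mul, abs_of_nonneg hT2]
      calc |E Gc - V * E G0| * E T2 ≤ ε2 * E G0 * E T2 := mul_le_mul_of_nonneg_right h6 hT2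
        _ = ε2 * g := by rw [hg]; ring
    have t3 : |V * g - V * b| ≤ ε1 * M' * g := by
      rw [← mul_sub, abs_mul, abs_sub_comm]
      calc |V| * |b - g| ≤ M' * (ε1 * g) := mul_le_mul hV h50 (abs_nonneg _) hM'
        _ = _ := by ring
    calc |E (fun ω => Gc ω * T2 ω) - V * b|
        = |(E (fun ω => Gc ω * T2 ω) - E Gc * E T2) + (E Gc * E T2 - V * g) + (V * g - V * b)| := by
          ring_nf
      _ ≤ |E (fun ω => Gc ω * T2 ω) - E Gc * E T2| + |E Gc * E T2 - V * g| + |V * g - V * b| :=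
          (abs_add_le _ _).trans (add_le_add (abs_add_le _ _) le_rfl)
      _ ≤ ε1 * M' * g + ε2 * g + ε1 * M' * g := add_le_add (add_le_add (h5c.trans t1) t2) t3
      _ = (2 * ε1 * M' + ε2) * g := by ring
  have s2 : |E (fun ω => Gc ω * T2 ω) - V * b| ≤ 2 * (2 * ε1 * M' + ε2) * b := by
    refine s1.trans ?_
    have := mul_le_mul_of_nonneg_left hg1 (show 0 ≤ 2 * ε1 * M' + ε2 by positivity)
    linarith
  have s3 : |V * E R0 - V * b| ≤ M' * (e * b) := by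
    rw [← mul_sub, abs_mul]
    exact mul_le_mul hV r2' (abs_nonneg _) hM'
  have s4 : |E Rc - V * E R0| ≤ (e * (1 + M') + 2 * (2 * ε1 * M' + ε2)) * b := by
    calc |E Rc - V * E R0| = |(E Rc - E (fun ω => Gc ω * T2 ω)) +
            (E (fun ω => Gc ω * T2 ω) - V * b) + (V * b - V * E R0)| := by ring_nf
      _ ≤ |E Rc - E (fun ω => Gc ω * T2 ω)| + |E (fun ω => Gc ω * T2 ω) - V * b| +
            |V * b - V * E R0| := (abs_add_le _ _).trans (add_le_add (abs_add_le _ _) le_rfl)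
      _ ≤ e * b + 2 * (2 * ε1 * M' + ε2) * b + M' * (e * b) := by
          refine add_le_add (add_le_add r1' s2) ?_
          rw [abs_sub_comm]
          exact s3
      _ = _ := by ring
  have s5 : b ≤ 2 * E R0 := by
    have h1 := (_root_.abs_le.1 r2').1
    have h2 : e * b ≤ 1 / 2 * b := mul_le_mul_of_nonneg_right he hb0
    linarith
  refine ⟨s4.trans ?_, s5⟩
  have h9 : 0 ≤ e * (1 + M') + 2 * (2 * ε1 * M' + ε2) := by positivity
  have := mul_le_mul_of_nonneg_left s5 h9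
  linarith

end Vale.Agent.P167.H398.Q
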