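import Vale.Agent.P167.H167.Crs
import Vale.Agent.P167.H562.GLm
import Vale.Agent.P167.H506.Q.ArmF
import Vale.Agent.P167.K8.DuLoop
import Vale.Agent.P167.QX.Loops
import Vale.Agent.P167.FKA.WirC

/-!
# P167, general `q`, block Q-START: the arms which are rare next to frozen squares of one colour

`Arm b x r R`: open primal arm (`b = false`), dual arm (`b = true`). Locality, the bound given the
frozen squares, and loops: a loop which visits a box and leaves a larger box gives both arms.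
-/

namespace Vale.Agent.P167.H398.Q

open Finset MeasureTheory Vale.Agent.P167.FK Vale.Agent.P167.FKA
open Vale.Agent.P167.BR
open Vale.Agent.P167.H519 (IsLim)
open Vale.Agent.P167.QX (QL VisL)
open Vale.Agent.P167.H506.Q (EF EF_arm_cl EF_arm_op)

variable {Q : ℝ} {K : Finset (ℤ × ℤ)} {κ : Cfg} {P : Measure Cfg} {x : ℤ × ℤ} {r R : ℤ} {b : Bool}
  {ω ω' : Cfg} {ℓ : Finset Ed}

/-- The arm which is rare next to frozen squares of the colour `b`. -/
def Arm (b : Bool) (x : ℤ × ℤ) (r R : ℤ) (ω : Cfg) : Prop :=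
  if b = true then ArmDx x r R ω else ArmPx x r R ω

theorem armD_ind (hrR : r ≤ R) :
    Ind (Bq x r) ({ω | ArmDx x r R ω}.indicator (1 : Cfg → ℝ)) := by
  intro ω ω' h
  have h1 : ∀ ω : Cfg, ({ω | ArmDx x r R ω}.indicator (1 : Cfg → ℝ)) ω =
      {ω | ArmPx (FKA.sh x) r R ω}.indicator 1 (du ω) := by
    intro ω
    by_cases h : ArmDx x r R ω
    · rw [Set.indicator_of_mem (show ω ∈ {ω | ArmDx x r R ω} from h),
        Set.indicator_of_mem (show du ω ∈ {ω | ArmPx (FKA.sh x) r R ω} from FKA.arm_dual.1 h)]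
      rfl
    · rw [Set.indicator_of_notMem (show ω ∉ {ω | ArmDx x r R ω} from h),
        Set.indicator_of_notMem (show du ω ∉ {ω | ArmPx (FKA.sh x) r R ω} from fun h' =>
          h (FKA.arm_dual.2 h'))]
  rw [h1, h1]
  refine arm_ind hrR _ _ fun v hv => ?_
  show (!(ω (FKA.shi v))) = !(ω' (FKA.shi v))
  rw [h _ fun h2 => hv (mem_Bq_sh.2 h2)]

theorem Arm.loc (b : Bool) (x : ℤ × ℤ) (r R : ℤ) :
    Loc (Bq x R) ({ω | Arm b x r R ω}.indicator (1 : Cfg → ℝ)) := by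
  cases b
  · exact loc_arm x r R
  · exact H562.GL.loc_armD x r R

theorem Arm.ind (hrR : r ≤ R) : Ind (Bq x r) ({ω | Arm b x r R ω}.indicator (1 : Cfg → ℝ)) := by
  cases b
  · exact arm_ind hrR
  · exact armD_ind hrR

theorem Arm.iff_of (hrR : r ≤ R) (h : ∀ v ∈ Bq x R, v ∉ Bq x r → ω v = ω' v) :
    Arm b x r R ω ↔ Arm b x r R ω' := by
  classical
  -- an intermediate configuration
  set ξ : Cfg := fun v => if v ∈ Bq x r then ω' v else ω v with hξ
  have h1 := Arm.ind (b := b) (x := x) (r := r) (R := R) hrR ω ξ fun v hv => by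
    show ω v = if v ∈ Bq x r then ω' v else ω v
    rw [if_neg hv]
  have h2 := Arm.loc b x r R ξ ω' fun v hv => by
    show (if v ∈ Bq x r then ω' v else ω v) = ω' v
    split_ifs with h3
    · rfl
    · exact h v hv h3
  rw [h2] at h1
  by_cases a : Arm b x r R ω <;> by_cases a' : Arm b x r R ω'
  · simp [a, a']
  · rw [Set.indicator_of_mem (show ω ∈ {ω | Arm b x r R ω} from a),
      Set.indicator_of_notMem (show ω' ∉ {ω | Arm b x r R ω} from a')] at h1
    simp at h1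
  · rw [Set.indicator_of_notMem (show ω ∉ {ω | Arm b x r R ω} from a),
      Set.indicator_of_mem (show ω' ∈ {ω | Arm b x r R ω} from a')] at h1
    simp at h1
  · simp [a, a']

/-- **The bound given the frozen squares.** -/
theorem EF_arm (hQ : 1 ≤ Q) (hP : IsLim Q P) (hg : ∀ᵐ ω ∂P, Good ω) {α C : ℝ}
    (h : ArmDec Q α C) (hr : 1 ≤ r) (hrR : r ≤ R)
    (hκ : ∀ v ∈ K, v ∈ Bq x R \ Bq x r → κ v = b) {G : Cfg → ℝ} (hG0 : ∀ ω, 0 ≤ G ω)
    (hGq : QL G) {M : ℝ} (hM : ∀ ω, Good ω → |G ω| ≤ M) (hG : Ind ((Bq x R \ Bq x r) \ K) G) :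
    EF P K κ (fun ω => G ω * {ω | Arm b x r R ω}.indicator 1 ω) ≤
      C * ((r : ℝ) / R) ^ α * EF P K κ G := by
  cases b
  · exact EF_arm_cl hQ hP hg h hr hrR hκ hG0 hGq hM hG
  · exact EF_arm_op hQ hP hg h hr hrR hκ hG0 hGq hM hG

/-! ### loops -/

/-- A loop gives a primal arm. -/
theorem armPx_loop (hl : IsLoop ω ℓ) (hrR : r + 2 ≤ R) {v w : ℤ × ℤ} (hv : v ∈ vs ℓ)
    (hw : w ∈ vs ℓ) (h1 : nm (v - x) ≤ r) (h2 : R ≤ nm (w - x)) : ArmPx x (r + 1) (R - 1) ω := by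
  unfold vs at hv hw
  obtain ⟨e, he, rfl⟩ := mem_image.1 hv
  obtain ⟨f, hf, rfl⟩ := mem_image.1 hw
  obtain ⟨k, hk⟩ := (H685.loop_gen hl he f).1 hf
  have h : ω ∈ H167.ArmE x r R := H167.arm_of_fw (k := k) (by omega) h1 (by rw [hk]; exact h2)
  obtain ⟨s, t, h3, h4, h5, h6⟩ := h
  rw [armPx_iff (by omega)]
  refine ⟨s, t, by rw [Int.even_iff]; exact h3, h4, h5, H166.rtg_mono ?_ h6⟩
  intro v hv
  rw [Finset.mem_coe, H167.An, Finset.mem_filter] at hv
  exact hv.2.2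

/-- **A loop gives both arms.** -/
theorem arm_loop (hl : IsLoop ω ℓ) (hrR : r + 2 ≤ R) {v w : ℤ × ℤ} (hv : v ∈ vs ℓ)
    (hw : w ∈ vs ℓ) (h1 : nm (v - x) ≤ r) (h2 : R ≤ nm (w - x)) (b : Bool) :
    Arm b x (r + 1) (R - 1) ω := by
  cases b
  · exact armPx_loop hl hrR hv hw h1 h2
  · show ArmDx x (r + 1) (R - 1) ω
    obtain ⟨ℓ', h3, h4, -⟩ := K8.du_loop hl
    rw [FKA.arm_dual]
    have e : ∀ v : ℤ × ℤ, nm (FKA.sh v - FKA.sh x) = nm (v - x) := fun v => by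
      unfold nm FKA.sh
      simp
    exact armPx_loop h3 hrR (by rw [h4]; exact mem_image_of_mem _ hv)
      (by rw [h4]; exact mem_image_of_mem _ hw) (by rw [e]; exact h1) (by rw [e]; exact h2)

theorem nm_of_mem_Bq {v : ℤ × ℤ} (h : v ∈ Bq x R) : nm (v - x) ≤ R := by
  unfold Bq at h
  rw [mem_product, mem_Ico, mem_Ico] at h
  unfold nm
  rw [max_le_iff, abs_le, abs_le]
  simp only [Prod.fst_sub, Prod.snd_sub]
  omega

theorem nm_of_notMem_Bq {v : ℤ × ℤ} (h : v ∉ Bq x R) : R ≤ nm (v - x) := by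
  by_contra hlt
  push Not at hlt
  unfold nm at hlt
  rw [max_lt_iff, abs_lt, abs_lt] at hlt
  simp only [Prod.fst_sub, Prod.snd_sub] at hlt
  apply h
  unfold Bq
  rw [mem_product, mem_Ico, mem_Ico]
  omega

/-- **Loops are confined if there is no arm.** -/
theorem conf_of (hl : IsLoop ω ℓ) (hrR : r + 2 ≤ R) (hv : VisL (Bq x r) ℓ)
    (ha : ¬ Arm b x (r + 1) (R - 1) ω) : ∀ v ∈ vs ℓ, v ∈ Bq x R := by
  obtain ⟨e, he, h1⟩ := hv
  intro v hv
  by_contra h2
  exact ha (arm_loop hl hrR (mem_image_of_mem _ he) hv (nm_of_mem_Bq (Finset.mem_coe.1 h1))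
    (nm_of_notMem_Bq h2) b)

end Vale.Agent.P167.H398.Q
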