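import Vale.Agent.P167.H398.Q.Err

/-!
# P167, general `q`, block Q-START: the comparison for one frame
-/

namespace Vale.Agent.P167.H398.Q

open Finset MeasureTheory
open Vale.Agent.P167.BR
open Vale.Agent.P167.E6 (IsPolygon Encloses)
open Vale.Agent.P167.FK
open Vale.Agent.P167.FKA (Loc Ind ArmDec)
open Vale.Agent.P167.H825 (dv enl Marks FlowIn)
open Vale.Agent.P167.H825.Q (Row Bc)
open Vale.Agent.P167.H680.T (rowC uI frows)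
open Vale.Agent.P167.H519 (IsLim)
open Vale.Agent.P167.H662 (hsite)
open Vale.Agent.P167.QX (QL RT TB TO XBoff)
open Vale.Agent.P167.H506.Q (EF)
open Vale.Agent.P167.Enl (tB qN)

variable {l : ℕ} {θ β : ℝ} {p : ZMod l → ℤ × ℤ} {S₀ : Finset (ℤ × ℤ)} {Q : Marks} {bc : Bc}
  {n d : ℕ} {P : Measure Cfg} {K : Finset (ℤ × ℤ)} {σ : Cfg}

theorem EF_congr [IsFiniteMeasure P] (hg : ∀ᵐ ω ∂P, Good ω) {F G : Cfg → ℝ} (hF : CB F) (hG : CB G)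
    (h : ∀ ω, Good ω → (∀ v ∈ K, ω v = σ v) → F ω = G ω) : EF P K σ F = EF P K σ G :=
  le_antisymm ((fn_EF hg).mono hF hG fun ω hω => (h ω hω.1 hω.2).le)
    ((fn_EF hg).mono hG hF fun ω hω => (h ω hω.1 hω.2).ge)

theorem EF_Gg [IsFiniteMeasure P] (hg : ∀ᵐ ω ∂P, Good ω) {F : Cfg → ℝ} (hF : CB F) :
    EF P K σ (Gg F) = EF P K σ F :=
  EF_congr hg (cb_Gg hF) hF fun _ hω _ => Gg_good hω

/-- Mixing between `Gf` and `T2f`. -/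
theorem mix_GT (h0 : 0 < θ) (h1 : θ ≤ Real.pi / 3) (hP : IsLim (2 * Real.cos θ) P)
    (hg : ∀ᵐ ω ∂P, Good ω) {α C : ℝ} (hdec : ArmDec (2 * Real.cos θ) α C) (hC : 0 ≤ C)
    (hσ : Good σ) {R₁ R₂ R₃ R₄ : ℤ} (hR1 : 1 ≤ R₁) (h12 : R₁ + 2 ≤ R₂) (h23 : R₂ ≤ R₃)
    (h34 : R₃ + 2 ≤ R₄)
    (hdis : ∀ x y, x ≠ y → Disjoint (Bq (hsite p Q n x) R₄) (Bq (hsite p Q n y) R₄))
    (hcol : ∀ x, ∀ v ∈ K, v ∈ Bq (hsite p Q n x) R₄ → σ v = bcol p Q bc n x) {ε1 : ℝ}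
    (hmix : 8 * (univ : Finset (Fin l × Fin (Q.m + 1))).card * (C * ((R₂ : ℝ) / R₃) ^ α) ≤ ε1)
    (hmix1 : C * ((R₂ : ℝ) / R₃) ^ α < 1) (hε1 : ε1 ≤ 1 / 2) (c : Ed → ℝ) :
    |EF P K σ (fun ω => Gf θ β p S₀ Q bc n d c R₃ R₄ ω * T2f θ β p Q bc n d R₁ R₂ ω) -
        EF P K σ (Gf θ β p S₀ Q bc n d c R₃ R₄) * EF P K σ (T2f θ β p Q bc n d R₁ R₂)| ≤
      ε1 * (EF P K σ (fun ω => |Gf θ β p S₀ Q bc n d c R₃ R₄ ω|) *
        EF P K σ (T2f θ β p Q bc n d R₁ R₂)) := by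
  classical
  have hPp : IsProbabilityMeasure P := hP.1
  have hQ := H680.T.cos_le h0 h1
  have cG : CB (Gf θ β p S₀ Q bc n d c R₃ R₄) := cb_Gf h0 h1
  have cT : CB (T2f θ β p Q bc n d R₁ R₂) := cb_T2f h12
  obtain ⟨hGq, M, hM⟩ := cb_Gg cG
  have key := mix_EF (K := K) hQ hσ hdec (univ : Finset (Fin l × Fin (Q.m + 1))) (hsite p Q n)
    (r := R₂) (R := R₃) (by omega) h23
    (fun x _ y _ hxy => Finset.disjoint_of_subset_left (Bq_mono' (by omega))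
      (Finset.disjoint_of_subset_right (Bq_mono' (by omega)) (hdis x y hxy)))
    (fun x _ => ⟨bcol p Q bc n x, fun v hv hv' => hcol x v hv (Bq_mono' (by omega) hv')⟩)
    hC hmix1 (by linarith) hP hg (T := T2f θ β p Q bc n d R₁ R₂)
    (G := Gg (Gf θ β p S₀ Q bc n d c R₃ R₄)) T2f_nonneg
    (fun ω ω' h => T2f_loc h12 ω ω' fun v hv => h v (mem_union_left _ hv)) hGq hM
    (Gf_ind h34 hdis sdiff_subset)
  have e1 : EF P K σ (fun ω => Gg (Gf θ β p S₀ Q bc n d c R₃ R₄) ω *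
      T2f θ β p Q bc n d R₁ R₂ ω) =
      EF P K σ (fun ω => Gf θ β p S₀ Q bc n d c R₃ R₄ ω * T2f θ β p Q bc n d R₁ R₂ ω) :=
    EF_congr hg ((cb_Gg cG).mul cT) (cG.mul cT) fun ω hω _ => by
      show Gg _ ω * _ = _
      rw [Gg_good hω]
  have e2 : EF P K σ (fun ω => |Gg (Gf θ β p S₀ Q bc n d c R₃ R₄) ω|) =
      EF P K σ (fun ω => |Gf θ β p S₀ Q bc n d c R₃ R₄ ω|) :=
    EF_congr hg (cb_Gg cG).abs cG.abs fun ω hω _ => by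
      show |Gg _ ω| = _
      rw [Gg_good hω]
  rw [e1, e2, EF_Gg hg cG] at key
  refine key.trans (mul_le_mul_of_nonneg_right hmix (mul_nonneg ?_ ?_))
  · exact H506.Q.EF_nonneg fun ω => abs_nonneg _
  · exact H506.Q.EF_nonneg T2f_nonneg

/-- **The comparison for one frame.** -/
theorem start_core (h0 : 0 < θ) (h1 : θ ≤ Real.pi / 3) (hP : IsLim (2 * Real.cos θ) P)
    (hg : ∀ᵐ ω ∂P, Good ω) {α C : ℝ} (hdec : ArmDec (2 * Real.cos θ) α C) (hC : 0 ≤ C)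
    (hσ : Good σ) {R₁ R₂ R₃ R₄ : ℤ} (hR1 : 1 ≤ R₁) (h12 : R₁ + 4 ≤ R₂) (h23 : R₂ ≤ R₃)
    (h34 : R₃ + 4 ≤ R₄)
    (hdis : ∀ x y, x ≠ y → Disjoint (Bq (hsite p Q n x) R₄) (Bq (hsite p Q n y) R₄))
    (hcol : ∀ x, ∀ v ∈ K, v ∈ Bq (hsite p Q n x) R₄ → σ v = bcol p Q bc n x) {ε1 ε2 : ℝ}
    (hmix : 8 * (univ : Finset (Fin l × Fin (Q.m + 1))).card * (C * ((R₂ : ℝ) / R₃) ^ α) ≤ ε1)
    (hmix1 : C * ((R₂ : ℝ) / R₃) ^ α < 1) (hε1' : 0 ≤ ε1) (hε1 : ε1 ≤ 1 / 2) (hε2 : 0 ≤ ε2)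
    {Rc R0 T1 Hc H0 : Cfg → ℝ} (c : Ed → ℝ)
    (cRc : CB Rc) (cR0 : CB R0) (cT1 : CB T1) (cHc : CB Hc) (cH0 : CB H0)
    {k M M' η lm C5 V : ℝ} (hk : 0 ≤ k) (hl : 0 < lm) (hT1 : ∀ ω, 0 ≤ T1 ω)
    (hTi : ∀ x, Ind ((Bq (hsite p Q n x) (R₂ - 1) \ Bq (hsite p Q n x) (R₁ + 1)) \ K) T1 ∧
      Ind ((Bq (hsite p Q n x) (R₄ - 1) \ Bq (hsite p Q n x) (R₃ + 1)) \ K) T1)
    (h1c : ∀ ω, Good ω → (∀ v ∈ K, ω v = σ v) → |Rc ω| ≤ k * (T1 ω * Hc ω))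
    (h10 : ∀ ω, Good ω → (∀ v ∈ K, ω v = σ v) → |R0 ω| ≤ k * (T1 ω * H0 ω))
    (h2c : EF P K σ (fun ω => T1 ω * Hc ω ^ 2) ≤ M * EF P K σ T1)
    (h20 : EF P K σ (fun ω => T1 ω * H0 ω ^ 2) ≤ M * EF P K σ T1)
    (h3 : (univ : Finset (Fin l × Fin (Q.m + 1))).card *
        (C * (((R₁ + 1 : ℤ) : ℝ) / ((R₂ - 1 : ℤ) : ℝ)) ^ α) +
      (univ : Finset (Fin l × Fin (Q.m + 1))).card *
        (C * (((R₃ + 1 : ℤ) : ℝ) / ((R₄ - 1 : ℤ) : ℝ)) ^ α) ≤ η)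
    (hfc : ∀ ω, Good ω → (∀ v ∈ K, ω v = σ v) → ω ∈ NAh p Q bc n (R₁ + 1) (R₂ - 1) →
      ω ∈ NAh p Q bc n (R₃ + 1) (R₄ - 1) →
      Rc ω = k * (Gf θ β p S₀ Q bc n d c R₃ R₄ ω * T2f θ β p Q bc n d R₁ R₂ ω))
    (hf0 : ∀ ω, Good ω → (∀ v ∈ K, ω v = σ v) → ω ∈ NAh p Q bc n (R₁ + 1) (R₂ - 1) →
      ω ∈ NAh p Q bc n (R₃ + 1) (R₄ - 1) →
      R0 ω = k * (Gf θ β p S₀ Q bc n d 0 R₃ R₄ ω * T2f θ β p Q bc n d R₁ R₂ ω))
    (hG0 : ∀ ω, Good ω → (∀ v ∈ K, ω v = σ v) → 0 ≤ Gf θ β p S₀ Q bc n d 0 R₃ R₄ ω)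
    (h6 : |EF P K σ (Gf θ β p S₀ Q bc n d c R₃ R₄) -
        V * EF P K σ (Gf θ β p S₀ Q bc n d 0 R₃ R₄)| ≤
      ε2 * EF P K σ (Gf θ β p S₀ Q bc n d 0 R₃ R₄))
    (h6a : EF P K σ (fun ω => |Gf θ β p S₀ Q bc n d c R₃ R₄ ω|) ≤
      M' * EF P K σ (Gf θ β p S₀ Q bc n d 0 R₃ R₄)) (hV : |V| ≤ M')
    (h7 : EF P K σ T1 ≤ C5 * EF P K σ (fun ω =>
      Gf θ β p S₀ Q bc n d 0 R₃ R₄ ω * T2f θ β p Q bc n d R₁ R₂ ω)) (hC5 : 0 ≤ C5) (hM : 0 ≤ M)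
    (he : (lm * M + η / lm) / 2 * C5 ≤ 1 / 2) :
    |EF P K σ Rc - V * EF P K σ R0| ≤
      2 * ((lm * M + η / lm) / 2 * C5 * (1 + M') + 2 * (2 * ε1 * M' + ε2)) * EF P K σ R0 ∧
    k * EF P K σ T1 ≤ 2 * C5 * EF P K σ R0 := by
  classical
  have hPp : IsProbabilityMeasure P := hP.1
  have hfn := fn_EF (P := P) (K := K) (κ := σ) hg
  have hQ := H680.T.cos_le h0 h1
  have cG : ∀ c, CB (Gf θ β p S₀ Q bc n d c R₃ R₄) := fun c => cb_Gf h0 h1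
  have cT : CB (T2f θ β p Q bc n d R₁ R₂) := cb_T2f (by omega)
  have hm := fun c => mix_GT (β := β) (p := p) (S₀ := S₀) (Q := Q) (bc := bc) (n := n) (d := d)
    (K := K) (σ := σ) h0 h1 hP hg hdec hC hσ hR1 (by omega) h23 (by omega) hdis hcol hmix hmix1
    hε1 c
  set gc := EF P K σ (Gf θ β p S₀ Q bc n d c R₃ R₄) with hgc
  set g0 := EF P K σ (Gf θ β p S₀ Q bc n d 0 R₃ R₄) with hg0
  set t2 := EF P K σ (T2f θ β p Q bc n d R₁ R₂) with ht2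
  have habs0 : EF P K σ (fun ω => |Gf θ β p S₀ Q bc n d 0 R₃ R₄ ω|) = g0 :=
    EF_congr hg (cG 0).abs (cG 0) fun ω hω hk => abs_of_nonneg (hG0 ω hω hk)
  have hg0n : 0 ≤ g0 := by
    rw [← habs0]
    exact H506.Q.EF_nonneg fun _ => abs_nonneg _
  have ht2n : 0 ≤ t2 := H506.Q.EF_nonneg T2f_nonneg
  -- the good event
  set χ : Cfg → ℝ := fun ω => (NAh p Q bc n (R₁ + 1) (R₂ - 1)).indicator 1 ω *
    (NAh p Q bc n (R₃ + 1) (R₄ - 1)).indicator 1 ω with hχ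
  have cχ : CB χ := cb_NA.mul cb_NA
  have hi : ∀ (S : Set Cfg) (ω : Cfg), (0 : ℝ) ≤ S.indicator 1 ω ∧ S.indicator 1 ω ≤ (1 : ℝ) :=
    fun S ω => ⟨Set.indicator_nonneg (fun _ _ => zero_le_one) _,
      Set.indicator_le_self' (fun _ _ => zero_le_one) ω⟩
  have hχ01 : ∀ ω, 0 ≤ χ ω ∧ χ ω ≤ 1 := fun ω => by
    obtain ⟨a0, a1⟩ := hi (NAh p Q bc n (R₁ + 1) (R₂ - 1)) ω
    obtain ⟨b0, b1⟩ := hi (NAh p Q bc n (R₃ + 1) (R₄ - 1)) ω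
    exact ⟨mul_nonneg a0 b0, by rw [hχ]; nlinarith⟩
  have herr : EF P K σ (fun ω => T1 ω * (1 - χ ω)) ≤ η * EF P K σ T1 := by
    have e1 := NA_err (P := P) (K := K) (κ := σ) (b := bcol p Q bc n) (c := hsite p Q n)
      (r := R₁ + 1) (R := R₂ - 1) hQ hP hg hdec
      (univ : Finset (Fin l × Fin (Q.m + 1))) (by omega) (by omega)
      (fun x _ v hv hv' => hcol x v hv (Bq_mono' (by omega) (mem_sdiff.1 hv').1)) hT1 cT1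
      (fun x _ => (hTi x).1)
    have e2 := NA_err (P := P) (K := K) (κ := σ) (b := bcol p Q bc n) (c := hsite p Q n)
      (r := R₃ + 1) (R := R₄ - 1) hQ hP hg hdec
      (univ : Finset (Fin l × Fin (Q.m + 1))) (by omega) (by omega)
      (fun x _ v hv hv' => hcol x v hv (Bq_mono' (by omega) (mem_sdiff.1 hv').1)) hT1 cT1
      (fun x _ => (hTi x).2)
    refine (NA_err2 hg hT1 cT1 e1 e2).trans ?_
    exact mul_le_mul_of_nonneg_right h3 (H506.Q.EF_nonneg hT1)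
  -- the factorisation
  have key : ∀ {F : Cfg → ℝ} (c : Ed → ℝ), (∀ ω, Good ω → (∀ v ∈ K, ω v = σ v) →
      ω ∈ NAh p Q bc n (R₁ + 1) (R₂ - 1) → ω ∈ NAh p Q bc n (R₃ + 1) (R₄ - 1) →
      F ω = k * (Gf θ β p S₀ Q bc n d c R₃ R₄ ω * T2f θ β p Q bc n d R₁ R₂ ω)) →
      ∀ ω, Good ω ∧ (∀ v ∈ K, ω v = σ v) →
      χ ω * F ω = (k * Gf θ β p S₀ Q bc n d c R₃ R₄ ω) * T2f θ β p Q bc n d R₁ R₂ ω := by
    intro F c hF ω hω
    by_cases a1 : ω ∈ NAh p Q bc n (R₁ + 1) (R₂ - 1)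
    · by_cases a2 : ω ∈ NAh p Q bc n (R₃ + 1) (R₄ - 1)
      · rw [hF ω hω.1 hω.2 a1 a2]
        simp only [hχ]
        rw [Set.indicator_of_mem a1, Set.indicator_of_mem a2]
        simp only [Pi.one_apply]
        ring
      · have e1 : χ ω = 0 := by
          simp only [hχ]
          rw [Set.indicator_of_notMem a2, mul_zero]
        have e2 : Gf θ β p S₀ Q bc n d c R₃ R₄ ω = 0 := by
          unfold Gf
          rw [Set.indicator_of_notMem a2, mul_zero]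
        rw [e1, e2]
        ring
    · have e1 : χ ω = 0 := by
        simp only [hχ]
        rw [Set.indicator_of_notMem a1, zero_mul]
      have e2 : T2f θ β p Q bc n d R₁ R₂ ω = 0 := by
        unfold T2f
        rw [Set.indicator_of_notMem a1, mul_zero]
      rw [e1, e2]
      ring
  have ek : ∀ c, EF P K σ (fun ω => k * Gf θ β p S₀ Q bc n d c R₃ R₄ ω) =
      k * EF P K σ (Gf θ β p S₀ Q bc n d c R₃ R₄) := fun c => hfn.smul (cG c) k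
  have ekT : ∀ c, EF P K σ (fun ω => k * Gf θ β p S₀ Q bc n d c R₃ R₄ ω *
      T2f θ β p Q bc n d R₁ R₂ ω) = k * EF P K σ (fun ω =>
        Gf θ β p S₀ Q bc n d c R₃ R₄ ω * T2f θ β p Q bc n d R₁ R₂ ω) := fun c => by
    have := hfn.smul ((cG c).mul cT) k
    rw [← this]
    congr 1
    funext ω
    ring
  have hT1n : 0 ≤ EF P K σ T1 := H506.Q.EF_nonneg hT1
  have hη : 0 ≤ η := by
    refine le_trans ?_ h3
    have a1 : (0 : ℝ) ≤ ((R₁ + 1 : ℤ) : ℝ) / ((R₂ - 1 : ℤ) : ℝ) :=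
      div_nonneg (by exact_mod_cast (by omega : 0 ≤ R₁ + 1)) (by exact_mod_cast (by omega : 0 ≤ R₂ - 1))
    have a2 : (0 : ℝ) ≤ ((R₃ + 1 : ℤ) : ℝ) / ((R₄ - 1 : ℤ) : ℝ) :=
      div_nonneg (by exact_mod_cast (by omega : 0 ≤ R₃ + 1)) (by exact_mod_cast (by omega : 0 ≤ R₄ - 1))
    positivity
  have fin := start_abs hfn cRc cR0 cT1 cHc cH0 cT ((cG c).lin (cG c) k 0 |> fun h =>
      h.congr fun ω _ => by
        show k * _ + 0 * _ = k * Gf θ β p S₀ Q bc n d c R₃ R₄ ω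
        ring) ((cG 0).lin (cG 0) k 0 |> fun h => h.congr fun ω _ => by
        show k * _ + 0 * _ = k * Gf θ β p S₀ Q bc n d 0 R₃ R₄ ω
        ring) cχ
    (k := k) (M := M) (M' := M') (η := η) (l := lm) (ε1 := ε1) (ε2 := ε2) (C5 := C5) (V := V)
    (a := k * EF P K σ (fun ω => |Gf θ β p S₀ Q bc n d c R₃ R₄ ω|))
    hk hl (fun ω _ => hT1 ω) (fun ω _ => hχ01 ω) (fun ω hω => h1c ω hω.1 hω.2)
    (fun ω hω => h10 ω hω.1 hω.2) h2c h20 herr (key c hfc) (key 0 hf0)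
    (by
      rw [ekT, ek, show k * EF P K σ (fun ω => Gf θ β p S₀ Q bc n d c R₃ R₄ ω *
        T2f θ β p Q bc n d R₁ R₂ ω) - k * EF P K σ (Gf θ β p S₀ Q bc n d c R₃ R₄) * t2 =
        k * (EF P K σ (fun ω => Gf θ β p S₀ Q bc n d c R₃ R₄ ω *
        T2f θ β p Q bc n d R₁ R₂ ω) - gc * t2) by rw [hgc]; ring, abs_mul, abs_of_nonneg hk]
      refine (mul_le_mul_of_nonneg_left (hm c) hk).trans (le_of_eq ?_)
      ring)
    (by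
      rw [ekT, ek, show k * EF P K σ (fun ω => Gf θ β p S₀ Q bc n d 0 R₃ R₄ ω *
        T2f θ β p Q bc n d R₁ R₂ ω) - k * EF P K σ (Gf θ β p S₀ Q bc n d 0 R₃ R₄) * t2 =
        k * (EF P K σ (fun ω => Gf θ β p S₀ Q bc n d 0 R₃ R₄ ω *
        T2f θ β p Q bc n d R₁ R₂ ω) - g0 * t2) by rw [hg0]; ring, abs_mul, abs_of_nonneg hk]
      refine (mul_le_mul_of_nonneg_left (hm 0) hk).trans (le_of_eq ?_)
      rw [habs0]
      ring)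
    (by
      rw [ek]
      calc k * EF P K σ (fun ω => |Gf θ β p S₀ Q bc n d c R₃ R₄ ω|) ≤ k * (M' * g0) :=
            mul_le_mul_of_nonneg_left h6a hk
        _ = M' * (k * g0) := by ring)
    (by rw [ek]; exact mul_nonneg hk hg0n) ht2n
    (by
      rw [ek, ek, show k * EF P K σ (Gf θ β p S₀ Q bc n d c R₃ R₄) -
        V * (k * EF P K σ (Gf θ β p S₀ Q bc n d 0 R₃ R₄)) = k * (gc - V * g0) by ring,
        abs_mul, abs_of_nonneg hk]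
      refine (mul_le_mul_of_nonneg_left h6 hk).trans (le_of_eq ?_)
      ring)
    hV
    (by
      rw [ekT]
      calc k * EF P K σ T1 ≤ k * (C5 * _) := mul_le_mul_of_nonneg_left h7 hk
        _ = C5 * (k * _) := by ring)
    hε1' hε1 hε2 (by positivity) he hC5
  refine ⟨fin.1, ?_⟩
  have f2 := fin.2
  rw [ekT] at f2
  calc k * EF P K σ T1 ≤ k * (C5 * _) := mul_le_mul_of_nonneg_left h7 hk
    _ = C5 * (k * _) := by ring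
    _ ≤ C5 * (2 * EF P K σ R0) := mul_le_mul_of_nonneg_left f2 hC5
    _ = _ := by ring

end Vale.Agent.P167.H398.Q
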