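import Vale.Agent.P167.H398.Q.TG

/-!
# P167, general `q`, block Q-START: the error off the good event
-/

namespace Vale.Agent.P167.H398.Q

open Finset MeasureTheory
open Vale.Agent.P167.FK
open Vale.Agent.P167.FKA (Loc Ind ArmDec)
open Vale.Agent.P167.H519 (IsLim)
open Vale.Agent.P167.QX (QL)
open Vale.Agent.P167.H506.Q (EF)

variable {Q : ℝ} {K : Finset (ℤ × ℤ)} {κ : Cfg} {P : Measure Cfg} {ω ω' : Cfg} {ι : Type}
  {b : ι → Bool} {c : ι → ℤ × ℤ} {r R : ℤ}

theorem CB.sum {J : Finset ι} {F : ι → Cfg → ℝ} (h : ∀ i ∈ J, CB (F i)) :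
    CB fun ω => ∑ i ∈ J, F i ω := by
  classical
  induction J using Finset.induction_on with
  | empty => simp only [sum_empty]; exact CB.const 0
  | @insert i J hi ih =>
    simp only [sum_insert hi]
    have := (h i (mem_insert_self _ _)).lin (ih fun j hj => h j (mem_insert_of_mem hj)) 1 1
    simpa only [one_mul] using this

theorem EF_sum [IsFiniteMeasure P] (hg : ∀ᵐ ω ∂P, Good ω) {J : Finset ι} {F : ι → Cfg → ℝ}
    (h : ∀ i ∈ J, CB (F i)) :
    EF P K κ (fun ω => ∑ i ∈ J, F i ω) = ∑ i ∈ J, EF P K κ (F i) := by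
  classical
  induction J using Finset.induction_on with
  | empty =>
    simp only [sum_empty]
    have := EF_lin (K := K) (κ := κ) hg (CB.const (0 : ℝ)) (CB.const (0 : ℝ)) 0 0
    simpa only [zero_mul, add_zero] using this
  | @insert i J hi ih =>
    simp only [sum_insert hi]
    have hJ := fun j hj => h j (mem_insert_of_mem hj)
    have h1 := EF_lin (K := K) (κ := κ) hg (h i (mem_insert_self _ _)) (CB.sum hJ) 1 1
    simp only [one_mul] at h1
    rw [h1, ih hJ]

/-- **The error off the event that there are no arms.** -/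
theorem NA_err (hQ : 1 ≤ Q) (hP : IsLim Q P) (hg : ∀ᵐ ω ∂P, Good ω) {α C : ℝ}
    (h : ArmDec Q α C) (J : Finset ι) (hr : 1 ≤ r) (hrR : r ≤ R)
    (hκ : ∀ i ∈ J, ∀ v ∈ K, v ∈ Bq (c i) R \ Bq (c i) r → κ v = b i) {T : Cfg → ℝ}
    (hT0 : ∀ ω, 0 ≤ T ω) (hT : CB T)
    (hTi : ∀ i ∈ J, Ind ((Bq (c i) R \ Bq (c i) r) \ K) T) :
    EF P K κ (fun ω => T ω * (1 - (NA J b c r R).indicator 1 ω)) ≤
      J.card * (C * ((r : ℝ) / R) ^ α) * EF P K κ T := by
  classical
  have hPp : IsProbabilityMeasure P := hP.1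
  have hfn := fn_EF (P := P) (K := K) (κ := κ) hg
  have hA : ∀ i, CB ({ω | Arm (b i) (c i) r R ω}.indicator (1 : Cfg → ℝ)) := fun i =>
    CB.of_loc (Arm.loc (b i) (c i) r R)
  have hTA : ∀ i ∈ J, CB fun ω => T ω * {ω | Arm (b i) (c i) r R ω}.indicator 1 ω := fun i _ =>
    hT.mul (hA i)
  have h1 : CB fun ω => T ω * (1 - (NA J b c r R).indicator 1 ω) := by
    have := hT.mul ((CB.const (1 : ℝ)).lin (cb_NA (J := J) (b := b) (c := c) (r := r) (R := R))
      1 (-1))
    refine this.congr fun ω _ => ?_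
    ring
  have h2 : EF P K κ (fun ω => T ω * (1 - (NA J b c r R).indicator 1 ω)) ≤
      EF P K κ (fun ω => ∑ i ∈ J, T ω * {ω | Arm (b i) (c i) r R ω}.indicator 1 ω) := by
    refine hfn.mono h1 (CB.sum hTA) fun ω _ => ?_
    rw [← mul_sum]
    refine mul_le_mul_of_nonneg_left ?_ (hT0 ω)
    have hn : ∀ i ∈ J, (0 : ℝ) ≤ {ω | Arm (b i) (c i) r R ω}.indicator 1 ω := fun i _ =>
      Set.indicator_nonneg (fun _ _ => zero_le_one) _
    by_cases hω : ω ∈ NA J b c r R
    · rw [Set.indicator_of_mem hω]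
      simp only [Pi.one_apply, sub_self]
      exact sum_nonneg hn
    · rw [Set.indicator_of_notMem hω, sub_zero]
      unfold NA at hω
      simp only [Set.mem_ofPred_eq, not_forall, not_not] at hω
      obtain ⟨i, hi, ha⟩ := hω
      have h3 := single_le_sum hn hi
      rw [Set.indicator_of_mem (show ω ∈ {ω | Arm (b i) (c i) r R ω} from ha)] at h3
      exact h3
  refine h2.trans ?_
  rw [EF_sum hg hTA]
  obtain ⟨hTq, M, hM⟩ := hT
  calc ∑ i ∈ J, EF P K κ (fun ω => T ω * {ω | Arm (b i) (c i) r R ω}.indicator 1 ω)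
      ≤ ∑ _i ∈ J, C * ((r : ℝ) / R) ^ α * EF P K κ T := sum_le_sum fun i hi =>
        EF_arm hQ hP hg h hr hrR (hκ i hi) hT0 hTq hM (hTi i hi)
    _ = _ := by
        rw [sum_const, nsmul_eq_mul]
        ring

/-- Two families of annuli. -/
theorem NA_err2 [IsFiniteMeasure P] (hg : ∀ᵐ ω ∂P, Good ω) {T : Cfg → ℝ} (hT0 : ∀ ω, 0 ≤ T ω)
    (hT : CB T) {J : Finset ι} {r' R' : ℤ} {e e' : ℝ}
    (h1 : EF P K κ (fun ω => T ω * (1 - (NA J b c r R).indicator 1 ω)) ≤ e * EF P K κ T)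
    (h2 : EF P K κ (fun ω => T ω * (1 - (NA J b c r' R').indicator 1 ω)) ≤ e' * EF P K κ T) :
    EF P K κ (fun ω => T ω * (1 - (NA J b c r R).indicator 1 ω *
      (NA J b c r' R').indicator 1 ω)) ≤ (e + e') * EF P K κ T := by
  have hfn := fn_EF (P := P) (K := K) (κ := κ) hg
  have c1 : ∀ r R : ℤ, CB fun ω => T ω * (1 - (NA J b c r R).indicator 1 ω) := fun r R => by
    have := hT.mul ((CB.const (1 : ℝ)).lin (cb_NA (J := J) (b := b) (c := c) (r := r) (R := R))
      1 (-1))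
    refine this.congr fun ω _ => ?_
    ring
  have c2 : CB fun ω => T ω * (1 - (NA J b c r R).indicator 1 ω *
      (NA J b c r' R').indicator 1 ω) := by
    have := hT.mul ((CB.const (1 : ℝ)).lin ((cb_NA (J := J) (b := b) (c := c) (r := r)
      (R := R)).mul (cb_NA (J := J) (b := b) (c := c) (r := r') (R := R'))) 1 (-1))
    refine this.congr fun ω _ => ?_
    ring
  have h3 := hfn.mono c2 ((c1 r R).lin (c1 r' R') 1 1) fun ω _ => by
    have hi : ∀ S : Set Cfg, (0 : ℝ) ≤ S.indicator 1 ω ∧ S.indicator 1 ω ≤ (1 : ℝ) := fun S =>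
      ⟨Set.indicator_nonneg (fun _ _ => zero_le_one) _, Set.indicator_le_self' (fun _ _ =>
        zero_le_one) ω⟩
    obtain ⟨a0, a1⟩ := hi (NA J b c r R)
    obtain ⟨b0, b1⟩ := hi (NA J b c r' R')
    have := hT0 ω
    have h4 : 1 - (NA J b c r R).indicator 1 ω * (NA J b c r' R').indicator 1 ω ≤
        (1 - (NA J b c r R).indicator 1 ω) + (1 - (NA J b c r' R').indicator (1 : Cfg → ℝ) ω) := by
      nlinarith
    have h5 := mul_le_mul_of_nonneg_left h4 this
    calc _ ≤ _ := h5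
      _ = _ := by ring
  rw [hfn.lin (c1 r R) (c1 r' R') 1 1] at h3
  calc _ ≤ _ := h3
    _ ≤ _ := by linarith

end Vale.Agent.P167.H398.Q
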