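import Vale.Agent.P167.H398.Q.Main
import Vale.Agent.P167.H662.S6.Main
import Vale.Agent.P167.H825.S.Fin
import Vale.Agent.P167.H542.Q.M2F
import Vale.Agent.P167.H506.Q.Sp6
import Vale.Agent.P167.H680.T.FinL
import Vale.Agent.P167.QX.L1E

/-!
# P167, general `q`, block Q-START: `STARTR` and the output of block 2A from the open inputs
-/

namespace Vale.Agent.P167.H398.Q

open MeasureTheory
open Vale.Agent.P167.H519 (IsLim)
open Vale.Agent.P167.H680.T (STARTR)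
open Vale.Agent.P167.H825.Q (S2aQq)
open Vale.Agent.P167.H945.Q (Zp)
open Vale.Agent.P167.H506.Q (P1aS SZ)

variable {θ β : ℝ} {P : Measure Cfg}

/-- **START** from the law-free inputs `L1S`, `L2S`, the moments `H2S`, the positivity `P2S` and the
comparison with the single rows `P3S`. -/
theorem startr_fin (h0 : 0 < θ) (h1 : θ ≤ Real.pi / 3)
    (hβ : β = (θ - Real.pi) / 2 ∨ β = (Real.pi - 3 * θ) / 2) (hP : IsLim (2 * Real.cos θ) P)
    (hL1 : L1S θ β) (hL2 : L2S θ β) (hP2 : P2S θ β P) (hH2 : H2S θ β P) (hP3 : P3S θ β P) :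
    STARTR θ β P (Zp θ P) :=
  startr_of h0 h1 hβ hP hL1 hL2 hH2
    (H662.S6.h6sF h0 h1 (H825.S.gauge_cos hβ) hP hL2
      (H542.Q.m2F h0 h1 (H825.S.gauge_cos hβ) (K8.k_rsw θ h0.le h1)))
    (H825.S.h7s h0 h1 hβ hP hL2 hP2 hH2) hP3

/-- **The output of block 2A** from the open inputs. -/
theorem s2aQq_F (h0 : 0 < θ) (h1 : θ ≤ Real.pi / 3)
    (hβ : β = (θ - Real.pi) / 2 ∨ β = (Real.pi - 3 * θ) / 2) (hP : IsLim (2 * Real.cos θ) P)
    (hL1 : L1S θ β) (hL2 : L2S θ β) (hP2 : P2S θ β P) (hH2 : H2S θ β P) (hP3 : P3S θ β P)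
    (hz : P1aS θ (SZ θ)) : S2aQq θ β :=
  H680.T.s2aQq_L h0 h1 hβ hP (QX.l1 h0 h1) (H506.Q.p1a_of h0 h1 (K8.k_rsw θ h0.le h1) hz)
    (H506.Q.p1b_of h0 h1 (K8.k_rsw θ h0.le h1) hz)
    (startr_fin h0 h1 hβ hP hL1 hL2 hP2 hH2 hP3)

end Vale.Agent.P167.H398.Q
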