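import Vale.Agent.P167.H398.Q.ODefs

/-!
# P167, general `q`, block Q-START: the comparison of the frame with the single rows (literal)
-/

namespace Vale.Agent.P167.H398.Q

open Finset MeasureTheory Filter
open Vale.Agent.P167.BR
open Vale.Agent.P167.FK
open Vale.Agent.P167.E6 (IsPolygon Encloses)
open Vale.Agent.P167.H825 (enl Marks)
open Vale.Agent.P167.H825.Q (Row Bc)
open Vale.Agent.P167.H680.T (rowC uI frows)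
open Vale.Agent.P167.H945.Q (TT rad)
open Vale.Agent.P167.H506.Q (fz)

/-- **(P3S)** The product of the normalisations of the rows is bounded by the expectation of the
factors of the tips and of the junctions in the frame; the constant may depend on `δ`. -/
def P3S (θ β : ℝ) (P : Measure Cfg) : Prop :=
  ∀ (l : ℕ) [NeZero l] (p : ZMod l → ℤ × ℤ) (S₀ : Finset (ℤ × ℤ)), IsPolygon p → Encloses p S₀ →
  ∀ Q : Marks, Q.Ok → ∀ bc : Bc, bc.Ok l Q →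
  ∃ κ₁ : ℝ, 0 < κ₁ ∧ ∀ κ' : ℝ, 0 < κ' → κ' < κ₁ → ∃ δ₀ : ℝ, 0 < δ₀ ∧
  ∀ δ : ℝ, 0 < δ → δ < δ₀ → ∃ C : ℝ, 0 < C ∧ ∀ᶠ n : ℕ in atTop, ∀ σ : Cfg,
  Frz (frows θ β p Q n ⌊δ * (n : ℝ)⌋₊ bc) σ →
  ∏ x, ∫ ω, fz (frows θ β p Q n ⌊δ * (n : ℝ)⌋₊ bc x).I
      (frows θ β p Q n ⌊δ * (n : ℝ)⌋₊ bc x).fr ω *
      TT θ (frows θ β p Q n ⌊δ * (n : ℝ)⌋₊ bc x).I (frows θ β p Q n ⌊δ * (n : ℝ)⌋₊ bc x)
        (rad (frows θ β p Q n ⌊δ * (n : ℝ)⌋₊ bc x)) ω ∂P ≤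
    C * ∫ ω, fz (uI (frows θ β p Q n ⌊δ * (n : ℝ)⌋₊ bc)) σ ω *
      (Ttip θ (frows θ β p Q n ⌊δ * (n : ℝ)⌋₊ bc) ⌊δ * n / 16⌋ ω *
        Tjun θ (frows θ β p Q n ⌊δ * (n : ℝ)⌋₊ bc) ⌊4 * κ' * n⌋ ω) ∂P

end Vale.Agent.P167.H398.Q
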