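import Vale.Agent.P167.H398.Q.G4
import Vale.Agent.P167.H398.Q.PDefs
import Vale.Agent.P167.H680.T.RedP

/-!
# P167, general `q`, block Q-START: the comparison for a frame, from the inputs for one `n`
-/

namespace Vale.Agent.P167.H398.Q

open Finset MeasureTheory Filter
open Vale.Agent.P167.BR hiding dv
open Vale.Agent.P167.E6 (IsPolygon Encloses)
open Vale.Agent.P167.XDL (bS)
open Vale.Agent.P167.FK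
open Vale.Agent.P167.FKA (Loc Ind ArmDec)
open Vale.Agent.P167.H825 (dv enl Marks FlowIn)
open Vale.Agent.P167.H825.Q (Row Bc VT)
open Vale.Agent.P167.H680.T (rowC uI frows mem_uI)
open Vale.Agent.P167.H519 (IsLim)
open Vale.Agent.P167.H662 (hsite)
open Vale.Agent.P167.H199 (Gap)
open Vale.Agent.P167.H685 (LE)
open Vale.Agent.P167.H562.QM (MajA)
open Vale.Agent.P167.H562.MAJ (Sm)
open Vale.Agent.P167.H506.Q (EF fz)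
open Vale.Agent.P167.QX (RT TB TO fLp VisL)
open Vale.Agent.P167.Enl (tB BGap R0)

variable {l : ℕ} {θ β : ℝ} {p : ZMod l → ℤ × ℤ} {S₀ : Finset (ℤ × ℤ)} {Q : Marks} {bc : Bc}
  {n : ℕ} {g δ κ κ' B : ℝ} {r : Fin l × Fin (Q.m + 1) → Row} {P : Measure Cfg} {σ : Cfg}


theorem frz_of (hσ : Frz r σ) {ω : Cfg} (h : ∀ v ∈ uI r, ω v = σ v) : Frz r ω :=
  fun x v hv => (h v (mem_uI.2 ⟨x, hv⟩)).trans (hσ x v hv)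

/-- **The comparison for a frame**, one `n`. -/
theorem start_frm (hr : r = frows θ β p Q n ⌊δ * (n : ℝ)⌋₊ bc) (h0 : 0 < θ)
    (h1 : θ ≤ Real.pi / 3)
    (hβ : Real.cos (θ / 2 + β) = Real.sin θ) (hP : IsLim (2 * Real.cos θ) P)
    (hgd : ∀ᵐ ω ∂P, Good ω) {α C₀ : ℝ} (hdec : ArmDec (2 * Real.cos θ) α C₀) (hC₀ : 0 ≤ C₀)
    (hp : IsPolygon p) (hD : Encloses p S₀) (hQ : Q.Ok) (hb : bc.Ok l Q) (hg : Gap Q l g)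
    (hbg : BGap l Q g bc) (hδ : 0 < δ) (hδg : 4 * δ ≤ g) (hn : 16 ≤ δ * n)
    (hσ : Frz r σ) (hσg : Good σ) (hκ' : 0 ≤ κ')
    -- the rows
    {κp Rp Bp : ℝ} (hA0 : (rowC θ r 0).Adm κp Rp Bp n) (hκp : 1 < κp * n)
    (hL : ∀ x, 1 ≤ (r x).L)
    -- the scales
    {R₁ R₂ R₃ R₄ R₅ : ℤ} (hR1 : (⌊δ * n⌋₊ : ℤ) + 4 ≤ R₁) (hR1' : ⌊4 * δ * n⌋ ≤ R₁)
    (h12 : R₁ + 4 ≤ R₂) (h23 : R₂ ≤ R₃)
    (h34 : R₃ + 4 ≤ R₄) (hR45 : R₄ ≤ R₅) (hR4κ : (R₄ : ℝ) + 2 ≤ κ * n)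
    (hR4g : (2 * (R₄ + 4 * κ' * n) : ℝ) + 12 < g * n)
    {η lm ε1 ε2 : ℝ}
    (hmix : 8 * (univ : Finset (Fin l × Fin (Q.m + 1))).card * (C₀ * ((R₂ : ℝ) / R₃) ^ α) ≤ ε1)
    (hmix1 : C₀ * ((R₂ : ℝ) / R₃) ^ α < 1) (hε1' : 0 ≤ ε1) (hε1 : ε1 ≤ 1 / 2) (hε2 : 0 ≤ ε2)
    (h3 : (univ : Finset (Fin l × Fin (Q.m + 1))).card *
        (C₀ * (((R₁ + 1 : ℤ) : ℝ) / ((R₂ - 1 : ℤ) : ℝ)) ^ α) +
      (univ : Finset (Fin l × Fin (Q.m + 1))).card *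
        (C₀ * (((R₃ + 1 : ℤ) : ℝ) / ((R₄ - 1 : ℤ) : ℝ)) ^ α) ≤ η)
    -- the majorant
    {A A₂ M : ℝ} (hM : 0 ≤ M)
    (na : ∀ c : Ed → ℝ, (Function.support c).Finite → FlowIn (enl S₀ n) κ B n c →
      ∀ ω : Cfg, Good ω → Frz r ω → ∀ (Z : Finset (ℤ × ℤ)) (N₁ N₂ : ℕ),
      (∀ v : ℤ × ℤ, (nm v : ℝ) ≤ (R0 p S₀ + 4) * n → v ∈ Z) →
      MajA (hB p Q n ⌊4 * δ * n⌋) (δ * n / 64) ω N₁ → MajA Z (κ' * n) ω N₂ →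
      |RT θ (uI r) (rowC θ r c).ph ω| ≤ (∏ x, (2 * Real.sin θ) ^ ((r x).L + 1)) *
        (A ^ (N₁ + N₂ + 1) * Real.exp (-(Real.tan θ * Sm (dv c) (κ' * n) ω)) *
          (Ttip θ r ⌊δ * n / 16⌋ ω * Tjun θ r ⌊4 * κ' * n⌋ ω)))
    (nb1 : ∀ ω : Cfg, Good ω → Frz r ω → ∀ ℓ ∈ LE ω (bS (uI r)),
      ¬ VisL (hB p Q n (⌊δ * (n : ℝ)⌋₊ + 4)) ℓ → 0 ≤ fLp θ (uI r) (rowC θ r 0).ph ω ℓ ∧
      ((∃ x, ∀ v ∈ vs ℓ, v ∈ Bq (hsite p Q n x) R₅) → fLp θ (uI r) (rowC θ r 0).ph ω ℓ = 1))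
    (nb2 : ∀ ω : Cfg, Good ω → Frz r ω → ∀ N₁ : ℕ, Cnf p Q n R₁ R₅ ω →
      MajA (hB p Q n ⌊4 * δ * n⌋) (δ * n / 64) ω N₁ →
      Ttip θ r ⌊δ * n / 16⌋ ω ≤ A₂ ^ (N₁ + 1) * TB θ (uI r) (rowC θ r 0).ph (hB p Q n R₁) ω)
    (hA₂ : 1 ≤ A₂) {Z B₁ B₂ : Finset (ℤ × ℤ)} {N₁ N₂ : Cfg → ℕ}
    (hZ : ∀ v : ℤ × ℤ, (nm v : ℝ) ≤ (R0 p S₀ + 4) * n → v ∈ Z)
    (hN1 : ∀ ω ω' : Cfg, (∀ v ∈ B₁, ω v = ω' v) → N₁ ω = N₁ ω')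
    (hN2 : ∀ ω ω' : Cfg, (∀ v ∈ B₂, ω v = ω' v) → N₂ ω = N₂ ω')
    (hm1 : ∀ ω, Good ω → MajA (hB p Q n ⌊4 * δ * n⌋) (δ * n / 64) ω (N₁ ω))
    (hm2 : ∀ ω, Good ω → MajA Z (κ' * n) ω (N₂ ω))
    (nc : ∀ c : Ed → ℝ, (Function.support c).Finite → FlowIn (enl S₀ n) κ B n c →
      EF P (uI r) σ (fun ω => Ttip θ r ⌊δ * n / 16⌋ ω * Tjun θ r ⌊4 * κ' * n⌋ ω *
          (A ^ (N₁ ω + N₂ ω + 1) * Real.exp (-(Real.tan θ * Sm (dv c) (κ' * n) ω))) ^ 2) ≤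
      M * EF P (uI r) σ (fun ω => Ttip θ r ⌊δ * n / 16⌋ ω * Tjun θ r ⌊4 * κ' * n⌋ ω))
    -- the closed frame, the lower bound
    {M' C₇ : ℝ}
    (nd : ∀ c : Ed → ℝ, (Function.support c).Finite → FlowIn (enl S₀ n) κ B n c →
      |EF P (uI r) σ (Gf θ β p S₀ Q bc n ⌊δ * (n : ℝ)⌋₊ c R₃ R₄) -
        VT θ β p S₀ n (tB n Q) (bc.ka l n (tB n Q)) (dv c) *
          EF P (uI r) σ (Gf θ β p S₀ Q bc n ⌊δ * (n : ℝ)⌋₊ 0 R₃ R₄)| ≤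
        ε2 * EF P (uI r) σ (Gf θ β p S₀ Q bc n ⌊δ * (n : ℝ)⌋₊ 0 R₃ R₄) ∧
      EF P (uI r) σ (fun ω => |Gf θ β p S₀ Q bc n ⌊δ * (n : ℝ)⌋₊ c R₃ R₄ ω|) ≤
        M' * EF P (uI r) σ (Gf θ β p S₀ Q bc n ⌊δ * (n : ℝ)⌋₊ 0 R₃ R₄) ∧
      |VT θ β p S₀ n (tB n Q) (bc.ka l n (tB n Q)) (dv c)| ≤ M')
    (ne : EF P (uI r) σ (fun ω => Ttip θ r ⌊δ * n / 16⌋ ω * Tjun θ r ⌊4 * κ' * n⌋ ω) ≤
      C₇ * EF P (uI r) σ (fun ω => Gf θ β p S₀ Q bc n ⌊δ * (n : ℝ)⌋₊ 0 R₃ R₄ ω *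
        T2f θ β p Q bc n ⌊δ * (n : ℝ)⌋₊ R₁ R₂ ω))
    (hC₇ : 0 ≤ C₇) (hlm : 0 < lm) (he : (lm * M + η / lm) / 2 * C₇ ≤ 1 / 2)
    (hB0 : 0 ≤ B) {c : Ed → ℝ} (hcf : (Function.support c).Finite)
    (hfl : FlowIn (enl S₀ n) κ B n c) :
    |EF P (uI r) σ (RT θ (uI r) (rowC θ r c).ph) -
        VT θ β p S₀ n (tB n Q) (bc.ka l n (tB n Q)) (dv c) *
          EF P (uI r) σ (RT θ (uI r) (rowC θ r 0).ph)| ≤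
      2 * ((lm * M + η / lm) / 2 * C₇ * (1 + M') + 2 * (2 * ε1 * M' + ε2)) *
        EF P (uI r) σ (RT θ (uI r) (rowC θ r 0).ph) ∧
    (∏ x, (2 * Real.sin θ) ^ ((r x).L + 1)) *
        EF P (uI r) σ (fun ω => Ttip θ r ⌊δ * n / 16⌋ ω * Tjun θ r ⌊4 * κ' * n⌋ ω) ≤
      2 * C₇ * EF P (uI r) σ (RT θ (uI r) (rowC θ r 0).ph) := by
  classical
  subst hr
  have hpi := Real.pi_pos
  have hs : 0 < Real.sin θ := Real.sin_pos_of_pos_of_lt_pi h0 (by linarith)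
  have hn0 : (0 : ℝ) ≤ n := Nat.cast_nonneg n
  have hκn : 0 ≤ 4 * κ' * (n : ℝ) := by positivity
  have hz : (Function.support (0 : Ed → ℝ)).Finite := by simp
  have hf0 : FlowIn (enl S₀ n) κ B n 0 := H680.T.flowIn_zero hB0
  have hc4 : ((⌊δ * (n : ℝ)⌋₊ : ℕ) : ℤ) + 4 ≤ R₄ := by omega
  have hTB : ∀ ω : Cfg, Good ω → Frz (frows θ β p Q n ⌊δ * (n : ℝ)⌋₊ bc) ω → Cnf p Q n R₁ R₅ ω →
      0 ≤ TB θ (uI (frows θ β p Q n ⌊δ * (n : ℝ)⌋₊ bc)) (rowC θ (frows θ β p Q n ⌊δ * (n : ℝ)⌋₊ bc) 0).ph (hB p Q n R₁) ω := fun ω g1 g2 g3 => by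
    have h4 := nb2 ω g1 g2 (N₁ ω) g3 (hm1 ω g1)
    have h5 : 0 ≤ Ttip θ (frows θ β p Q n ⌊δ * (n : ℝ)⌋₊ bc) ⌊δ * n / 16⌋ ω := Ttip_nonneg h0 h1 ω
    have h6 : 0 < A₂ ^ (N₁ ω + 1) := by positivity
    exact nonneg_of_mul_nonneg_right (h5.trans h4) h6
  have hk : (2 * Real.sin θ) ^ ((bS (uI (frows θ β p Q n ⌊δ * (n : ℝ)⌋₊ bc))).filter fun e => hdv e ∉ uI (frows θ β p Q n ⌊δ * (n : ℝ)⌋₊ bc)).card =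
      ∏ x, (2 * Real.sin θ) ^ ((frows θ β p Q n ⌊δ * (n : ℝ)⌋₊ bc x).L + 1) := by
    rw [exits_card hA0 hκp hL, Finset.prod_pow_eq_pow_sum]
  have fact : ∀ c : Ed → ℝ, FlowIn (enl S₀ n) κ B n c → ∀ ω, Good ω → (∀ v ∈ uI (frows θ β p Q n ⌊δ * (n : ℝ)⌋₊ bc), ω v = σ v) →
      ω ∈ NAh p Q bc n (R₁ + 1) (R₂ - 1) → ω ∈ NAh p Q bc n (R₃ + 1) (R₄ - 1) →
      RT θ (uI (frows θ β p Q n ⌊δ * (n : ℝ)⌋₊ bc)) (rowC θ (frows θ β p Q n ⌊δ * (n : ℝ)⌋₊ bc) c).ph ω = (∏ x, (2 * Real.sin θ) ^ ((frows θ β p Q n ⌊δ * (n : ℝ)⌋₊ bc x).L + 1)) *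
        (Gf θ β p S₀ Q bc n ⌊δ * (n : ℝ)⌋₊ c R₃ R₄ ω *
          T2f θ β p Q bc n ⌊δ * (n : ℝ)⌋₊ R₁ R₂ ω) := by
    intro c hc ω g1 g2 g3 g4
    have g5 := frz_of hσ g2
    exact frm_fact hp hD hQ hg hδ hδg hn hb h0 h1 hβ hc hR1 (by omega) h23 (by omega) hR4κ g1
      (fun ℓ h6 h7 ⟨x, hx⟩ => (nb1 ω g1 g5 ℓ h6 h7).2 ⟨x, fun v hv => Bq_mono' hR45 (hx v hv)⟩)
      (hTB ω g1 g5 ((cnf_NAh (by omega) g3).mono (by omega))) hk (no_inner hA0 hκp ω) g3 g4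
  have hR4' : (2 * R₄ : ℝ) + 4 < g * n := by linarith
  have maj : ∀ c : Ed → ℝ, (Function.support c).Finite → FlowIn (enl S₀ n) κ B n c →
      ∀ ω, Good ω → (∀ v ∈ uI (frows θ β p Q n ⌊δ * (n : ℝ)⌋₊ bc), ω v = σ v) → |RT θ (uI (frows θ β p Q n ⌊δ * (n : ℝ)⌋₊ bc)) (rowC θ (frows θ β p Q n ⌊δ * (n : ℝ)⌋₊ bc) c).ph ω| ≤
      (∏ x, (2 * Real.sin θ) ^ ((frows θ β p Q n ⌊δ * (n : ℝ)⌋₊ bc x).L + 1)) *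
        ((fun ω => Ttip θ (frows θ β p Q n ⌊δ * (n : ℝ)⌋₊ bc) ⌊δ * n / 16⌋ ω * Tjun θ (frows θ β p Q n ⌊δ * (n : ℝ)⌋₊ bc) ⌊4 * κ' * n⌋ ω) ω *
          (fun ω => A ^ (N₁ ω + N₂ ω + 1) *
            Real.exp (-(Real.tan θ * Sm (dv c) (κ' * n) ω))) ω) := by
    intro c hc hf ω g1 g2
    refine (na c hc hf ω g1 (frz_of hσ g2) Z (N₁ ω) (N₂ ω) hZ (hm1 ω g1) (hm2 ω g1)).trans
      (le_of_eq ?_)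
    simp only
    ring
  obtain ⟨nd1, nd2, nd3⟩ := nd c hcf hfl
  exact start_core (S₀ := S₀) (bc := bc) (β := β) h0 h1 hP hgd hdec hC₀ hσg (by omega) h12 h23 h34
    (fun x y hxy => Enl.box_disj hp hQ hg (by linarith) hxy)
    (fun x v hv hv' => H825.S.frz_box hp hD hQ hg hδ hδg hn hb hbg hσ hR4' hc4 x hv hv')
    hmix hmix1 hε1' hε1 hε2 c (cb_RTf h0 h1 hcf) (cb_RTf h0 h1 hz) (cb_Ttip.mul cb_Tjun)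
    (cb_maj hcf hN1 hN2 A (Real.tan θ) (κ' * n)) (cb_maj hz hN1 hN2 A (Real.tan θ) (κ' * n))
    (prod_nonneg fun _ _ => by positivity) hlm
    (fun ω => mul_nonneg (Ttip_nonneg h0 h1 ω) (Tjun_nonneg h0 h1 ω))
    (fun x => ⟨(t1_ind hp hQ hg hbg hδ hδg hn (R₁ := R₁ + 1) (R₂ := R₂ - 1) (by omega) (by omega)
        hκ' (by
          have : (R₂ : ℝ) ≤ R₄ := by exact_mod_cast (by omega : R₂ ≤ R₄)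
          push_cast
          linarith) x).mono sdiff_subset,
      (t1_ind hp hQ hg hbg hδ hδg hn (R₁ := R₃ + 1) (R₂ := R₄ - 1) (by omega) (by omega)
        hκ' (by
          push_cast
          linarith) x).mono sdiff_subset⟩)
    (maj c hcf hfl) (maj 0 hz hf0) (nc c hcf hfl) (nc 0 hz hf0) h3 (fact c hfl) (fact 0 hf0)
    (fun ω g1 g2 => Gf_nonneg h0 h1 hβ (by omega) fun ℓ h6 h7 =>
      (nb1 ω g1 (frz_of hσ g2) ℓ h6 h7).1)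
    nd1 nd2 nd3 ne hC₇ hM he

end Vale.Agent.P167.H398.Q
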