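import Vale.Agent.P167.H398.Q.Core
import Vale.Agent.P167.H398.Q.Cnt
import Vale.Agent.P167.H592.S.Close

/-!
# P167, general `q`, block Q-START: the factorisation for a frame
-/

namespace Vale.Agent.P167.H398.Q

open Finset MeasureTheory
open Vale.Agent.P167.BR hiding dv
open Vale.Agent.P167.E6 (IsPolygon Encloses)
open Vale.Agent.P167.XDL (bS mem_bS)
open Vale.Agent.P167.FK
open Vale.Agent.P167.FKA (Loc Ind ArmDec)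
open Vale.Agent.P167.H825 (dv enl Marks FlowIn)
open Vale.Agent.P167.H825.Q (Row Bc)
open Vale.Agent.P167.H680.T (rowC uI frows)
open Vale.Agent.P167.H519 (IsLim)
open Vale.Agent.P167.H662 (hsite)
open Vale.Agent.P167.H199 (Gap)
open Vale.Agent.P167.H685 (LE mem_LE)
open Vale.Agent.P167.H562.QM (MajA)
open Vale.Agent.P167.QX (QL RT TB TO fLp VisL XBoff aF)
open Vale.Agent.P167.Enl (tB qN uN BGap)

variable {l : ℕ} {θ β : ℝ} {p : ZMod l → ℤ × ℤ} {S₀ : Finset (ℤ × ℤ)} {Q : Marks} {bc : Bc}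
  {n d : ℕ} {R R' R₁ R₂ R₃ R₄ : ℤ} {ω : Cfg}

theorem hB_mono (h : R ≤ R') : hB p Q n R ⊆ hB p Q n R' := by
  intro v hv
  obtain ⟨x, hx⟩ := mem_hB.1 hv
  exact mem_hB.2 ⟨x, Bq_mono' h hx⟩

theorem VisL_mono {B B' : Set (ℤ × ℤ)} (h : B ⊆ B') {ℓ : Finset Ed} (hv : VisL B ℓ) :
    VisL B' ℓ := by
  obtain ⟨e, he, h1⟩ := hv
  exact ⟨e, he, h h1⟩

theorem visL_hB (h : R ≤ R') {ℓ : Finset Ed} (hv : VisL (hB p Q n R) ℓ) :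
    VisL (hB p Q n R') ℓ := VisL_mono (Finset.coe_subset.2 (hB_mono h)) hv

theorem cnf_NAh (h : R + 2 ≤ R') (hω : ω ∈ NAh p Q bc n (R + 1) (R' - 1)) :
    Cnf p Q n R R' ω := by
  intro ℓ hℓ hv
  obtain ⟨x, -, hx⟩ := conf_NA hℓ h hv hω
  exact ⟨x, hx⟩

theorem Cnf.mono {R'' : ℤ} (h : Cnf p Q n R R' ω) (hR : R' ≤ R'') : Cnf p Q n R R'' ω := by
  intro ℓ hℓ hv
  obtain ⟨x, hx⟩ := h ℓ hℓ hv
  exact ⟨x, fun v hv => Bq_mono' hR (hx v hv)⟩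

/-! ### without flow -/

theorem dv_zero' : dv (0 : Ed → ℝ) = 0 := by
  funext z
  unfold dv
  simp

theorem wB_zero {N : ℕ} {q : ZMod N → ℤ × ℤ} {D : Finset (ℤ × ℤ)} {k : ℕ} {A : Finset Ed}
    (h0 : 0 < θ) (h1 : θ ≤ Real.pi / 3) (hβ : Real.cos (θ / 2 + β) = Real.sin θ) :
    QX.wB θ β q D k A 0 = 1 := by
  have hpi := Real.pi_pos
  have hs : 0 < Real.sin θ := Real.sin_pos_of_pos_of_lt_pi h0 (by linarith)
  have hc : 0 < Real.cos θ := Real.cos_pos_of_mem_Ioo ⟨by linarith, by linarith⟩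
  have hs2 : 0 < Real.sin (2 * θ) := by
    rw [Real.sin_two_mul]
    positivity
  unfold QX.wB
  split_ifs
  · rw [add_zero, div_self hc.ne']
  · rw [add_zero, hβ, div_self hs.ne']
  · rw [add_zero, div_self hs2.ne']
  · rw [sub_zero, div_self hs.ne']

theorem XBoff_zero {N : ℕ} {q : ZMod N → ℤ × ℤ} {D : Finset (ℤ × ℤ)} {k : ℕ} {B : Set (ℤ × ℤ)}
    (h0 : 0 < θ) (h1 : θ ≤ Real.pi / 3) (hβ : Real.cos (θ / 2 + β) = Real.sin θ) :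
    XBoff θ β q D k (dv 0) B ω = 1 := by
  unfold XBoff
  refine prod_eq_one fun A _ => ?_
  have e : mass D (q 0) (dv 0) A = 0 := by
    unfold mass
    refine sum_eq_zero fun z _ => ?_
    rw [dv_zero']
    simp
  rw [e, wB_zero h0 h1 hβ]

theorem Gf_nonneg (h0 : 0 < θ) (h1 : θ ≤ Real.pi / 3) (hβ : Real.cos (θ / 2 + β) = Real.sin θ)
    (hR : (d : ℤ) + 4 ≤ R₃)
    (h : ∀ ℓ ∈ LE ω (bS (uI (frows θ β p Q n d bc))), ¬ VisL (hB p Q n (d + 4)) ℓ →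
      0 ≤ fLp θ (uI (frows θ β p Q n d bc)) (rowC θ (frows θ β p Q n d bc) 0).ph ω ℓ) :
    0 ≤ Gf θ β p S₀ Q bc n d 0 R₃ R₄ ω := by
  classical
  unfold Gf
  rw [XBoff_zero h0 h1 hβ, mul_one]
  refine mul_nonneg ?_ (Set.indicator_nonneg (fun _ _ => zero_le_one) _)
  unfold TO
  refine prod_nonneg fun ℓ hℓ => ?_
  obtain ⟨h2, h3⟩ := mem_filter.1 hℓ
  exact h ℓ h2 fun h4 => h3 (visL_hB hR h4)

/-! ### the factorisation -/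

/-- **The factorisation for a frame.** -/
theorem frm_fact (hp : IsPolygon p) (hD : Encloses p S₀) (hQ : Q.Ok) {g δ : ℝ}
    (hg : Gap Q l g) (hδ : 0 < δ) (hδg : 4 * δ ≤ g) (hn : 16 ≤ δ * n) (hb : bc.Ok l Q)
    (h0 : 0 < θ) (h1 : θ ≤ Real.pi / 3) (hβ : Real.cos (θ / 2 + β) = Real.sin θ)
    {κ₀ B₀ : ℝ} {c : Ed → ℝ} (hfl : FlowIn (enl S₀ n) κ₀ B₀ n c)
    (hR1 : (⌊δ * n⌋₊ : ℤ) + 4 ≤ R₁) (h12 : R₁ + 2 ≤ R₂) (h23 : R₂ ≤ R₃) (h34 : R₃ + 2 ≤ R₄)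
    (hR4 : (R₄ : ℝ) + 2 ≤ κ₀ * n) (hω : Good ω)
    (hb1 : ∀ ℓ ∈ LE ω (bS (uI (frows θ β p Q n ⌊δ * n⌋₊ bc))),
      ¬ VisL (hB p Q n (⌊δ * n⌋₊ + 4)) ℓ →
      (∃ x, ∀ v ∈ vs ℓ, v ∈ Bq (hsite p Q n x) R₄) →
      fLp θ (uI (frows θ β p Q n ⌊δ * n⌋₊ bc))
        (rowC θ (frows θ β p Q n ⌊δ * n⌋₊ bc) 0).ph ω ℓ = 1)
    (hTB : 0 ≤ TB θ (uI (frows θ β p Q n ⌊δ * n⌋₊ bc))
      (rowC θ (frows θ β p Q n ⌊δ * n⌋₊ bc) 0).ph (hB p Q n R₁) ω)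
    {k : ℝ} (hk : (2 * Real.sin θ) ^ ((bS (uI (frows θ β p Q n ⌊δ * n⌋₊ bc))).filter fun e =>
      hdv e ∉ uI (frows θ β p Q n ⌊δ * n⌋₊ bc)).card = k)
    (hin : ∀ A ∈ pcs ω (uI (frows θ β p Q n ⌊δ * n⌋₊ bc)),
      ¬ IsLp (uI (frows θ β p Q n ⌊δ * n⌋₊ bc)) A)
    (hN1 : ω ∈ NAh p Q bc n (R₁ + 1) (R₂ - 1)) (hN2 : ω ∈ NAh p Q bc n (R₃ + 1) (R₄ - 1)) :
    RT θ (uI (frows θ β p Q n ⌊δ * n⌋₊ bc)) (rowC θ (frows θ β p Q n ⌊δ * n⌋₊ bc) c).ph ω =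
      k * (Gf θ β p S₀ Q bc n ⌊δ * n⌋₊ c R₃ R₄ ω * T2f θ β p Q bc n ⌊δ * n⌋₊ R₁ R₂ ω) := by
  classical
  have hpi := Real.pi_pos
  have hs : 0 < Real.sin θ := Real.sin_pos_of_pos_of_lt_pi h0 (by linarith)
  have hc : 0 < Real.cos θ := Real.cos_pos_of_mem_Ioo ⟨by linarith, by linarith⟩
  have hn' : 0 < n := by
    rcases Nat.eq_zero_or_pos n with h | h
    · rw [h] at hn; norm_num at hn
    · exact h
  have c1 := cnf_NAh h12 hN1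
  have c3 := cnf_NAh h34 hN2
  have hR2' : (R₂ : ℝ) ≤ R₄ := by exact_mod_cast (by omega : R₂ ≤ R₄)
  have hR40 : (0 : ℝ) ≤ R₄ := by exact_mod_cast (by omega : (0 : ℤ) ≤ R₄)
  have F := Enl.frame_cnf (θ := θ) (β := β) (bc := bc) (c := c) hp hD hQ hg hδ hδg hn hb hfl hR1
    (R' := R₂) (by linarith) (by linarith) hω c1
  have fact := RT_fact F (Enl.isPolygon_qN hn' hp _) (Enl.encloses_qN hn' hp hD _)
    (Enl.bd_qN hn' hp hD (Enl.tB_lt hQ hn')) hs.ne' hc.ne' hβ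
    (B3 := hB p Q n R₃) (Finset.coe_subset.2 (hB_mono (by omega))) ?_ ?_ hin
  · rw [Enl.rowC_ph, fact, hk]
    unfold Gf T2f
    rw [Set.indicator_of_mem hN1, Set.indicator_of_mem hN2, abs_of_nonneg hTB]
    simp only [Pi.one_apply, mul_one]
  · rintro e ⟨k, hk⟩
    obtain ⟨ℓ, hℓ, heℓ⟩ := hω e
    obtain ⟨x, hx⟩ := c3 ℓ hℓ ⟨_, Enl.loop_iter hℓ heℓ k, hk⟩
    exact Enl.box_flow hp hD hQ hn' hfl (R := R₄) hR4
      (Or.inl (hx (hdv e) (mem_image_of_mem hdv heℓ)))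
  · intro ℓ hℓ hv3 hv1
    exact hb1 ℓ hℓ (fun h => hv1 (visL_hB hR1 h)) (c3 ℓ (mem_LE.1 hℓ).1 hv3)

end Vale.Agent.P167.H398.Q
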