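import Mathlib.Analysis.SpecialFunctions.Pow.Real
import Mathlib.Order.Filter.AtTopBot.Archimedean
import Mathlib.Topology.Algebra.Order.Floor

/-!
# P167, general `q`, block Q-START: choice of the scales
-/

namespace Vale.Agent.P167.H398.Q

open Filter

theorem ev_large {x : ℝ} (hx : 0 < x) (y : ℝ) : ∀ᶠ n : ℕ in atTop, y ≤ x * n :=
  (tendsto_natCast_atTop_atTop.const_mul_atTop hx).eventually_ge_atTop y

theorem exists_rho {α C : ℝ} (hα : 0 < α) (hC : 0 ≤ C) (N : ℕ) {η : ℝ} (hη : 0 < η) :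
    ∃ ρ : ℝ, 0 < ρ ∧ ρ < 1 ∧ ∀ x : ℝ, 0 ≤ x → x ≤ ρ → N * (C * x ^ α) ≤ η := by
  have h1 : 0 < (N : ℝ) * C + 1 := by positivity
  have h2 : 0 < η / (N * C + 1) := by positivity
  refine ⟨min (1 / 2) ((η / (N * C + 1)) ^ α⁻¹), lt_min (by norm_num) (by positivity),
    (min_le_left _ _).trans_lt (by norm_num), fun x hx h => ?_⟩
  have h3 : x ^ α ≤ η / (N * C + 1) := by
    calc x ^ α ≤ ((η / (N * C + 1)) ^ α⁻¹) ^ α :=
          Real.rpow_le_rpow hx (h.trans (min_le_right _ _)) hα.le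
      _ = η / (N * C + 1) := by
          rw [← Real.rpow_mul h2.le, inv_mul_cancel₀ hα.ne', Real.rpow_one]
  have h4 : (N : ℝ) * C * (η / (N * C + 1)) ≤ η := by
    rw [mul_div_assoc', div_le_iff₀ h1]
    nlinarith
  calc (N : ℝ) * (C * x ^ α) = N * C * x ^ α := by ring
    _ ≤ N * C * (η / (N * C + 1)) := mul_le_mul_of_nonneg_left h3 (by positivity)
    _ ≤ η := h4

theorem ev_ratio {a b ρ : ℝ} (ha : 0 ≤ a) (hb : 0 < b) (hρ : 0 < ρ) (h : a ≤ ρ / 2 * b) :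
    ∀ᶠ n : ℕ in atTop, 0 < ((⌊b * n⌋ - 1 : ℤ) : ℝ) ∧
      0 ≤ ((⌊a * n⌋ + 1 : ℤ) : ℝ) / ((⌊b * n⌋ - 1 : ℤ) : ℝ) ∧
      ((⌊a * n⌋ + 1 : ℤ) : ℝ) / ((⌊b * n⌋ - 1 : ℤ) : ℝ) ≤ ρ := by
  filter_upwards [ev_large hb (3 + 2 * (1 + 2 * ρ) / ρ)] with n hn
  have h0 : 0 < 2 * (1 + 2 * ρ) / ρ := by positivity
  have f1 := Int.lt_floor_add_one (b * n)
  have f2 := Int.floor_le (a * n)
  have f3 : 0 ≤ ⌊a * (n : ℝ)⌋ := Int.floor_nonneg.2 (by positivity)
  have f3' : (0 : ℝ) ≤ ⌊a * (n : ℝ)⌋ := by exact_mod_cast f3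
  have h1 : 0 < ((⌊b * n⌋ - 1 : ℤ) : ℝ) := by
    push_cast
    linarith
  refine ⟨h1, div_nonneg (by push_cast; linarith) h1.le, ?_⟩
  rw [div_le_iff₀ h1]
  push_cast
  have h2 : a * n ≤ ρ / 2 * b * n := mul_le_mul_of_nonneg_right h (Nat.cast_nonneg _)
  have h3 : 2 * (1 + 2 * ρ) / ρ ≤ b * n := by linarith
  rw [div_le_iff₀ hρ] at h3
  nlinarith

/-- The same without the corrections. -/
theorem ratio_le {x y : ℤ} (hx : 0 ≤ x) (hy : 0 < ((y - 1 : ℤ) : ℝ)) :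
    (0 : ℝ) ≤ (x : ℝ) / y ∧ (x : ℝ) / y ≤ ((x + 1 : ℤ) : ℝ) / ((y - 1 : ℤ) : ℝ) := by
  have hx' : (0 : ℝ) ≤ x := by exact_mod_cast hx
  push_cast at hy ⊢
  have hy' : (0 : ℝ) < y := by linarith
  exact ⟨by positivity, div_le_div₀ (by linarith) (by linarith) hy (by linarith)⟩

/-- The choice of the errors. -/
theorem exists_err {ε M M' C : ℝ} (hε : 0 < ε) (hM : 0 < M) (hM' : 0 < M') (hC : 0 < C) :
    ∃ lm η ε1 : ℝ, 0 < lm ∧ 0 < η ∧ 0 < ε1 ∧ ε1 ≤ 1 / 2 ∧ (lm * M + η / lm) / 2 * C ≤ 1 / 2 ∧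
      2 * ((lm * M + η / lm) / 2 * C * (1 + M') + 2 * (2 * ε1 * M' + ε / 16)) ≤ ε := by
  set e0 : ℝ := min (1 / 2) (ε / (8 * (1 + M'))) with he0
  have h0 : 0 < e0 := by positivity
  have a1 : e0 ≤ 1 / 2 := min_le_left _ _
  have a2 : e0 * (8 * (1 + M')) ≤ ε := by
    have := min_le_right (1 / 2) (ε / (8 * (1 + M')))
    rwa [← he0, le_div_iff₀ (by positivity)] at this
  set lm : ℝ := e0 / (C * M + 1) with hlm
  have hlm0 : 0 < lm := by positivity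
  set ε1 : ℝ := min (1 / 2) (ε / (32 * (M' + 1))) with hε1
  have h1 : 0 < ε1 := by positivity
  have a3 : ε1 * (32 * (M' + 1)) ≤ ε := by
    have := min_le_right (1 / 2) (ε / (32 * (M' + 1)))
    rwa [← hε1, le_div_iff₀ (by positivity)] at this
  have b1 : lm * (C * M + 1) = e0 := by
    rw [hlm]
    field_simp
  have b2 : lm * e0 / (C + 1) / lm * (C + 1) = e0 := by
    field_simp
  have b3 : 0 < lm * e0 / (C + 1) / lm := by positivity
  have key : (lm * M + lm * e0 / (C + 1) / lm) / 2 * C ≤ e0 := by nlinarith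
  refine ⟨lm, lm * e0 / (C + 1), ε1, hlm0, by positivity, h1, min_le_left _ _,
    key.trans a1, ?_⟩
  have c1 := mul_le_mul_of_nonneg_right key (by linarith : 0 ≤ 1 + M')
  nlinarith

/-- A positive number below finitely many positive numbers. -/
theorem exists_lt_all : ∀ L : List ℝ, (∀ x ∈ L, 0 < x) → ∃ y : ℝ, 0 < y ∧ ∀ x ∈ L, y < x
  | [], _ => ⟨1, one_pos, fun _ h => absurd h (List.not_mem_nil)⟩
  | a :: L, h => by
    obtain ⟨y, hy, h1⟩ := exists_lt_all L fun x hx => h x (List.mem_cons_of_mem _ hx)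
    have ha := h a List.mem_cons_self
    refine ⟨min y a / 2, by positivity, fun x hx => ?_⟩
    have hm : 0 < min y a := lt_min hy ha
    rcases List.mem_cons.1 hx with rfl | hx
    · have := min_le_right y x
      linarith
    · have := min_le_left y a
      have := h1 x hx
      linarith

end Vale.Agent.P167.H398.Q
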