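import Vale.Agent.P167.H398.Q.Mix

/-!
# P167, general `q`, block Q-START: locality of `T2f` and `Gf`
-/

namespace Vale.Agent.P167.H398.Q

open Finset MeasureTheory
open Vale.Agent.P167.BR
open Vale.Agent.P167.E6 (IsPolygon Encloses)
open Vale.Agent.P167.XDL (bS mem_bS)
open Vale.Agent.P167.FK
open Vale.Agent.P167.FKA (Loc Ind ArmDec cf_out)
open Vale.Agent.P167.H825 (dv enl Marks FlowIn)
open Vale.Agent.P167.H825.Q (Row Bc)
open Vale.Agent.P167.H680.T (rowC uI frows)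
open Vale.Agent.P167.H519 (IsLim cf_in)
open Vale.Agent.P167.H662 (hsite)
open Vale.Agent.P167.QX (QL RT TB TO fLp VisL XBoff TB_congr TO_congr XBoff_congr)
open Vale.Agent.P167.Enl (tB qN)

variable {l : ℕ} {θ β : ℝ} {p : ZMod l → ℤ × ℤ} {S₀ : Finset (ℤ × ℤ)} {Q : Marks} {bc : Bc}
  {n d : ℕ} {cf' : Ed → ℝ} {R₁ R₂ R₃ R₄ : ℤ} {ω ω' : Cfg}

/-- Finite changes of good configurations are good. -/
theorem good_of {A : Finset (ℤ × ℤ)} (h : ∀ v ∉ A, ω v = ω' v) (hg : Good ω) : Good ω' := by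
  have e : ω' = cf A ω (A.filter fun v => ω' v = true) := by
    funext v
    by_cases hv : v ∈ A
    · rw [cf_in hv]
      cases h1 : ω' v <;> simp [hv, h1]
    · rw [cf_out hv, h v hv]
  rw [e]
  exact f_good.1 _ _ _ hg

theorem good_iff {A : Finset (ℤ × ℤ)} (h : ∀ v ∉ A, ω v = ω' v) : Good ω ↔ Good ω' :=
  ⟨good_of h, good_of fun v hv => (h v hv).symm⟩

theorem mem_hB {v : ℤ × ℤ} {R : ℤ} : v ∈ hB p Q n R ↔ ∃ x, v ∈ Bq (hsite p Q n x) R := by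
  unfold hB
  rw [mem_biUnion]
  exact ⟨fun ⟨x, _, h⟩ => ⟨x, h⟩, fun ⟨x, h⟩ => ⟨x, mem_univ _, h⟩⟩

theorem T2f_nonneg (ω : Cfg) : 0 ≤ T2f θ β p Q bc n d R₁ R₂ ω := by
  unfold T2f
  refine mul_nonneg (abs_nonneg _) ?_
  exact Set.indicator_nonneg (fun _ _ => zero_le_one) _

/-- `T2f` depends on the squares of the boxes. -/
theorem T2f_loc (h12 : R₁ + 2 ≤ R₂) : Loc (hB p Q n R₂) (T2f θ β p Q bc n d R₁ R₂) := by
  classical
  intro ω ω' h
  have h1 : ω ∈ NAh p Q bc n (R₁ + 1) (R₂ - 1) ↔ ω' ∈ NAh p Q bc n (R₁ + 1) (R₂ - 1) :=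
    NA_loc fun x _ v hv => h v (mem_hB.2 ⟨x, Bq_mono' (by omega) hv⟩)
  unfold T2f
  rw [ind_congr h1]
  by_cases h2 : ω ∈ NAh p Q bc n (R₁ + 1) (R₂ - 1)
  · congr 2
    refine TB_congr (B' := ↑(hB p Q n R₂)) (fun v hv => h v (Finset.mem_coe.1 hv)) ?_ ?_
    · intro ℓ hl hv v hv'
      obtain ⟨x, -, hx⟩ := conf_NA (J := univ) (b := bcol p Q bc n) (c := hsite p Q n) hl h12 hv h2
      exact Finset.mem_coe.2 (mem_hB.2 ⟨x, hx v hv'⟩)
    · intro ℓ hl hv v hv'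
      obtain ⟨x, -, hx⟩ := conf_NA (J := univ) (b := bcol p Q bc n) (c := hsite p Q n) hl h12 hv
        (h1.1 h2)
      exact Finset.mem_coe.2 (mem_hB.2 ⟨x, hx v hv'⟩)
  · rw [Set.indicator_of_notMem fun h3 => h2 (h1.2 h3), mul_zero, mul_zero]

theorem cb_T2f (h12 : R₁ + 2 ≤ R₂) : CB (T2f θ β p Q bc n d R₁ R₂) := CB.of_loc (T2f_loc h12)

theorem cb_Gf (h0 : 0 < θ) (h1 : θ ≤ Real.pi / 3) :
    CB (Gf θ β p S₀ Q bc n d cf' R₃ R₄) := by
  have hs : 0 < Real.sin θ := Real.sin_pos_of_pos_of_lt_pi h0 (by linarith [Real.pi_pos])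
  exact ((cb_TO hs (H680.T.cos_le h0 h1)).mul (cb_XBoff h0 h1 _ _ _ _ _ _)).mul cb_NA

/-- `Gf` does not depend on the squares of the boxes (good configurations). -/
theorem Gf_congr (h34 : R₃ + 2 ≤ R₄)
    (hdis : ∀ x y, x ≠ y → Disjoint (Bq (hsite p Q n x) R₄) (Bq (hsite p Q n y) R₄))
    (hg : Good ω) (hg' : Good ω') (h : ∀ v ∉ hB p Q n R₃, ω v = ω' v) :
    Gf θ β p S₀ Q bc n d cf' R₃ R₄ ω = Gf θ β p S₀ Q bc n d cf' R₃ R₄ ω' := by
  classical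
  have h1 : ω ∈ NAh p Q bc n (R₃ + 1) (R₄ - 1) ↔ ω' ∈ NAh p Q bc n (R₃ + 1) (R₄ - 1) := by
    refine NA_ind (by omega) (fun x _ y _ hxy => ?_) fun v hv => h v fun hv' => ?_
    · exact Finset.disjoint_of_subset_left (Bq_mono' (by omega))
        (Finset.disjoint_of_subset_right (Bq_mono' (by omega)) (hdis x y hxy))
    · obtain ⟨x, hx⟩ := mem_hB.1 hv'
      exact hv x (mem_univ _) (Bq_mono' (by omega) hx)
  have h' : ∀ v ∉ (↑(hB p Q n R₃) : Set (ℤ × ℤ)), ω v = ω' v := fun v hv => h v fun hv' =>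
    hv (Finset.mem_coe.2 hv')
  unfold Gf
  rw [ind_congr h1, TO_congr h', XBoff_congr hg hg' h']

open Classical in
/-- `Gf` on the good configurations. -/
noncomputable def Gg (F : Cfg → ℝ) (ω : Cfg) : ℝ := if Good ω then F ω else 0

theorem Gg_good {F : Cfg → ℝ} (h : Good ω) : Gg F ω = F ω := by
  unfold Gg
  rw [if_pos h]

theorem cb_Gg {F : Cfg → ℝ} (h : CB F) : CB (Gg F) := h.congr fun _ hω => (Gg_good hω).symm

theorem Gf_ind (h34 : R₃ + 2 ≤ R₄)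
    (hdis : ∀ x y, x ≠ y → Disjoint (Bq (hsite p Q n x) R₄) (Bq (hsite p Q n y) R₄))
    {A : Finset (ℤ × ℤ)} (hA : A ⊆ hB p Q n R₃) :
    Ind A (Gg (Gf θ β p S₀ Q bc n d cf' R₃ R₄)) := by
  classical
  intro ω ω' h
  unfold Gg
  by_cases hg : Good ω
  · have hg' := good_of h hg
    rw [if_pos hg, if_pos hg']
    exact Gf_congr h34 hdis hg hg' fun v hv => h v fun hv' => hv (hA hv')
  · rw [if_neg hg, if_neg fun hg' => hg ((good_iff h).2 hg')]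

end Vale.Agent.P167.H398.Q
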