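import Vale.Agent.P167.H398.Q.Tip
import Vale.Agent.P167.H398.Q.Scl
import Vale.Agent.P167.H825.S.Loc

/-!
# P167, general `q`, block Q-START: the factors do not read the annuli at the holes
-/

namespace Vale.Agent.P167.H398.Q

open Finset MeasureTheory Filter
open Vale.Agent.P167.BR hiding dv
open Vale.Agent.P167.E6 (IsPolygon Encloses)
open Vale.Agent.P167.FK
open Vale.Agent.P167.FKA (Loc Ind)
open Vale.Agent.P167.H825 (dv enl Marks FlowIn)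
open Vale.Agent.P167.H825.Q (Row Bc)
open Vale.Agent.P167.H680.T (rowC uI frows)
open Vale.Agent.P167.H662 (hsite)
open Vale.Agent.P167.H199 (Gap)
open Vale.Agent.P167.Enl (BGap)

variable {l : ℕ} {θ β : ℝ} {p : ZMod l → ℤ × ℤ} {S₀ : Finset (ℤ × ℤ)} {Q : Marks} {bc : Bc}
  {n : ℕ} {g δ κ' : ℝ}

theorem Ind.mono {A A' : Finset (ℤ × ℤ)} {F : Cfg → ℝ} (h : Ind A' F) (hA : A ⊆ A') : Ind A F :=
  fun ω ω' h' => h ω ω' fun v hv => h' v fun hv' => hv (hA hv')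

/-- **The factors of the tips and of the junctions do not read the annuli at the holes.** -/
theorem t1_ind (hp : IsPolygon p) (hQ : Q.Ok) (hg : Gap Q l g)
    (hbg : BGap l Q g bc) (hδ : 0 < δ) (hδg : 4 * δ ≤ g) (hn : 16 ≤ δ * n) {R₁ R₂ : ℤ}
    (hR1 : ⌊4 * δ * n⌋ ≤ R₁) (h12 : R₁ ≤ R₂) (hκ' : 0 ≤ κ')
    (hR2 : (2 * (R₂ + 4 * κ' * n) : ℝ) + 12 < g * n) (x : Fin l × Fin (Q.m + 1)) :
    Ind (Bq (hsite p Q n x) R₂ \ Bq (hsite p Q n x) R₁)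
      (fun ω => Ttip θ (frows θ β p Q n ⌊δ * (n : ℝ)⌋₊ bc) ⌊δ * n / 16⌋ ω *
        Tjun θ (frows θ β p Q n ⌊δ * (n : ℝ)⌋₊ bc) ⌊4 * κ' * n⌋ ω) := by
  classical
  have hn0 : (0 : ℝ) ≤ n := Nat.cast_nonneg n
  have f0 : 0 ≤ ⌊4 * δ * (n : ℝ)⌋ := Int.floor_nonneg.2 (by positivity)
  have f1 : ((⌊δ * (n : ℝ)⌋₊ : ℕ) : ℝ) ≤ δ * n := Nat.floor_le (by positivity)
  have f2 : (⌊δ * (n : ℝ) / 16⌋ : ℝ) ≤ δ * n / 16 := Int.floor_le _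
  have f3 : 4 * δ * (n : ℝ) < ⌊4 * δ * (n : ℝ)⌋ + 1 := Int.lt_floor_add_one _
  have f4 : (⌊δ * (n : ℝ)⌋₊ : ℤ) + 5 + ⌊δ * (n : ℝ) / 16⌋ ≤ ⌊4 * δ * (n : ℝ)⌋ := by
    have : (((⌊δ * (n : ℝ)⌋₊ : ℤ) + 5 + ⌊δ * (n : ℝ) / 16⌋ : ℤ) : ℝ) <
        ((⌊4 * δ * (n : ℝ)⌋ + 1 : ℤ) : ℝ) := by
      push_cast
      linarith
    have := Int.cast_lt.1 this
    omega
  have f5 : (⌊4 * κ' * (n : ℝ)⌋ : ℝ) ≤ 4 * κ' * n := Int.floor_le _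
  have f6 : 0 ≤ ⌊4 * κ' * (n : ℝ)⌋ := Int.floor_nonneg.2 (by positivity)
  have i1 : Ind (Bq (hsite p Q n x) R₂ \ Bq (hsite p Q n x) R₁)
      (Ttip θ (frows θ β p Q n ⌊δ * (n : ℝ)⌋₊ bc) ⌊δ * n / 16⌋) := by
    refine Loc.ind ?_ (H825.S.Ttip_loc hp hQ hg hδ hδg hn f4)
    rw [Finset.disjoint_left]
    intro v hv' hv
    obtain ⟨h1, h2⟩ := Finset.mem_sdiff.1 hv
    obtain ⟨y, hy⟩ := mem_hB.1 hv'
    by_cases hxy : x = y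
    · subst hxy
      exact h2 (Bq_mono' hR1 hy)
    · have := Enl.box_disj (R := R₂) hp hQ hg (n := n) (by
        have : 0 ≤ 4 * κ' * (n : ℝ) := by positivity
        linarith) hxy
      exact Finset.disjoint_left.1 this h1 (Bq_mono' (by omega) hy)
  have i2 : Ind (Bq (hsite p Q n x) R₂ \ Bq (hsite p Q n x) R₁)
      (Tjun θ (frows θ β p Q n ⌊δ * (n : ℝ)⌋₊ bc) ⌊4 * κ' * n⌋) := by
    refine Ind.mono (H825.S.Tjun_ind hp hQ hg hδ hδg hn hbg (R := R₂) (by omega)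
      (by linarith)) fun v hv => ?_
    exact mem_hB.2 ⟨x, (Finset.mem_sdiff.1 hv).1⟩
  intro ω ω' h
  show _ * _ = _ * _
  rw [i1 ω ω' h, i2 ω ω' h]

end Vale.Agent.P167.H398.Q
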