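import Vale.Agent.P167.H398.Q.StN
import Vale.Agent.P167.K8.RswFin

/-!
# P167, general `q`, block Q-START: `STARTR` from the literal inputs
-/

namespace Vale.Agent.P167.H398.Q

open Finset MeasureTheory Filter
open Vale.Agent.P167.BR hiding dv
open Vale.Agent.P167.E6 (IsPolygon Encloses)
open Vale.Agent.P167.XDL (bS)
open Vale.Agent.P167.FK
open Vale.Agent.P167.FKA (Loc Ind ArmDec)
open Vale.Agent.P167.H825 (dv enl Marks FlowIn)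
open Vale.Agent.P167.H825.Q (Row Bc VT)
open Vale.Agent.P167.H680.T (rowC uI frows STARTR flowIn_zero mem_uI)
open Vale.Agent.P167.H519 (IsLim)
open Vale.Agent.P167.H662 (hsite)
open Vale.Agent.P167.H199 (Gap exists_Gap)
open Vale.Agent.P167.H562.QM (MajA)
open Vale.Agent.P167.H562.MAJ (Sm)
open Vale.Agent.P167.H945.Q (Tc TT rad Zp)
open Vale.Agent.P167.H506.Q (EF fz)
open Vale.Agent.P167.QX (RT TB TO)
open Vale.Agent.P167.Enl (tB BGap exists_BGap R0)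

theorem sc1 {x ρ κ : ℝ} (h : x ≤ ρ / 2 * κ) (hρ : ρ < 1) (hκ : 0 < κ) : x ≤ κ := by nlinarith

theorem sc2 {s ρ δ : ℝ} (h : 4 ≤ ρ / 2 * s) (hδ : 0 < δ) : 4 * δ ≤ ρ / 2 * (s * δ) := by
  nlinarith

/-- **START from the literal inputs.** -/
theorem startr_of {θ β : ℝ} {P : Measure Cfg} (h0 : 0 < θ) (h1 : θ ≤ Real.pi / 3)
    (hβ : β = (θ - Real.pi) / 2 ∨ β = (Real.pi - 3 * θ) / 2) (hP : IsLim (2 * Real.cos θ) P)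
    (hL1 : L1S θ β) (hL2 : L2S θ β) (hH2 : H2S θ β P) (hH6 : H6S θ β P) (hH7 : H7S θ β P)
    (hP3 : P3S θ β P) : STARTR θ β P (Zp θ P) := by
  have hPp : IsProbabilityMeasure P := hP.1
  have hgd := H199.good_aeQ h0.le h1 hP h0
  have hQ1 := H680.T.cos_le h0 h1
  have hpi := Real.pi_pos
  have hs : 0 < Real.sin θ := Real.sin_pos_of_pos_of_lt_pi h0 (by linarith)
  obtain ⟨α, C₀, hα, hC₀, hdec, -⟩ := FKA.arm_fk hQ1 (K8.k_rsw θ h0.le h1)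
  have hβ' := H825.S.gauge_cos hβ
  intro l _ p S₀ hp hD Q hQ bc hbc κ B hκ ε hε
  obtain ⟨κa, hκa, La⟩ := hL1 l p S₀ hp hD Q hQ bc hbc κ |B| hκ
  obtain ⟨κb, hκb, Lb⟩ := hL2 l p S₀ hp hD Q hQ bc hbc
  obtain ⟨κc, hκc, Lc⟩ := hH2 l p S₀ hp hD Q hQ bc hbc κ |B| hκ
  obtain ⟨κd, M', hκd, hM', Ld⟩ := hH6 l p S₀ hp hD Q hQ bc hbc κ |B| hκ
  obtain ⟨κe, hκe, Le⟩ := hH7 l p S₀ hp hD Q hQ bc hbc
  obtain ⟨κf, hκf, Lf⟩ := hP3 l p S₀ hp hD Q hQ bc hbc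
  obtain ⟨δp, hδp, Lp⟩ := H680.T.pt_geo hp hD hQ hbc h0 h1 hβ
  obtain ⟨g1, hg1, hG⟩ := exists_Gap hQ l
  obtain ⟨g2, hg2, hBg⟩ := exists_BGap hbc
  obtain ⟨g, hg0, hg, hbg⟩ : ∃ g : ℝ, 0 < g ∧ Gap Q l g ∧ BGap l Q g bc :=
    ⟨min g1 g2, lt_min hg1 hg2, hG.mono (min_le_left _ _), hBg.mono (min_le_right _ _)⟩
  -- `κ'`
  obtain ⟨κ', hκ', H⟩ := exists_lt_all [κa, κb, κc, κe, κf, g / 32] (by
    simp only [List.mem_cons, List.not_mem_nil, or_false]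
    rintro x (rfl | rfl | rfl | rfl | rfl | rfl) <;> positivity)
  obtain ⟨A, δa, hA, hδa, La⟩ := La κ' hκ' (H _ (by simp))
  obtain ⟨A₂, δb, hA₂, hδb, Lb⟩ := Lb κ' hκ' (H _ (by simp))
  obtain ⟨M, δc, hM, hδc, Lc⟩ := Lc κ' hκ' (H _ (by simp)) A hA
  obtain ⟨C₇, t₇, hC₇, ht₇, ht₇', Le⟩ := Le κ' hκ' (H _ (by simp))
  obtain ⟨δf, hδf, Lf⟩ := Lf κ' hκ' (H _ (by simp))
  have hκ'g : κ' ≤ g / 32 := (H _ (by simp)).le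
  -- the errors
  obtain ⟨lm, η, ε1, hlm, hη, hε1, hε1', he1, he2⟩ := exists_err hε hM hM' hC₇
  obtain ⟨t₆, ht₆, ht₆', Ld⟩ := Ld (ε / 16) (by positivity)
  obtain ⟨N, hN⟩ : ∃ N : ℕ, (univ : Finset (Fin l × Fin (Q.m + 1))).card = N := ⟨_, rfl⟩
  have hN1 : 1 ≤ N := by
    rw [← hN]
    exact card_pos.2 ⟨(⟨0, Nat.pos_of_ne_zero (NeZero.ne l)⟩, 0), mem_univ _⟩
  obtain ⟨ρ, hρ, hρ1, hρη⟩ := exists_rho hα hC₀.le N (half_pos hη)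
  obtain ⟨ρm, hρm, hρm1, hρε⟩ := exists_rho hα hC₀.le (8 * N) hε1
  -- the scales
  obtain ⟨κ₃, κ₄, s₂, ⟨hκ₃, hκ₄, hs₂⟩, ⟨k4b, k4d, k4e⟩, ⟨k4κ, k4g⟩,
    ⟨k36, k37, k3t, k3ρ, k34⟩, ⟨hs₂t, hs₂ρ, hs₂8⟩⟩ :=
    exists_scales hκb hκd hκe hκ hg0 ht₆ ht₇ hρ hρ1
  obtain ⟨δh, hδh, Ld⟩ := Ld κ₃ κ₄ hκ₃ k36 k4d
  obtain ⟨δi, hδi, Le⟩ := Le 4 s₂ κ₃ κ₄ le_rfl hs₂t hκ₃ k37 k3t k4e
  obtain ⟨δ₀, hδ₀, H'⟩ := exists_lt_all [δa, δb, δc, δf, δh, δi, δp, g / 4,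
      ρm / 2 * κ₃ / s₂] (by
    simp only [List.mem_cons, List.not_mem_nil, or_false]
    rintro x (rfl | rfl | rfl | rfl | rfl | rfl | rfl | rfl | rfl) <;> positivity)
  refine ⟨δ₀, hδ₀, fun δ hδ hδ' => ?_⟩
  have La := La δ hδ (hδ'.trans (H' _ (by simp)))
  have Lb := Lb δ hδ (hδ'.trans (H' _ (by simp)))
  have Lc := Lc δ hδ (hδ'.trans (H' _ (by simp)))
  have Ld := Ld δ hδ (hδ'.trans (H' _ (by simp)))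
  have Le := Le δ hδ (hδ'.trans (H' _ (by simp)))
  obtain ⟨C₃, hC₃, Lf⟩ := Lf δ hδ (hδ'.trans (H' _ (by simp)))
  obtain ⟨κp, hκp, Lp⟩ := Lp δ hδ (hδ'.trans (H' _ (by simp))) κ hκ
  have hδg : 4 * δ ≤ g := by
    have := hδ'.trans (H' (g / 4) (by simp))
    linarith
  have hsδ : s₂ * δ ≤ ρm / 2 * κ₃ := by
    have := (hδ'.trans (H' (ρm / 2 * κ₃ / s₂) (by simp))).le
    rw [le_div_iff₀ hs₂] at this
    linarith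
  have hsδ' : s₂ * δ ≤ κ₃ := sc1 hsδ hρm1 hκ₃
  refine ⟨1 / (2 * C₇ * C₃), by positivity, ?_⟩
  have q1 := ev_ratio (a := 4 * δ) (b := s₂ * δ) (by positivity) (by positivity) hρ
    (sc2 hs₂ρ hδ)
  have q2 := ev_ratio (a := κ₃) (b := κ₄) hκ₃.le hκ₄ hρ k3ρ
  have q3 := ev_ratio (a := s₂ * δ) (b := κ₃) (by positivity) hκ₃ hρm hsδ
  filter_upwards [La, Lb, Lc, Ld, Le, Lf, Lp |B|, ev_large hδ 16, ev_large hκp 2,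
    ev_large hκ 8, ev_large hκ₄ 16, ev_large hg0 32, q1, q2, q3] with n na nb nc nd ne nf np
    n1 n2 n3 n4 n5 q1 q2 q3
  intro σ hσ
  exact start_n rfl h0 h1 hβ' hP hgd hdec hC₀.le hp hD hQ hbc hg hbg hδ hδg n1 hκ'.le
    (by linarith) np hs₂8 hsδ' k34 n4 k4b k4κ n3 k4g hκ'g n5 hN hN1 hε hρη hρε q1 q2 q3 hlm hε1
    hε1' hM hA₂ hC₇ hC₃ he1 he2 na (fun ω g1 g2 => (nb ω g1 g2).1)
    (fun ω g1 g2 => (nb ω g1 g2).2.2.1)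
    (fun σ g1 => by
      obtain ⟨Z, B₁, B₂, N₁, N₂, z1, z2, z3, z4, z5, z6, -, -⟩ := nc σ g1
      exact ⟨Z, B₁, B₂, N₁, N₂, z1, z2, z3, z4, z5, z6⟩)
    (fun σ g1 => (nd σ g1).2) ne nf hσ

end Vale.Agent.P167.H398.Q
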