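import Vale.Agent.P167.H398.Q.Fct
import Vale.Agent.P167.H506.Q.Hole

/-!
# P167, general `q`, block Q-START: mixing at the holes
-/

namespace Vale.Agent.P167.H398.Q

open Finset MeasureTheory
open Vale.Agent.P167.BR
open Vale.Agent.P167.E6 (IsPolygon Encloses)
open Vale.Agent.P167.XDL (bS mem_bS)
open Vale.Agent.P167.FK
open Vale.Agent.P167.FKA (Loc Ind ArmDec)
open Vale.Agent.P167.H825 (dv)
open Vale.Agent.P167.H519 (IsLim)
open Vale.Agent.P167.QX (QL RT TB TO fLp VisL XBoff)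
open Vale.Agent.P167.H506.Q (EF RM rm_holes fac_le fac)

variable {Q : ℝ} {K : Finset (ℤ × ℤ)} {κ : Cfg} {P : Measure Cfg} {ω ω' : Cfg} {ι : Type}
  {J : Finset ι} {b : ι → Bool} {c : ι → ℤ × ℤ} {r R R' : ℤ}

/-- **Mixing at the holes**, expectations given the frozen squares. -/
theorem mix_EF [DecidableEq ι] (hQ : 1 ≤ Q) (hκ : Good κ) {α C : ℝ} (h : ArmDec Q α C)
    (J : Finset ι) (c : ι → ℤ × ℤ) (hr : 1 ≤ r) (hrR : r ≤ R)
    (hdis : ∀ i ∈ J, ∀ j ∈ J, i ≠ j → Disjoint (Bq (c i) R) (Bq (c j) R))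
    (hcol : ∀ i ∈ J, ∃ b : Bool, ∀ v ∈ K, v ∈ Bq (c i) R → κ v = b)
    (hC : 0 ≤ C) (hε1 : C * ((r : ℝ) / R) ^ α < 1)
    (hε : 8 * J.card * (C * ((r : ℝ) / R) ^ α) ≤ 1) (hP : IsLim Q P)
    (hg : ∀ᵐ ω ∂P, Good ω) {T G : Cfg → ℝ} (hT0 : ∀ ω, 0 ≤ T ω)
    (hT : Loc ((J.biUnion fun i => Bq (c i) r) ∪ K) T) (hGq : QL G) {M : ℝ}
    (hM : ∀ ω, Good ω → |G ω| ≤ M) (hG : Ind ((J.biUnion fun i => Bq (c i) R) \ K) G) :
    |EF P K κ (fun ω => G ω * T ω) - EF P K κ G * EF P K κ T| ≤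
      8 * J.card * (C * ((r : ℝ) / R) ^ α) * (EF P K κ (fun ω => |G ω|) * EF P K κ T) := by
  have hPp : IsProbabilityMeasure P := hP.1
  have hRr : (0 : ℝ) < r := by exact_mod_cast (by omega : 0 < r)
  have hRR : (0 : ℝ) < R := by exact_mod_cast (by omega : 0 < R)
  have hε0 : 0 ≤ C * ((r : ℝ) / R) ^ α := by positivity
  have h1 := rm_holes hQ hκ h J c hr hrR hdis hcol hε1
  have h2 := RM.EF_mul hQ hκ h1 Finset.sdiff_disjoint hP hg hT0 (by
    have e : (J.biUnion fun i => Bq (c i) r) ∪ K = ((J.biUnion fun i => Bq (c i) r) \ K) ∪ K := by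
      rw [Finset.sdiff_union_self_eq_union]
    rw [← e]
    exact hT) hGq hM hG
  refine h2.trans (mul_le_mul_of_nonneg_right ?_ (mul_nonneg
    (H506.Q.EF_nonneg fun ω => abs_nonneg _) (H506.Q.EF_nonneg hT0)))
  have := fac_le hε0 hε hε1
  linarith

/-! ### the events -/

theorem NA_loc (h : ∀ i ∈ J, ∀ v ∈ Bq (c i) R, ω v = ω' v) : ω ∈ NA J b c r R ↔ ω' ∈ NA J b c r R := by
  unfold NA
  simp only [Set.mem_ofPred_eq]
  refine forall₂_congr fun i hi => not_congr ?_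
  have h1 := Arm.loc (b i) (c i) r R ω ω' (h i hi)
  by_cases a : Arm (b i) (c i) r R ω <;> by_cases a' : Arm (b i) (c i) r R ω'
  · simp [a, a']
  · rw [Set.indicator_of_mem (show ω ∈ {ω | Arm (b i) (c i) r R ω} from a),
      Set.indicator_of_notMem (show ω' ∉ {ω | Arm (b i) (c i) r R ω} from a')] at h1
    simp at h1
  · rw [Set.indicator_of_notMem (show ω ∉ {ω | Arm (b i) (c i) r R ω} from a),
      Set.indicator_of_mem (show ω' ∈ {ω | Arm (b i) (c i) r R ω} from a')] at h1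
    simp at h1
  · simp [a, a']

theorem Bq_mono' {x : ℤ × ℤ} (h : r ≤ R) : Bq x r ⊆ Bq x R := by
  intro v hv
  unfold Bq at hv ⊢
  rw [mem_product, mem_Ico, mem_Ico] at hv ⊢
  omega

theorem NA_ind (hrR : r ≤ R) (hdis : ∀ i ∈ J, ∀ j ∈ J, i ≠ j → Disjoint (Bq (c i) R) (Bq (c j) r))
    (h : ∀ v, (∀ i ∈ J, v ∉ Bq (c i) r) → ω v = ω' v) : ω ∈ NA J b c r R ↔ ω' ∈ NA J b c r R := by
  unfold NA
  simp only [Set.mem_ofPred_eq]
  refine forall₂_congr fun i hi => not_congr ?_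
  refine Arm.iff_of hrR fun v hv hv' => h v fun j hj hvj => ?_
  by_cases hij : i = j
  · subst hij
    exact hv' hvj
  · exact Finset.disjoint_left.1 (hdis i hi j hj hij) hv hvj

theorem ind_congr {S : Set Cfg} (h : ω ∈ S ↔ ω' ∈ S) :
    (S.indicator 1 ω : ℝ) = S.indicator 1 ω' := by
  classical
  by_cases h1 : ω ∈ S
  · rw [Set.indicator_of_mem h1, Set.indicator_of_mem (h.1 h1)]
    rfl
  · rw [Set.indicator_of_notMem h1, Set.indicator_of_notMem fun h2 => h1 (h.2 h2)]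

/-- If there are no arms, the loops which visit the small boxes are confined. -/
theorem conf_NA {ℓ : Finset Ed} (hl : IsLoop ω ℓ) (hrR : r + 2 ≤ R)
    (hv : VisL (↑(J.biUnion fun i => Bq (c i) r) : Set (ℤ × ℤ)) ℓ)
    (ha : ω ∈ NA J b c (r + 1) (R - 1)) : ∃ i ∈ J, ∀ v ∈ vs ℓ, v ∈ Bq (c i) R := by
  obtain ⟨e, he, h1⟩ := hv
  rw [Finset.mem_coe, mem_biUnion] at h1
  obtain ⟨i, hi, h2⟩ := h1
  exact ⟨i, hi, conf_of hl hrR ⟨e, he, Finset.mem_coe.2 h2⟩ (ha i hi)⟩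

theorem cb_NA : CB ((NA J b c r R).indicator (1 : Cfg → ℝ)) := by
  classical
  refine CB.of_loc (B := J.biUnion fun i => Bq (c i) R) fun ω ω' h => ?_
  exact ind_congr (NA_loc fun i hi v hv => h v (mem_biUnion.2 ⟨i, hi, hv⟩))

end Vale.Agent.P167.H398.Q
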