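import Vale.Agent.P167.H945.Q.HDefs
import Vale.Agent.P167.H680.T.RedP
import Vale.Agent.P167.H592.T.Box
import Vale.Agent.P167.QX.Loops

/-!
# P167, general `q`, block Q-START: the literal law-free inputs of `STARTR`

`hB p Q n R`: union of the boxes of radius `R` at the holes. `T1`: the factors of the tips at radius
`δ n / 16` and of the junctions at radius `4 κ' n`. `L1S`: the majorant of the functional of a frame.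
`L2S`: the loops which do not visit the holes, and the lower bounds.
-/

namespace Vale.Agent.P167.H398.Q

open Finset MeasureTheory Filter
open Vale.Agent.P167.BR
open Vale.Agent.P167.FK
open Vale.Agent.P167.E6 (IsPolygon Encloses)
open Vale.Agent.P167.XDL (bS)
open Vale.Agent.P167.H825 (dv enl Marks FlowIn)
open Vale.Agent.P167.H825.Q (Row Bc)
open Vale.Agent.P167.H680.T (rowC uI frows)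
open Vale.Agent.P167.QX (RT TB TO fLp VisL)
open Vale.Agent.P167.H685 (LE)
open Vale.Agent.P167.H562.QM (MajA)
open Vale.Agent.P167.H562.MAJ (Sm)
open Vale.Agent.P167.H662 (hsite)
open Vale.Agent.P167.H945.Q (Tc)
open Vale.Agent.P167.H506.Q (EF)
open Vale.Agent.P167.Enl (R0)

variable {l : ℕ}

/-- The boxes of the holes. -/
noncomputable def hB (p : ZMod l → ℤ × ℤ) (Q : Marks) (n : ℕ) (R : ℤ) : Finset (ℤ × ℤ) :=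
  univ.biUnion fun x : Fin l × Fin (Q.m + 1) => Bq (hsite p Q n x) R

/-- The factors of the tips. -/
noncomputable def Ttip {ι : Type} [Fintype ι] (θ : ℝ) (r : ι → Row) (ρ : ℤ) (ω : Cfg) : ℝ :=
  ∏ x, Tc θ (uI r) (r x) 0 ρ ω * Tc θ (uI r) (r x) 1 ρ ω

/-- The factors of the junctions. -/
noncomputable def Tjun {ι : Type} [Fintype ι] (θ : ℝ) (r : ι → Row) (ρ : ℤ) (ω : Cfg) : ℝ :=
  ∏ x, Tc θ (uI r) (r x) 2 ρ ω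

/-- The configuration has the frozen values on the rows. -/
def Frz {ι : Type} (r : ι → Row) (ω : Cfg) : Prop := ∀ x, ∀ v ∈ (r x).I, ω v = (r x).fr v

/-- **(L1S) The law-free majorant** of the functional of a frame with holes of size `δ n`; the
constants do not depend on `δ`. `N₁`: segments of diameter `δ n / 64` at the holes, `N₂`: segments of
diameter `κ' n`. -/
def L1S (θ β : ℝ) : Prop :=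
  ∀ (l : ℕ) [NeZero l] (p : ZMod l → ℤ × ℤ) (S₀ : Finset (ℤ × ℤ)), IsPolygon p → Encloses p S₀ →
  ∀ Q : Marks, Q.Ok → ∀ bc : Bc, bc.Ok l Q → ∀ (κ B : ℝ), 0 < κ →
  ∃ κ₁ : ℝ, 0 < κ₁ ∧ ∀ κ' : ℝ, 0 < κ' → κ' < κ₁ → ∃ A δ₀ : ℝ, 1 ≤ A ∧ 0 < δ₀ ∧
  ∀ δ : ℝ, 0 < δ → δ < δ₀ → ∀ᶠ n : ℕ in atTop, ∀ c : Ed → ℝ, (Function.support c).Finite →
  FlowIn (enl S₀ n) κ B n c → ∀ ω : Cfg, Good ω → Frz (frows θ β p Q n ⌊δ * (n : ℝ)⌋₊ bc) ω →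
  ∀ (Z : Finset (ℤ × ℤ)) (N₁ N₂ : ℕ), (∀ v : ℤ × ℤ, (nm v : ℝ) ≤ (R0 p S₀ + 4) * n → v ∈ Z) →
  MajA (hB p Q n ⌊4 * δ * n⌋) (δ * n / 64) ω N₁ → MajA Z (κ' * n) ω N₂ →
  |RT θ (uI (frows θ β p Q n ⌊δ * (n : ℝ)⌋₊ bc))
      (rowC θ (frows θ β p Q n ⌊δ * (n : ℝ)⌋₊ bc) c).ph ω| ≤
    (∏ x, (2 * Real.sin θ) ^ ((frows θ β p Q n ⌊δ * (n : ℝ)⌋₊ bc x).L + 1)) *
      (A ^ (N₁ + N₂ + 1) * Real.exp (-(Real.tan θ * Sm (dv c) (κ' * n) ω)) *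
        (Ttip θ (frows θ β p Q n ⌊δ * (n : ℝ)⌋₊ bc) ⌊δ * n / 16⌋ ω *
          Tjun θ (frows θ β p Q n ⌊δ * (n : ℝ)⌋₊ bc) ⌊4 * κ' * n⌋ ω))

/-- The loops which visit the boxes of radius `R` at the holes stay in boxes of radius `R'` (one of
the boxes). -/
def Cnf (p : ZMod l → ℤ × ℤ) (Q : Marks) (n : ℕ) (R R' : ℤ) (ω : Cfg) : Prop :=
  ∀ ℓ, IsLoop ω ℓ → VisL (hB p Q n R) ℓ → ∃ x, ∀ v ∈ vs ℓ, v ∈ Bq (hsite p Q n x) R'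

/-- **(L2S) The loops of the frame without flow.** (a), (b): loops which do not visit the boxes of
radius `δ n + 4`; (c): the product over the loops off the holes does not depend on the squares of the
domain; (d): lower bound, loops at the holes; (e): lower bound, loops off the holes. -/
def L2S (θ β : ℝ) : Prop :=
  ∀ (l : ℕ) [NeZero l] (p : ZMod l → ℤ × ℤ) (S₀ : Finset (ℤ × ℤ)), IsPolygon p → Encloses p S₀ →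
  ∀ Q : Marks, Q.Ok → ∀ bc : Bc, bc.Ok l Q →
  ∃ κ₁ : ℝ, 0 < κ₁ ∧ ∀ κ' : ℝ, 0 < κ' → κ' < κ₁ → ∃ A δ₀ : ℝ, 1 ≤ A ∧ 0 < δ₀ ∧
  ∀ δ : ℝ, 0 < δ → δ < δ₀ → ∀ᶠ n : ℕ in atTop, ∀ ω : Cfg, Good ω →
  Frz (frows θ β p Q n ⌊δ * (n : ℝ)⌋₊ bc) ω →
  -- (a), (b)
  (∀ ℓ ∈ LE ω (bS (uI (frows θ β p Q n ⌊δ * (n : ℝ)⌋₊ bc))),
    ¬ VisL (hB p Q n (⌊δ * (n : ℝ)⌋₊ + 4)) ℓ →
    0 ≤ fLp θ (uI (frows θ β p Q n ⌊δ * (n : ℝ)⌋₊ bc))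
        (rowC θ (frows θ β p Q n ⌊δ * (n : ℝ)⌋₊ bc) 0).ph ω ℓ ∧
    ((∃ x, ∀ v ∈ vs ℓ, v ∈ Bq (hsite p Q n x) ⌊κ₁ * n⌋) →
      fLp θ (uI (frows θ β p Q n ⌊δ * (n : ℝ)⌋₊ bc))
        (rowC θ (frows θ β p Q n ⌊δ * (n : ℝ)⌋₊ bc) 0).ph ω ℓ = 1)) ∧
  -- (c)
  (∀ (R₃ : ℤ) (ω' : Cfg), (⌊δ * (n : ℝ)⌋₊ + 4 : ℤ) ≤ R₃ → Good ω' →
    Frz (frows θ β p Q n ⌊δ * (n : ℝ)⌋₊ bc) ω' → Cnf p Q n R₃ ⌊κ₁ * n⌋ ω →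
    Cnf p Q n R₃ ⌊κ₁ * n⌋ ω' → (∀ v ∉ enl S₀ n, v ∉ hB p Q n R₃ → ω v = ω' v) →
    TO θ (uI (frows θ β p Q n ⌊δ * (n : ℝ)⌋₊ bc))
        (rowC θ (frows θ β p Q n ⌊δ * (n : ℝ)⌋₊ bc) 0).ph (hB p Q n R₃) ω =
      TO θ (uI (frows θ β p Q n ⌊δ * (n : ℝ)⌋₊ bc))
        (rowC θ (frows θ β p Q n ⌊δ * (n : ℝ)⌋₊ bc) 0).ph (hB p Q n R₃) ω') ∧
  -- (d)
  (∀ (R₁ : ℤ) (N₁ : ℕ), ⌊4 * δ * n⌋ ≤ R₁ → Cnf p Q n R₁ ⌊κ₁ * n⌋ ω →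
    MajA (hB p Q n ⌊4 * δ * n⌋) (δ * n / 64) ω N₁ →
    Ttip θ (frows θ β p Q n ⌊δ * (n : ℝ)⌋₊ bc) ⌊δ * n / 16⌋ ω ≤
      A ^ (N₁ + 1) * TB θ (uI (frows θ β p Q n ⌊δ * (n : ℝ)⌋₊ bc))
        (rowC θ (frows θ β p Q n ⌊δ * (n : ℝ)⌋₊ bc) 0).ph (hB p Q n R₁) ω) ∧
  -- (e)
  (∀ (R₃ : ℤ) (Z : Finset (ℤ × ℤ)) (N₂ : ℕ), (⌊δ * (n : ℝ)⌋₊ + 4 : ℤ) ≤ R₃ →
    Cnf p Q n R₃ ⌊κ₁ * n⌋ ω →
    (∀ v : ℤ × ℤ, (nm v : ℝ) ≤ (R0 p S₀ + 4) * n → v ∈ Z) → MajA Z (κ' * n) ω N₂ →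
    TO θ (uI (frows θ β p Q n ⌊δ * (n : ℝ)⌋₊ bc))
        (rowC θ (frows θ β p Q n ⌊δ * (n : ℝ)⌋₊ bc) 0).ph (hB p Q n R₃) ω ≠ 0 →
    Tjun θ (frows θ β p Q n ⌊δ * (n : ℝ)⌋₊ bc) ⌊4 * κ' * n⌋ ω ≤
      A ^ (N₂ + 1) * TO θ (uI (frows θ β p Q n ⌊δ * (n : ℝ)⌋₊ bc))
        (rowC θ (frows θ β p Q n ⌊δ * (n : ℝ)⌋₊ bc) 0).ph (hB p Q n R₃) ω)

/-- **(P2S)** The event that the product over the loops off the holes is not zero (no large exterior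
strand over a junction or base point of zero type), given the factors of the junctions, uniformly in
the size of the holes. -/
def P2S (θ β : ℝ) (P : Measure Cfg) : Prop :=
  ∀ (l : ℕ) [NeZero l] (p : ZMod l → ℤ × ℤ) (S₀ : Finset (ℤ × ℤ)), IsPolygon p → Encloses p S₀ →
  ∀ Q : Marks, Q.Ok → ∀ bc : Bc, bc.Ok l Q →
  ∃ κ₁ : ℝ, 0 < κ₁ ∧ ∀ κ' : ℝ, 0 < κ' → κ' < κ₁ → ∃ C δ₀ κ₃ : ℝ, 0 < C ∧ 0 < δ₀ ∧ 0 < κ₃ ∧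
  ∀ δ : ℝ, 0 < δ → δ < δ₀ → ∀ᶠ n : ℕ in atTop, ∀ σ : Cfg,
  Frz (frows θ β p Q n ⌊δ * (n : ℝ)⌋₊ bc) σ → ∀ R₃ : ℤ, (⌊δ * (n : ℝ)⌋₊ + 4 : ℤ) ≤ R₃ →
  (R₃ : ℝ) ≤ κ₃ * n →
  EF P (uI (frows θ β p Q n ⌊δ * (n : ℝ)⌋₊ bc)) σ
      (Tjun θ (frows θ β p Q n ⌊δ * (n : ℝ)⌋₊ bc) ⌊4 * κ' * n⌋) ≤
    C * EF P (uI (frows θ β p Q n ⌊δ * (n : ℝ)⌋₊ bc)) σ
      (fun ω => Tjun θ (frows θ β p Q n ⌊δ * (n : ℝ)⌋₊ bc) ⌊4 * κ' * n⌋ ω *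
        {ω | TO θ (uI (frows θ β p Q n ⌊δ * (n : ℝ)⌋₊ bc))
          (rowC θ (frows θ β p Q n ⌊δ * (n : ℝ)⌋₊ bc) 0).ph (hB p Q n R₃) ω ≠ 0}.indicator 1 ω)

end Vale.Agent.P167.H398.Q
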