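import Vale.Agent.P167.H398.Q.Scl

/-!
# P167, general `q`, block Q-START: choice of the scales (2)
-/

namespace Vale.Agent.P167.H398.Q

open Filter

/-- The scales `κ₃ < κ₄` and the ratio `s₂`. -/
theorem exists_scales {κb κd κe κ g t₆ t₇ ρ : ℝ} (h1 : 0 < κb) (h2 : 0 < κd) (h3 : 0 < κe)
    (h5 : 0 < κ) (h6 : 0 < g) (ht₆ : 0 < t₆) (ht₇ : 0 < t₇) (hρ : 0 < ρ) (hρ1 : ρ < 1) :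
    ∃ κ₃ κ₄ s₂ : ℝ, (0 < κ₃ ∧ 0 < κ₄ ∧ 0 < s₂) ∧ (κ₄ ≤ κb ∧ κ₄ ≤ κd ∧ κ₄ ≤ κe) ∧
      (κ₄ ≤ κ / 2 ∧ κ₄ ≤ g / 8) ∧
      (κ₃ ≤ t₆ * κ₄ ∧ κ₃ ≤ t₇ * κ₄ ∧ κ₃ ≤ t₇ ∧ κ₃ ≤ ρ / 2 * κ₄ ∧ κ₃ ≤ κ₄ / 2) ∧
      (4 ≤ t₇ * s₂ ∧ 4 ≤ ρ / 2 * s₂ ∧ 8 ≤ s₂) := by
  obtain ⟨κ₄, hκ₄, H⟩ := exists_lt_all [κb, κd, κe, κ / 2, g / 8] (by
    simp only [List.mem_cons, List.not_mem_nil, or_false]
    rintro x (rfl | rfl | rfl | rfl | rfl) <;> positivity)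
  obtain ⟨κ₃, hκ₃, H'⟩ := exists_lt_all [t₆ * κ₄, t₇ * κ₄, t₇, ρ / 2 * κ₄, κ₄ / 2] (by
    simp only [List.mem_cons, List.not_mem_nil, or_false]
    rintro x (rfl | rfl | rfl | rfl | rfl) <;> positivity)
  refine ⟨κ₃, κ₄, max (4 / t₇) (8 / ρ), ⟨hκ₃, hκ₄, by positivity⟩,
    ⟨(H _ (by simp)).le, (H _ (by simp)).le, (H _ (by simp)).le⟩,
    ⟨(H _ (by simp)).le, (H _ (by simp)).le⟩,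
    ⟨(H' _ (by simp)).le, (H' _ (by simp)).le, (H' _ (by simp)).le, (H' _ (by simp)).le,
      (H' _ (by simp)).le⟩, ?_, ?_, ?_⟩
  · have := le_max_left (4 / t₇) (8 / ρ)
    rw [div_le_iff₀ ht₇] at this
    linarith
  · have := le_max_right (4 / t₇) (8 / ρ)
    rw [div_le_iff₀ hρ] at this
    linarith
  · refine le_trans ?_ (le_max_right _ _)
    rw [le_div_iff₀ hρ]
    linarith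

/-- The radii for one `n`. -/
theorem scale_n {δ s₂ κ₃ κ₄ κb κ κ' g : ℝ} {n : ℕ} (hδ : 0 < δ) (hn : 16 ≤ δ * n) (hs : 8 ≤ s₂)
    (hsδ : s₂ * δ ≤ κ₃) (h34 : κ₃ ≤ κ₄ / 2) (h4 : 16 ≤ κ₄ * n) (h4b : κ₄ ≤ κb)
    (h4κ : κ₄ ≤ κ / 2) (hκ : 8 ≤ κ * n) (h4g : κ₄ ≤ g / 8) (hκ'g : κ' ≤ g / 32)
    (hg : 32 ≤ g * n) :
    (⌊δ * n⌋₊ : ℤ) + 4 ≤ ⌊4 * δ * n⌋ ∧ ⌊4 * δ * (n : ℝ)⌋ + 4 ≤ ⌊s₂ * δ * n⌋ ∧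
      ⌊s₂ * δ * (n : ℝ)⌋ ≤ ⌊κ₃ * n⌋ ∧ ⌊κ₃ * (n : ℝ)⌋ + 4 ≤ ⌊κ₄ * n⌋ ∧
      ⌊κ₄ * (n : ℝ)⌋ ≤ ⌊κb * n⌋ ∧ (⌊κ₄ * (n : ℝ)⌋ : ℝ) + 2 ≤ κ * n ∧
      (2 * (⌊κ₄ * (n : ℝ)⌋ + 4 * κ' * n) : ℝ) + 12 < g * n := by
  have hn0 : (0 : ℝ) ≤ n := Nat.cast_nonneg n
  have f1 : ((⌊δ * (n : ℝ)⌋₊ : ℕ) : ℝ) ≤ δ * n := Nat.floor_le (by positivity)
  have f2 := Int.lt_floor_add_one (4 * δ * (n : ℝ))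
  have f3 := Int.floor_le (4 * δ * (n : ℝ))
  have f4 := Int.lt_floor_add_one (s₂ * δ * (n : ℝ))
  have f5 := Int.floor_le (κ₃ * (n : ℝ))
  have f6 := Int.lt_floor_add_one (κ₄ * (n : ℝ))
  have f7 := Int.floor_le (κ₄ * (n : ℝ))
  have m1 : 8 * (δ * n) ≤ s₂ * (δ * n) := mul_le_mul_of_nonneg_right hs (by linarith)
  have m2 : κ₃ * n ≤ κ₄ / 2 * n := mul_le_mul_of_nonneg_right h34 hn0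
  have m3 : κ₄ * n ≤ κ / 2 * n := mul_le_mul_of_nonneg_right h4κ hn0
  have m4 : κ₄ * n ≤ g / 8 * n := mul_le_mul_of_nonneg_right h4g hn0
  have m5 : κ' * n ≤ g / 32 * n := mul_le_mul_of_nonneg_right hκ'g hn0
  refine ⟨?_, ?_, Int.floor_le_floor (mul_le_mul_of_nonneg_right hsδ hn0), ?_,
    Int.floor_le_floor (mul_le_mul_of_nonneg_right h4b hn0), by linarith, by linarith⟩
  · have : (((⌊δ * (n : ℝ)⌋₊ : ℤ) + 4 : ℤ) : ℝ) < ((⌊4 * δ * (n : ℝ)⌋ + 1 : ℤ) : ℝ) := by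
      push_cast
      linarith
    have := Int.cast_lt.1 this
    omega
  · have : ((⌊4 * δ * (n : ℝ)⌋ + 4 : ℤ) : ℝ) < ((⌊s₂ * δ * (n : ℝ)⌋ + 1 : ℤ) : ℝ) := by
      push_cast
      linarith
    have := Int.cast_lt.1 this
    omega
  · have : ((⌊κ₃ * (n : ℝ)⌋ + 4 : ℤ) : ℝ) < ((⌊κ₄ * (n : ℝ)⌋ + 1 : ℤ) : ℝ) := by
      push_cast
      linarith
    have := Int.cast_lt.1 this
    omega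

end Vale.Agent.P167.H398.Q
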