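import Vale.Agent.P167.H398.Q.FrS
import Vale.Agent.P167.H398.Q.Scn
import Vale.Agent.P167.H680.T.Pos

/-!
# P167, general `q`, block Q-START: the statements of `STARTR` for one `n`
-/

namespace Vale.Agent.P167.H398.Q

open Finset MeasureTheory Filter
open Vale.Agent.P167.BR hiding dv
open Vale.Agent.P167.E6 (IsPolygon Encloses)
open Vale.Agent.P167.XDL (bS)
open Vale.Agent.P167.FK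
open Vale.Agent.P167.FKA (Loc Ind ArmDec)
open Vale.Agent.P167.H825 (dv enl Marks FlowIn)
open Vale.Agent.P167.H825.Q (Row Bc VT)
open Vale.Agent.P167.H680.T (rowC uI frows flowIn_zero mem_uI)
open Vale.Agent.P167.H519 (IsLim)
open Vale.Agent.P167.H662 (hsite)
open Vale.Agent.P167.H199 (Gap)
open Vale.Agent.P167.H685 (LE)
open Vale.Agent.P167.H562.QM (MajA)
open Vale.Agent.P167.H562.MAJ (Sm)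
open Vale.Agent.P167.H945.Q (Tc TT rad Zp)
open Vale.Agent.P167.H506.Q (EF fz)
open Vale.Agent.P167.QX (RT TB TO fLp VisL)
open Vale.Agent.P167.Enl (tB BGap R0)

theorem flow_mono {D : Finset (ℤ × ℤ)} {κ B : ℝ} {n : ℕ} {c : Ed → ℝ} (h : FlowIn D κ B n c) :
    FlowIn D κ |B| n c where
  sup := h.sup
  cle e := (h.cle e).trans (div_le_div_of_nonneg_right (le_abs_self B) (Nat.cast_nonneg _))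
  dle z := (h.dle z).trans (div_le_div_of_nonneg_right (le_abs_self B) (by positivity))

theorem int_EF {P : Measure Cfg} {K : Finset (ℤ × ℤ)} {σ : Cfg} (hp : 0 < ∫ ω, fz K σ ω ∂P)
    (F : Cfg → ℝ) : ∫ ω, fz K σ ω * F ω ∂P = (∫ ω, fz K σ ω ∂P) * EF P K σ F := by
  unfold EF
  field_simp

/-- The last step: from `EF` to the integrals. -/
theorem fin_step {P : Measure Cfg} {K : Finset (ℤ × ℤ)} {σ : Cfg} (hp : 0 < ∫ ω, fz K σ ω ∂P)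
    {Rc R0 : Cfg → ℝ} {V ε : ℝ} (h : |EF P K σ Rc - V * EF P K σ R0| ≤ ε * EF P K σ R0) :
    |∫ ω, fz K σ ω * Rc ω ∂P - (∫ ω, fz K σ ω * R0 ω ∂P) * V| ≤
      ε * ∫ ω, fz K σ ω * R0 ω ∂P := by
  rw [int_EF hp, int_EF hp]
  have e : (∫ ω, fz K σ ω ∂P) * EF P K σ Rc - (∫ ω, fz K σ ω ∂P) * EF P K σ R0 * V =
      (∫ ω, fz K σ ω ∂P) * (EF P K σ Rc - V * EF P K σ R0) := by ring
  rw [e, abs_mul, abs_of_pos hp]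
  calc _ ≤ (∫ ω, fz K σ ω ∂P) * (ε * EF P K σ R0) := mul_le_mul_of_nonneg_left h hp.le
    _ = _ := by ring

theorem fin_low {P : Measure Cfg} {K : Finset (ℤ × ℤ)} {σ : Cfg} (hp : 0 < ∫ ω, fz K σ ω ∂P)
    {T R0 : Cfg → ℝ} {k Z C C' : ℝ} (hk : 0 ≤ k) (hC : 0 < C) (hC' : 0 < C')
    (h : k * EF P K σ T ≤ 2 * C * EF P K σ R0) (hZ : Z ≤ C' * ∫ ω, fz K σ ω * T ω ∂P) :
    1 / (2 * C * C') * (k * Z) ≤ ∫ ω, fz K σ ω * R0 ω ∂P := by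
  rw [int_EF hp] at hZ ⊢
  rw [div_mul_eq_mul_div, one_mul, div_le_iff₀ (by positivity)]
  calc k * Z ≤ k * (C' * ((∫ ω, fz K σ ω ∂P) * EF P K σ T)) := mul_le_mul_of_nonneg_left hZ hk
    _ = C' * (∫ ω, fz K σ ω ∂P) * (k * EF P K σ T) := by ring
    _ ≤ C' * (∫ ω, fz K σ ω ∂P) * (2 * C * EF P K σ R0) :=
        mul_le_mul_of_nonneg_left h (by positivity)
    _ = _ := by ring

variable {l : ℕ} {θ β : ℝ} {p : ZMod l → ℤ × ℤ} {S₀ : Finset (ℤ × ℤ)} {Q : Marks} {bc : Bc}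
  {n : ℕ} {g δ κ κ' B : ℝ} {r : Fin l × Fin (Q.m + 1) → Row} {P : Measure Cfg}


/-- **START for one `n`.** -/
theorem start_n (hr : r = frows θ β p Q n ⌊δ * (n : ℝ)⌋₊ bc) (h0 : 0 < θ)
    (h1 : θ ≤ Real.pi / 3)
    (hβ : Real.cos (θ / 2 + β) = Real.sin θ) (hP : IsLim (2 * Real.cos θ) P)
    (hgd : ∀ᵐ ω ∂P, Good ω) {α C₀ : ℝ} (hdec : ArmDec (2 * Real.cos θ) α C₀)
    (hC₀ : 0 ≤ C₀)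
    (hp : IsPolygon p) (hD : Encloses p S₀) (hQ : Q.Ok) (hb : bc.Ok l Q) (hg : Gap Q l g)
    (hbg : BGap l Q g bc) (hδ : 0 < δ) (hδg : 4 * δ ≤ g) (hn : 16 ≤ δ * n) (hκ' : 0 ≤ κ')
    -- the rows
    {κp : ℝ} (hκp : 1 < κp * n)
    (np : (∀ x, (r x).Ok θ δ n) ∧ ∀ c : Ed → ℝ, FlowIn (enl S₀ n) κ |B| n c →
      (rowC θ r c).Adm κp (R0 p S₀ + 3) |B| n)
    -- the scales
    {s₂ κ₃ κ₄ κb : ℝ} (hs : 8 ≤ s₂)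
    (hsδ : s₂ * δ ≤ κ₃) (h34 : κ₃ ≤ κ₄ / 2) (h4 : 16 ≤ κ₄ * n) (h4b : κ₄ ≤ κb)
    (h4κ : κ₄ ≤ κ / 2) (hκ : 8 ≤ κ * n) (h4g : κ₄ ≤ g / 8) (hκ'g : κ' ≤ g / 32)
    (hgn : 32 ≤ g * n) {N : ℕ} (hN : (univ : Finset (Fin l × Fin (Q.m + 1))).card = N)
    (hN1 : 1 ≤ N) {ε η lm ε1 ρ ρm : ℝ} (hε : 0 < ε)
    (hρη : ∀ x : ℝ, 0 ≤ x → x ≤ ρ → N * (C₀ * x ^ α) ≤ η / 2)
    (hρε : ∀ x : ℝ, 0 ≤ x → x ≤ ρm → (8 * N : ℕ) * (C₀ * x ^ α) ≤ ε1)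
    (q1 : 0 < ((⌊s₂ * δ * n⌋ - 1 : ℤ) : ℝ) ∧
      0 ≤ ((⌊4 * δ * n⌋ + 1 : ℤ) : ℝ) / ((⌊s₂ * δ * n⌋ - 1 : ℤ) : ℝ) ∧
      ((⌊4 * δ * n⌋ + 1 : ℤ) : ℝ) / ((⌊s₂ * δ * n⌋ - 1 : ℤ) : ℝ) ≤ ρ)
    (q2 : 0 < ((⌊κ₄ * n⌋ - 1 : ℤ) : ℝ) ∧
      0 ≤ ((⌊κ₃ * n⌋ + 1 : ℤ) : ℝ) / ((⌊κ₄ * n⌋ - 1 : ℤ) : ℝ) ∧
      ((⌊κ₃ * n⌋ + 1 : ℤ) : ℝ) / ((⌊κ₄ * n⌋ - 1 : ℤ) : ℝ) ≤ ρ)
    (q3 : 0 < ((⌊κ₃ * n⌋ - 1 : ℤ) : ℝ) ∧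
      0 ≤ ((⌊s₂ * δ * n⌋ + 1 : ℤ) : ℝ) / ((⌊κ₃ * n⌋ - 1 : ℤ) : ℝ) ∧
      ((⌊s₂ * δ * n⌋ + 1 : ℤ) : ℝ) / ((⌊κ₃ * n⌋ - 1 : ℤ) : ℝ) ≤ ρm)
    (hlm : 0 < lm) (hε1 : 0 < ε1) (hε1' : ε1 ≤ 1 / 2)
    -- the inputs
    {A A₂ M M' C₇ C₃ : ℝ} (hM : 0 < M) (hA₂ : 1 ≤ A₂) (hC₇ : 0 < C₇) (hC₃ : 0 < C₃)
    (he1 : (lm * M + η / lm) / 2 * C₇ ≤ 1 / 2)
    (he2 : 2 * ((lm * M + η / lm) / 2 * C₇ * (1 + M') + 2 * (2 * ε1 * M' + ε / 16)) ≤ ε)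
    (na : ∀ c : Ed → ℝ, (Function.support c).Finite → FlowIn (enl S₀ n) κ |B| n c →
      ∀ ω : Cfg, Good ω → Frz r ω → ∀ (Z : Finset (ℤ × ℤ)) (N₁ N₂ : ℕ),
      (∀ v : ℤ × ℤ, (nm v : ℝ) ≤ (R0 p S₀ + 4) * n → v ∈ Z) →
      MajA (hB p Q n ⌊4 * δ * n⌋) (δ * n / 64) ω N₁ → MajA Z (κ' * n) ω N₂ →
      |RT θ (uI r) (rowC θ r c).ph ω| ≤ (∏ x, (2 * Real.sin θ) ^ ((r x).L + 1)) *
        (A ^ (N₁ + N₂ + 1) * Real.exp (-(Real.tan θ * Sm (dv c) (κ' * n) ω)) *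
          (Ttip θ r ⌊δ * n / 16⌋ ω * Tjun θ r ⌊4 * κ' * n⌋ ω)))
    (nb1 : ∀ ω : Cfg, Good ω → Frz r ω → ∀ ℓ ∈ LE ω (bS (uI r)),
      ¬ VisL (hB p Q n (⌊δ * (n : ℝ)⌋₊ + 4)) ℓ → 0 ≤ fLp θ (uI r) (rowC θ r 0).ph ω ℓ ∧
      ((∃ x, ∀ v ∈ vs ℓ, v ∈ Bq (hsite p Q n x) ⌊κb * n⌋) →
        fLp θ (uI r) (rowC θ r 0).ph ω ℓ = 1))
    (nb2 : ∀ ω : Cfg, Good ω → Frz r ω → ∀ (R₁ : ℤ) (N₁ : ℕ), ⌊4 * δ * n⌋ ≤ R₁ →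
      Cnf p Q n R₁ ⌊κb * n⌋ ω → MajA (hB p Q n ⌊4 * δ * n⌋) (δ * n / 64) ω N₁ →
      Ttip θ r ⌊δ * n / 16⌋ ω ≤ A₂ ^ (N₁ + 1) * TB θ (uI r) (rowC θ r 0).ph (hB p Q n R₁) ω)
    (nc : ∀ σ : Cfg, Frz r σ → ∃ (Z B₁ B₂ : Finset (ℤ × ℤ)) (N₁ N₂ : Cfg → ℕ),
      (∀ v : ℤ × ℤ, (nm v : ℝ) ≤ (R0 p S₀ + 4) * n → v ∈ Z) ∧
      (∀ ω ω' : Cfg, (∀ v ∈ B₁, ω v = ω' v) → N₁ ω = N₁ ω') ∧
      (∀ ω ω' : Cfg, (∀ v ∈ B₂, ω v = ω' v) → N₂ ω = N₂ ω') ∧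
      (∀ ω, Good ω → MajA (hB p Q n ⌊4 * δ * n⌋) (δ * n / 64) ω (N₁ ω)) ∧
      (∀ ω, Good ω → MajA Z (κ' * n) ω (N₂ ω)) ∧
      (∀ c : Ed → ℝ, (Function.support c).Finite → FlowIn (enl S₀ n) κ |B| n c →
      EF P (uI r) σ (fun ω => Ttip θ r ⌊δ * n / 16⌋ ω * Tjun θ r ⌊4 * κ' * n⌋ ω *
          (A ^ (N₁ ω + N₂ ω + 1) * Real.exp (-(Real.tan θ * Sm (dv c) (κ' * n) ω))) ^ 2) ≤
      M * EF P (uI r) σ (fun ω => Ttip θ r ⌊δ * n / 16⌋ ω * Tjun θ r ⌊4 * κ' * n⌋ ω)))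
    (nd : ∀ σ : Cfg, Frz r σ → ∀ c : Ed → ℝ, (Function.support c).Finite →
      FlowIn (enl S₀ n) κ |B| n c →
      |EF P (uI r) σ (Gf θ β p S₀ Q bc n ⌊δ * (n : ℝ)⌋₊ c ⌊κ₃ * n⌋ ⌊κ₄ * n⌋) -
        VT θ β p S₀ n (tB n Q) (bc.ka l n (tB n Q)) (dv c) *
          EF P (uI r) σ (Gf θ β p S₀ Q bc n ⌊δ * (n : ℝ)⌋₊ 0 ⌊κ₃ * n⌋ ⌊κ₄ * n⌋)| ≤
        ε / 16 * EF P (uI r) σ (Gf θ β p S₀ Q bc n ⌊δ * (n : ℝ)⌋₊ 0 ⌊κ₃ * n⌋ ⌊κ₄ * n⌋) ∧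
      EF P (uI r) σ (fun ω => |Gf θ β p S₀ Q bc n ⌊δ * (n : ℝ)⌋₊ c ⌊κ₃ * n⌋ ⌊κ₄ * n⌋ ω|) ≤
        M' * EF P (uI r) σ (Gf θ β p S₀ Q bc n ⌊δ * (n : ℝ)⌋₊ 0 ⌊κ₃ * n⌋ ⌊κ₄ * n⌋) ∧
      |VT θ β p S₀ n (tB n Q) (bc.ka l n (tB n Q)) (dv c)| ≤ M')
    (ne : ∀ σ : Cfg, Frz r σ →
      EF P (uI r) σ (fun ω => Ttip θ r ⌊δ * n / 16⌋ ω * Tjun θ r ⌊4 * κ' * n⌋ ω) ≤
      C₇ * EF P (uI r) σ (fun ω => Gf θ β p S₀ Q bc n ⌊δ * (n : ℝ)⌋₊ 0 ⌊κ₃ * n⌋ ⌊κ₄ * n⌋ ω *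
        T2f θ β p Q bc n ⌊δ * (n : ℝ)⌋₊ ⌊4 * δ * n⌋ ⌊s₂ * δ * n⌋ ω))
    (nf : ∀ σ : Cfg, Frz r σ → ∏ x, ∫ ω, fz (r x).I (r x).fr ω *
      TT θ (r x).I (r x) (rad (r x)) ω ∂P ≤
      C₃ * ∫ ω, fz (uI r) σ ω * (Ttip θ r ⌊δ * n / 16⌋ ω * Tjun θ r ⌊4 * κ' * n⌋ ω) ∂P)
    {σ : Cfg} (hσ : Frz r σ) :
    1 / (2 * C₇ * C₃) * ∏ x, Zp θ P n (r x) ≤
      ∫ ω, fz (uI r) σ ω * RT θ (uI r) (rowC θ r 0).ph ω ∂P ∧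
    ∀ c : Ed → ℝ, (Function.support c).Finite → FlowIn (enl S₀ n) κ B n c →
      |∫ ω, fz (uI r) σ ω * RT θ (uI r) (rowC θ r c).ph ω ∂P -
        (∫ ω, fz (uI r) σ ω * RT θ (uI r) (rowC θ r 0).ph ω ∂P) *
          VT θ β p S₀ n (tB n Q) (bc.ka l n (tB n Q)) (dv c)| ≤
        ε * ∫ ω, fz (uI r) σ ω * RT θ (uI r) (rowC θ r 0).ph ω ∂P := by
  have hPp : IsProbabilityMeasure P := hP.1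
  have hpi := Real.pi_pos
  have hs0 : 0 < Real.sin θ := Real.sin_pos_of_pos_of_lt_pi h0 (by linarith)
  obtain ⟨σ', hg', hσ'⟩ := H506.Q.exists_good (uI r) σ
  have hfz : fz (uI r) σ = fz (uI r) σ' := H825.S.fz_eq fun v hv => (hσ' v hv).symm
  rw [hfz]
  have hσF : Frz r σ' := frz_of hσ hσ'
  obtain ⟨s1, s2, s3, s4, s5, s6, s7⟩ := scale_n hδ hn hs hsδ h34 h4 h4b h4κ hκ h4g hκ'g hgn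
  have hp0 := H506.Q.fz_pos (H680.T.cos_le h0 h1) hP hgd (uI r) σ'
  obtain ⟨Z, B₁, B₂, N₁, N₂, z1, z2, z3, z4, z5, z6⟩ := nc σ' hσF
  have hL : ∀ x, 1 ≤ (r x).L := by
    intro x
    have h5 := (np.1 x).len
    have h6 : (0 : ℝ) < (r x).L := by linarith
    have h7 : 0 < (r x).L := by exact_mod_cast h6
    omega
  -- the arms
  have hd0 : 0 ≤ ⌊4 * δ * (n : ℝ)⌋ := Int.floor_nonneg.2 (by positivity)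
  have r3 := ratio_le (x := ⌊s₂ * δ * (n : ℝ)⌋) (y := ⌊κ₃ * (n : ℝ)⌋) (by omega) q3.1
  have e3 := hρε _ r3.1 (r3.2.trans q3.2.2)
  push_cast at e3
  have hx0 : 0 ≤ C₀ * ((⌊s₂ * δ * (n : ℝ)⌋ : ℝ) / ⌊κ₃ * (n : ℝ)⌋) ^ α :=
    mul_nonneg hC₀ (Real.rpow_nonneg r3.1 _)
  have hmix1 : C₀ * ((⌊s₂ * δ * (n : ℝ)⌋ : ℝ) / ⌊κ₃ * (n : ℝ)⌋) ^ α < 1 := by
    have hN' : (1 : ℝ) ≤ N := by exact_mod_cast hN1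
    have := mul_le_mul_of_nonneg_right hN' hx0
    linarith
  have e1 := hρη _ q1.2.1 q1.2.2
  have e2 := hρη _ q2.2.1 q2.2.2
  have key : ∀ c : Ed → ℝ, (Function.support c).Finite → FlowIn (enl S₀ n) κ |B| n c →
      |EF P (uI r) σ' (RT θ (uI r) (rowC θ r c).ph) -
        VT θ β p S₀ n (tB n Q) (bc.ka l n (tB n Q)) (dv c) *
          EF P (uI r) σ' (RT θ (uI r) (rowC θ r 0).ph)| ≤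
      2 * ((lm * M + η / lm) / 2 * C₇ * (1 + M') + 2 * (2 * ε1 * M' + ε / 16)) *
        EF P (uI r) σ' (RT θ (uI r) (rowC θ r 0).ph) ∧
      (∏ x, (2 * Real.sin θ) ^ ((r x).L + 1)) *
        EF P (uI r) σ' (fun ω => Ttip θ r ⌊δ * n / 16⌋ ω * Tjun θ r ⌊4 * κ' * n⌋ ω) ≤
      2 * C₇ * EF P (uI r) σ' (RT θ (uI r) (rowC θ r 0).ph) := fun c hc hf =>
    start_frm hr h0 h1 hβ hP hgd hdec hC₀ hp hD hQ hb hg hbg hδ hδg hn hσF hg' hκ'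
      (np.2 0 (flowIn_zero (abs_nonneg B))) hκp hL s1 le_rfl s2 s3 s4 s5 s6 s7
      (by rw [hN]; exact e3) hmix1 hε1.le hε1' (by positivity) (by rw [hN]; linarith) hM.le na
      nb1 (fun ω g1 g2 N₁ g3 g4 => nb2 ω g1 g2 _ N₁ le_rfl g3 g4) hA₂ z1 z2 z3 z4 z5 z6
      (nd σ' hσF) (ne σ' hσF) hC₇.le hlm he1 (abs_nonneg B) hc hf
  have hz : (Function.support (0 : Ed → ℝ)).Finite := by simp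
  have key0 := (key 0 hz (flowIn_zero (abs_nonneg B))).2
  have hk : 0 ≤ ∏ x, (2 * Real.sin θ) ^ ((r x).L + 1) := prod_nonneg fun _ _ => by positivity
  have hR0 : 0 ≤ EF P (uI r) σ' (RT θ (uI r) (rowC θ r 0).ph) := by
    have h5 : 0 ≤ (∏ x, (2 * Real.sin θ) ^ ((r x).L + 1)) *
        EF P (uI r) σ' (fun ω => Ttip θ r ⌊δ * n / 16⌋ ω * Tjun θ r ⌊4 * κ' * n⌋ ω) :=
      mul_nonneg hk (H506.Q.EF_nonneg fun ω =>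
        mul_nonneg (Ttip_nonneg h0 h1 ω) (Tjun_nonneg h0 h1 ω))
    exact nonneg_of_mul_nonneg_right (h5.trans key0) (by positivity)
  refine ⟨?_, fun c hc hf => ?_⟩
  · have e : ∏ x, Zp θ P n (r x) = (∏ x, (2 * Real.sin θ) ^ ((r x).L + 1)) *
        ∏ x, ∫ ω, fz (r x).I (r x).fr ω * TT θ (r x).I (r x) (rad (r x)) ω ∂P := by
      rw [← prod_mul_distrib]
      rfl
    rw [e]
    exact fin_low hp0 hk hC₇ hC₃ key0 (nf σ' hσF)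
  · exact fin_step hp0 ((key c hc (flow_mono hf)).1.trans
      (mul_le_mul_of_nonneg_right he2 hR0))

end Vale.Agent.P167.H398.Q
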