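import Vale.Agent.P167.H398.Q.Frm
import Vale.Agent.P167.QX.L1A

/-!
# P167, general `q`, block Q-START: the factors of the tips and of the junctions, the majorant
-/

namespace Vale.Agent.P167.H398.Q

open Finset MeasureTheory Filter
open Vale.Agent.P167.BR hiding dv
open Vale.Agent.P167.E6 (IsPolygon Encloses)
open Vale.Agent.P167.FK
open Vale.Agent.P167.FKA (Loc Ind ArmDec)
open Vale.Agent.P167.H825 (dv enl Marks FlowIn)
open Vale.Agent.P167.H825.Q (Row Bc)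
open Vale.Agent.P167.H680.T (rowC uI frows)
open Vale.Agent.P167.H662 (hsite)
open Vale.Agent.P167.H562.MAJ (Sm)
open Vale.Agent.P167.H945.Q (Tc)

variable {l : ℕ} {θ β : ℝ} {p : ZMod l → ℤ × ℤ} {S₀ : Finset (ℤ × ℤ)} {Q : Marks} {bc : Bc}
  {n d : ℕ} {ι : Type} {r : ι → Row} {ρ : ℤ} {c : Ed → ℝ}

theorem CB.prod {κ : Type*} {J : Finset κ} {F : κ → Cfg → ℝ} (h : ∀ i ∈ J, CB (F i)) :
    CB fun ω => ∏ i ∈ J, F i ω := by
  classical
  induction J using Finset.induction_on with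
  | empty => simp only [prod_empty]; exact CB.const 1
  | @insert i J hi ih =>
    simp only [prod_insert hi]
    exact (h i (mem_insert_self _ _)).mul (ih fun j hj => h j (mem_insert_of_mem hj))

theorem cb_Ttip [Fintype ι] : CB (Ttip θ r ρ) :=
  CB.prod fun _ _ => (CB.of_loc (H945.Q.Tc_loc _ _ _ _)).mul (CB.of_loc (H945.Q.Tc_loc _ _ _ _))

theorem cb_Tjun [Fintype ι] : CB (Tjun θ r ρ) :=
  CB.prod fun _ _ => CB.of_loc (H945.Q.Tc_loc _ _ _ _)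

theorem Ttip_nonneg [Fintype ι] (h0 : 0 < θ) (h1 : θ ≤ Real.pi / 3) (ω : Cfg) :
    0 ≤ Ttip θ r ρ ω := prod_nonneg fun _ _ =>
  mul_nonneg (H945.Q.Tc_nonneg h0 h1 _ _ _ _ _) (H945.Q.Tc_nonneg h0 h1 _ _ _ _ _)

theorem Tjun_nonneg [Fintype ι] (h0 : 0 < θ) (h1 : θ ≤ Real.pi / 3) (ω : Cfg) :
    0 ≤ Tjun θ r ρ ω := prod_nonneg fun _ _ => H945.Q.Tc_nonneg h0 h1 _ _ _ _ _

/-- The majorant is local. -/
theorem cb_maj (hc : (Function.support c).Finite) {B₁ B₂ : Finset (ℤ × ℤ)} {N₁ N₂ : Cfg → ℕ}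
    (h1 : ∀ ω ω' : Cfg, (∀ v ∈ B₁, ω v = ω' v) → N₁ ω = N₁ ω')
    (h2 : ∀ ω ω' : Cfg, (∀ v ∈ B₂, ω v = ω' v) → N₂ ω = N₂ ω') (A t d : ℝ) :
    CB fun ω => A ^ (N₁ ω + N₂ ω + 1) * Real.exp (-(t * Sm (dv c) d ω)) := by
  classical
  obtain ⟨F, hF⟩ := H562.MAJ.Sm_fd (f := dv c) (F := (QX.dv_fin hc).toFinset)
    (fun s hs => (Set.Finite.mem_toFinset _).2 hs) d
  refine CB.mul ?_ ?_
  · refine CB.of_loc (B := B₁ ∪ B₂) fun ω ω' h => ?_
    show A ^ (N₁ ω + N₂ ω + 1) = A ^ (N₁ ω' + N₂ ω' + 1)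
    rw [h1 ω ω' fun v hv => h v (mem_union_left _ hv),
      h2 ω ω' fun v hv => h v (mem_union_right _ hv)]
  · refine CB.of_loc (B := F) fun ω ω' h => ?_
    show Real.exp (-(t * Sm (dv c) d ω)) = Real.exp (-(t * Sm (dv c) d ω'))
    rw [hF ω ω' fun v hv => h v (Finset.mem_coe.1 hv)]


/-- The functional of the rows. -/
theorem cb_RTf [Fintype ι] (h0 : 0 < θ) (h1 : θ ≤ Real.pi / 3)
    (hc : (Function.support c).Finite) : CB (QX.RT θ (uI r) (rowC θ r c).ph) := by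
  have hc' : H680.T.Fc (rowC θ r c) := hc
  exact cb_RT (E := Set.Finite.toFinset (H680.T.fs_ph hc'))
    (fun e he b => by rw [(H680.T.fs_ph hc').off e he]; rfl) (H680.T.cos_le h0 h1)

end Vale.Agent.P167.H398.Q
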