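import Vale.Agent.P167.H398.Q.Zt1
import Vale.Agent.P167.H506.Q.P3a
import Vale.Agent.P167.H592.U.Near

/-!
# P167, general `q`, block P2S: the junction of zero type in the frame, locality

`frame_Tc` (T4), `e1_facts` (T6), locality and monotonicity of the events (T7).
-/

namespace Vale.Agent.P167.H398.Zt

open Finset Relation Vale.Agent.P167.FK Vale.Agent.P167.FKA
open Vale.Agent.P145.FB (PStep)
open Vale.Agent.P167.H632 (pr IncC)
open Vale.Agent.P167.H825.Q (Row Bc)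
open Vale.Agent.P167.H825 (pdir Marks)
open Vale.Agent.P167.H945.Q (face faces lrs SP jn Plain Tc ctr tj Tc_row Tc_nonneg)
open Vale.Agent.P167.H135.Z (st pc Sd bxJ Db Rc AR sd E1 Gd mem_bxJ mem_Db sd_face)
open Vale.Agent.P167.H506.Q (dr mem_Hs mem_Qs pc_eq E1_near E1_congr bxJ_sub k0_ok)
open Vale.Agent.P167.H166N (Hs Qs)
open Vale.Agent.P167.H135.Z renaming ov → ovz
open Vale.Agent.P167.H662.Z (K1 K3 crn ex yO Spc z1_crn frow_o)
open Vale.Agent.P167.E6 (IsPolygon Encloses)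
open Vale.Agent.P167.H680.T (uI frows mem_uI)
open Vale.Agent.P167.H199 (Gap)
open Vale.Agent.P167.Enl (BGap ctr_own2 frow_far frows_okg)

variable {θ β : ℝ} {r : Row} {b e c : Bool} {ω ω' : Cfg} {v z : ℤ × ℤ} {R s : ℤ} {x x' : Ed}
  {A : Finset (ℤ × ℤ)}

/-! ### (T6) -/

theorem pc_crn (r : Row) (b : Bool) : pc r b = crn r b := by
  obtain ⟨h1, h2⟩ := pc_eq r b
  ext
  · rw [h1]
    unfold crn Row.sq
    by_cases ho : r.o = true <;> simp [ho]
  · rw [h2]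
    unfold crn Row.sq
    by_cases ho : r.o = true <;> simp [ho]

/-- A site of the line of the face. -/
theorem st_mem (r : Row) (b : Bool) (t : ℤ) : st r b t ∈ Hs (dr r b) (pc r b) := by
  rw [mem_Hs]
  unfold st
  by_cases ho : r.o = true <;> cases b <;> simp [ho]

/-- Facts on the unique strand over the junction in a small box. -/
theorem e1_facts (hL : r.k0 ≤ r.L) (hω : ω ∈ E1 r b c x s) : x ∈ faces r b 0 r.L ∧
    nm (sd c x - pc r b) ≤ s ∧ ∃ t : ℕ, t ≤ r.L ∧ sd c x = st r b t := by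
  obtain ⟨⟨i, hi, hx⟩, h2, -⟩ := E1_near (c' := c) hω hL
  refine ⟨?_, h2, ?_⟩
  · rw [hx]
    exact mem_image_of_mem _ (mem_Ico.2 ⟨Nat.zero_le _, hi⟩)
  · rw [hx]
    rcases sd_face r b i c with ⟨h3, -⟩ | ⟨h3, -⟩
    · exact ⟨i, hi.le, h3⟩
    · exact ⟨i + 1, hi, by rw [h3]; push_cast; rfl⟩

theorem e1_unique (h : ω ∈ E1 r b c x s) (h' : ω ∈ E1 r b c x' s) : x = x' :=
  singleton_injective (h.1.symm.trans h'.1)

/-- The squares of the half box. -/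
theorem db_mem (hv : v ∈ Db r b R) : v ∈ Qs (dr r b) (pc r b) ∧ nm (v - pc r b) ≤ R := by
  rw [mem_Db, mem_bxJ] at hv
  refine ⟨mem_Qs.2 hv.2, ?_⟩
  obtain ⟨p1, p2⟩ := pc_eq r b
  rw [H632.nm_le]
  simp only [Prod.fst_sub, Prod.snd_sub, p1, p2]
  by_cases ho : r.o = true <;> cases b <;>
    simp only [ho, if_true, if_false, Bool.false_eq_true] at hv ⊢ <;> omega

/-! ### (T7) -/

theorem rc_congr (h : ∀ v ∈ A, ω v = ω' v) {u v : ℤ × ℤ} (hc : Rc c A ω u v) :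
    Rc c A ω' u v :=
  ReflTransGen.mono (fun _ _ hs => ⟨hs.1, hs.2.1, by
    show ω' _ = c
    rw [← h _ hs.2.2.2]; exact hs.2.2.1, hs.2.2.2⟩) _ _ hc

theorem ar_congr (h : ∀ v ∈ A, ω v = ω' v) : ω ∈ AR r b c A z R ↔ ω' ∈ AR r b c A z R := by
  constructor
  · rintro ⟨w, h1, h2⟩
    exact ⟨w, h1, rc_congr h h2⟩
  · rintro ⟨w, h1, h2⟩
    exact ⟨w, h1, rc_congr (fun v hv => (h v hv).symm) h2⟩

theorem ind_congr {S : Set Cfg} (h : ω ∈ S ↔ ω' ∈ S) :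
    S.indicator (1 : Cfg → ℝ) ω = S.indicator 1 ω' := by
  by_cases h1 : ω ∈ S
  · rw [Set.indicator_of_mem h1, Set.indicator_of_mem (h.1 h1)]
    rfl
  · rw [Set.indicator_of_notMem h1, Set.indicator_of_notMem fun h2 => h1 (h.2 h2)]

/-- An arm in the squares of `A` depends on the squares of `A`. -/
theorem ar_loc : Loc A ((AR r b c A z R).indicator 1) := fun _ _ h => ind_congr (ar_congr h)

theorem rc_inc {ω ω' : Cfg} (h : ∀ w, ω w = c → ω' w = c) {u v : ℤ × ℤ} (hc : Rc c A ω u v) :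
    Rc c A ω' u v :=
  ReflTransGen.mono (fun _ _ hs => ⟨hs.1, hs.2.1, h _ hs.2.2.1, hs.2.2.2⟩) _ _ hc

/-- Arms are increasing in their colour. -/
theorem ar_inc : IncC c (AR r b c A z R) := by
  rintro o o' h ⟨w, h1, h2⟩
  exact ⟨w, h1, rc_inc h h2⟩

theorem e1_loc' : Loc (bxJ r s) ((E1 r b c x s).indicator 1) := fun _ _ h => ind_congr (E1_congr h)

/-- `E1` is local. -/
theorem e1_loc : Loc (Bq (pc r b) (s + 2) ∪ r.I) ((E1 r b c x s).indicator 1) := fun ω ω' h =>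
  e1_loc' ω ω' fun v hv => h v (mem_union_left _ (bxJ_sub (by omega) hv))

/-- The small box is near the junction. -/
theorem e1_loc1 {m : ℤ} (hm : s + 1 ≤ m) : Loc (Bq (pc r b) m) ((E1 r b c x s).indicator 1) :=
  fun ω ω' h => e1_loc' ω ω' fun v hv => h v (bxJ_sub hm hv)

/-! ### (T4), the frame -/

section frame

variable {l : ℕ} {p : ZMod l → ℤ × ℤ} {n : ℕ} {S₀ : Finset (ℤ × ℤ)} {Q : Marks} {bc : Bc}
  {g δ : ℝ} {y : Fin l × Fin (Q.m + 1)}

/-- The direction of the exterior face. -/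
theorem frame_dr {d : ℕ} : dr (frows θ β p Q n d bc y) (ex (pdir p y.1)) = pdir p y.1 := by
  have h := frow_o (θ := θ) (β := β) (p := p) (n := n) (bc := bc) (d := d) y
  unfold dr
  by_cases ho : (frows θ β p Q n d bc y).o = true
  · rw [if_pos ho]
    rcases h.1 ho with h2 | h2 <;> rw [h2] <;> rfl
  · rw [if_neg ho]
    have h3 : pdir p y.1 = 1 ∨ pdir p y.1 = 3 := by
      have h4 : pdir p y.1 ≠ 0 := fun h5 => ho (h.2 (Or.inl h5))
      have h5 : pdir p y.1 ≠ 2 := fun h5 => ho (h.2 (Or.inr h5))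
      omega
    rcases h3 with h2 | h2 <;> rw [h2] <;> rfl

variable (hp : IsPolygon p) (hD : Encloses p S₀) (hQ : Q.Ok) (hg : Gap Q l g) (hδ : 0 < δ)
  (hδg : 4 * δ ≤ g) (hn : 16 ≤ δ * n) (hb : bc.Ok l Q) (hbg : BGap l Q g bc) (hθ : 0 < θ)
  (hθ' : 3 * θ ≤ Real.pi) (hβ : β = (θ - Real.pi) / 2 ∨ β = (Real.pi - 3 * θ) / 2)

include hQ hg hbg hδ hδg hn in
/-- The site of the junction. -/
theorem frame_pc (h : Spc l Q bc y) :
    pc (frows θ β p Q n ⌊δ * n⌋₊ bc y) (ex (pdir p y.1)) = yO p n Q bc y.1 := by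
  rw [pc_crn]
  exact z1_crn hQ hg hbg hδ hδg hn h

include hQ hg hbg hδ hδg hn in
/-- The squares on the exterior side. -/
theorem frame_Sd (h : Spc l Q bc y) (v : ℤ × ℤ) :
    Sd (frows θ β p Q n ⌊δ * n⌋₊ bc y) (ex (pdir p y.1)) v ↔
      v ∈ Qs (pdir p y.1) (yO p n Q bc y.1) := by
  rw [← mem_Qs, frame_dr, frame_pc hQ hg hδ hδg hn hbg h]

include hQ hg hbg hδ hδg hn in
/-- The sites of the line of the exterior face. -/
theorem frame_st (h : Spc l Q bc y) (t : ℤ) :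
    st (frows θ β p Q n ⌊δ * n⌋₊ bc y) (ex (pdir p y.1)) t ∈
      Hs (pdir p y.1) (yO p n Q bc y.1) := by
  have := st_mem (frows θ β p Q n ⌊δ * n⌋₊ bc y) (ex (pdir p y.1)) t
  rwa [frame_dr, frame_pc hQ hg hδ hδg hn hbg h] at this

include hp hD hQ hg hδ hδg hn hbg hθ hθ' hβ in
/-- The boxes at the junction are in the middle of the row. -/
theorem frame_gd (hy : ¬ Plain (frows θ β p Q n ⌊δ * n⌋₊ bc y)) (h2 : 2 ≤ R)
    (hR : 8 * (R : ℝ) ≤ g * n) : Gd (frows θ β p Q n ⌊δ * n⌋₊ bc y) R := by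
  have hok := frows_okg hp hD hQ hθ hθ' hβ hg hbg hδ hδg hn y
  obtain ⟨h3, h4⟩ := k0_ok hok hy
  have hn0 : (0 : ℝ) ≤ n := Nat.cast_nonneg n
  have h5 : 4 * δ * n ≤ g * n := mul_le_mul_of_nonneg_right hδg hn0
  refine ⟨h2, ?_, ?_⟩
  · have : ((R + 2 : ℤ) : ℝ) ≤ (((frows θ β p Q n ⌊δ * n⌋₊ bc y).k0 : ℤ) : ℝ) := by
      push_cast; linarith
    exact_mod_cast this
  · have : (((frows θ β p Q n ⌊δ * n⌋₊ bc y).k0 + R + 2 : ℤ) : ℝ) ≤
        (((frows θ β p Q n ⌊δ * n⌋₊ bc y).L : ℤ) : ℝ) := by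
      push_cast; linarith
    exact_mod_cast this

include hp hD hQ hg hδ hδg hn hbg hθ hθ' hβ in
/-- The state of a row. -/
theorem frame_s : (frows θ β p Q n ⌊δ * n⌋₊ bc y).s = 1 ∨
    (frows θ β p Q n ⌊δ * n⌋₊ bc y).s = -1 :=
  (frows_okg hp hD hQ hθ hθ' hβ hg hbg hδ hδg hn y).s

include hp hD hQ hg hδ hδg hn hb hbg hθ hθ' hβ in
/-- **(T4)** The factor of a junction does not see the other rows. -/
theorem frame_Tc (hy : ¬ Plain (frows θ β p Q n ⌊δ * n⌋₊ bc y)) (hR : 8 * (R : ℝ) ≤ g * n) :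
    Tc θ (uI (frows θ β p Q n ⌊δ * n⌋₊ bc)) (frows θ β p Q n ⌊δ * n⌋₊ bc y) 2 R ω =
      Tc θ (frows θ β p Q n ⌊δ * n⌋₊ bc y).I (frows θ β p Q n ⌊δ * n⌋₊ bc y) 2 R ω := by
  have hn0 : (0 : ℝ) ≤ n := Nat.cast_nonneg n
  have h5 : 4 * δ * n ≤ g * n := mul_le_mul_of_nonneg_right hδg hn0
  refine Tc_row (fun v hv => mem_uI.2 ⟨_, hv⟩) (fun v hv h => ?_) (fun e he h => ?_) fun h => ?_
  · exact ctr_own2 hp hD hQ hg hδ hδg hn hb hbg hθ hθ' hβ y hy (by linarith) hv h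
  · obtain ⟨j, hj⟩ := mem_uI.1 h
    by_cases hij : y = j
    · rw [hij]; exact hj
    · exfalso
      have a1 := frow_far (θ := θ) (β := β) (bc := bc) hp hQ hg hδ hδg hn hij he hj
      rw [H506.Q.nm_hd_tl] at a1
      have : (16 : ℤ) ≤ (⌊δ * n⌋₊ : ℤ) := by
        exact_mod_cast Nat.le_floor (by push_cast; exact hn)
      omega
  · obtain ⟨-, h4⟩ := k0_ok (frows_okg hp hD hQ hθ hθ' hβ hg hbg hδ hδg hn y) hy
    have : ((frows θ β p Q n ⌊δ * n⌋₊ bc y).k0 : ℝ) ≤ (frows θ β p Q n ⌊δ * n⌋₊ bc y).L := by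
      linarith
    exact_mod_cast this

end frame

end Vale.Agent.P167.H398.Zt
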